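import Vale.Agent.P308.Model

/-! The counting process as a program on lists. -/

namespace Vale.Agent.P308

/-- a matrix entry -/
def get2 (M : List (List ℕ)) (x y : ℕ) : ℕ := (M.getD x []).getD y 0

/-- tabulating a matrix -/
def tab2 (v : List ℕ) (f : ℕ → ℕ → ℕ) : List (List ℕ) := v.map fun x => v.map fun y => f x y

/-- the minimax closure -/
def fwL (v : List ℕ) (M : List (List ℕ)) : List (List ℕ) :=
  v.foldl (fun M j => tab2 v fun x y => min (get2 M x y) (max (get2 M x j) (get2 M j y))) M

/-- the cost of a matching -/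
def costL (v : List ℕ) (W : List (List ℕ)) (X : List ℕ) : ℕ :=
  (v.map fun x => get2 W x (X.getD x 0)).sum

/-- a transposition -/
def swp (a b x : ℕ) : ℕ := if x = a then b else if x = b then a else x

/-- the switch move -/
def swL (v : List ℕ) (a b : ℕ) (X : List ℕ) : List ℕ :=
  v.map fun x => swp a b (X.getD (swp a b x) 0)

/-- the vertices of an alternating walk -/
def arcL (v X Y : List ℕ) (p : Bool) (x k : ℕ) : List ℕ :=
  ((v.take k).foldl (fun (s : Bool × ℕ × List ℕ) _ =>
    (!s.1, if s.1 = true then X.getD s.2.1 0 else Y.getD s.2.1 0, s.2.1 :: s.2.2)) (p, x, [])).2.2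

/-- the vertices whose edge leaves `U` -/
def crsL (v U X : List ℕ) : List ℕ := v.filter fun x => decide (x ∈ U ∧ ¬ X.getD x 0 ∈ U)

/-- inside of `X`, outside of `Y` -/
def mixL (v U X Y : List ℕ) : List ℕ :=
  if (crsL v U X).length ≤ 1 ∧ (crsL v U Y).length = (crsL v U X).length then
    v.map fun x => if x ∈ U then
      (if X.getD x 0 ∈ U then X.getD x 0 else Y.getD ((crsL v U Y).headD 0) 0)
      else (if Y.getD x 0 ∈ U then (crsL v U X).headD 0 else Y.getD x 0)
  else X

/-- keeping entries small -/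
def clip (v X : List ℕ) : List ℕ := v.map fun x => min (X.getD x 0) v.length

/-- the proposed move -/
def mvL (v : List ℕ) (f p : Bool) (a b : ℕ) (z : List ℕ × List ℕ) : List ℕ × List ℕ :=
  if a < v.length then
    (if f = true then (if b < v.length then (clip v (swL v a b z.1), z.2) else z)
    else (clip v (mixL v (arcL v z.1 z.2 p a b) z.1 z.2),
      clip v (mixL v (arcL v z.1 z.2 p a b) z.2 z.1)))
  else z

/-- the rank of a key -/
def rkL (v h : List ℕ) (x : ℕ) : ℕ := (v.filter fun u => decide (h.getD u 0 < h.getD x 0)).length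

/-- the matching of consecutive keys -/
def keyL (v h : List ℕ) : List ℕ :=
  if (v.all fun x => v.all fun y => decide (x = y ∨ h.getD x 0 ≠ h.getD y 0)) = true then
    v.map fun x => (v.find? fun u => decide (rkL v h u = prt (rkL v h x))).getD 0
  else v.map prt

/-- a random matching -/
def initL (v : List ℕ) (r : ℕ) (w : List Bool) : List ℕ :=
  keyL v (v.map fun x => val ((w.drop (x * r)).take r))

/-- the product of the odd entries -/
def dfL (v : List ℕ) : ℕ := v.foldl (fun s i => if i % 2 = 1 then s * i else s) 1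

/-- An instance: a list of length `n`, a list whose length gives the scale, the adjacency list. -/
abbrev Ins : Type := List ℕ × List ℕ × List ℕ

/-- States. -/
abbrev StL : Type := ℕ × List ℕ × ℕ × List (List ℕ)

/-- the number of vertices with the two extra ones -/
def mm (a : Ins) : ℕ := a.1.length + a.1.length % 2 + 2
/-- the logarithm of the scale -/
def qq (a : Ins) : ℕ := Nat.size a.2.1.length
/-- the vertices -/
def vs (a : Ins) : List ℕ := List.range (mm a)

/-- raw costs -/
def cL (a : Ins) (t : ℕ) (g : List ℕ) : List (List ℕ) := tab2 (vs a) fun x y =>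
  if x = y then 0 else if x = mm a - 1 ∨ y = mm a - 1 then BB (qq a)
  else (if x < a.1.length ∧ y < a.1.length ∧ a.2.2.getD (x * a.1.length + y) 0 = 1 then 0
    else min t (T1 (qq a))) + g.getD x 0 + g.getD y 0

/-- extra cost of root edges -/
def exL (a : Ins) (t x : ℕ) : ℕ := if x = mm a - 2 then 0 else t - T1 (qq a)

/-- completed costs -/
def wL (a : Ins) (t : ℕ) (g : List ℕ) : List (List ℕ) := tab2 (vs a) fun x y =>
  if x = y then 0 else if y = mm a - 1 then BB (qq a) + exL a t x
  else if x = mm a - 1 then BB (qq a) + exL a t y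
  else min (get2 (cL a t g) x y) (DD (qq a) + get2 (fwL (vs a) (cL a t g)) x y)

/-- feedback on the potentials -/
def updL (a : Ins) (t : ℕ) (g : List ℕ) (x : ℕ) : List ℕ :=
  (vs a).map fun y => if t < T1 (qq a) ∧ y ≠ x then g.getD y 0 + cc (qq a) else g.getD y 0

/-- the pair move -/
def pairCL (a : Ins) (W : List (List ℕ)) : List ℕ × List ℕ → List Bool → List ℕ × List ℕ :=
  metG (mvL (vs a)) (fun z => costL (vs a) W z.1 + costL (vs a) W z.2) (qq a) (510 * qq a)

/-- mixing the population -/
def mixPL (a : Ins) (W : List (List ℕ)) (P : List (List ℕ)) (w : List Bool) : List (List ℕ) :=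
  (chunks (Bs (qq a)) (JJ (qq a)) w).foldl
    (popStep ((vs a).map prt) (pairCL a W) (1000 * qq a)) P

/-- the new accumulated cost -/
def nextSL (a : Ins) (t : ℕ) (g : List ℕ) (S x : ℕ) (Y : List ℕ) : ℕ :=
  S + (costL (vs a) (wL a (t + 1) (updL a t g x)) Y - costL (vs a) (wL a t g) Y)

/-- using two particles as probes -/
def probeL (a : Ins) (t : ℕ) (g : List ℕ) (S : ℕ) (P : List (List ℕ)) : StL :=
  (t + 1, updL a t g ((P.getD 0 ((vs a).map prt)).getD (mm a - 1) 0),
    nextSL a t g S ((P.getD 0 ((vs a).map prt)).getD (mm a - 1) 0) (P.getD 1 ((vs a).map prt)),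
    P.drop 2)

/-- one stage -/
def stageL (a : Ins) (s : StL) (w : List Bool) : StL :=
  probeL a s.1 s.2.1 s.2.2.1 (mixPL a (wL a s.1 s.2.1) s.2.2.2 w)

/-- the initial population -/
def pop0L (a : Ins) (w : List Bool) : List (List ℕ) :=
  (chunks (mm a * QQ (qq a) ^ 2) (QQ (qq a) ^ 1000) w).map (initL (vs a) (QQ (qq a) ^ 2))

/-- the whole run -/
def runL (a : Ins) (w : List Bool) : StL :=
  (chunks (JJ (qq a) * Bs (qq a)) (TT (qq a))
    (w.drop (QQ (qq a) ^ 1000 * (mm a * QQ (qq a) ^ 2)))).foldl (stageL a)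
      (0, (vs a).map fun _ => 0, 0, pop0L a w)

/-- the total potential -/
def totL (a : Ins) (g : List ℕ) : ℕ := 2 * (g.take (mm a - 2)).sum

/-- the rounded estimate -/
def outL (a : Ins) (g : List ℕ) (S : ℕ) : ℕ :=
  (2 * (dfL (vs a) * ((QQ (qq a) ^ 510 - 1) ^ S * (QQ (qq a) ^ 510) ^ totL a g)) +
    (QQ (qq a) ^ 510) ^ S * (QQ (qq a) ^ 510 - 1) ^ totL a g) /
      (2 * ((QQ (qq a) ^ 510) ^ S * (QQ (qq a) ^ 510 - 1) ^ totL a g))

/-- the instance read from the input -/
def insOf (x : List ℕ) : Ins :=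
  (x.take (x.getD 0 0), x.take (65536 + x.getD 0 0 + x.getD 1 0 + Nat.size (x.getD 2 0)),
    (x.drop 3).take (x.getD 0 0 * x.getD 0 0))

/-- the coins read from the input -/
def coinsOf (x : List ℕ) : List Bool :=
  (x.drop (3 + x.getD 0 0 * x.getD 0 0)).map fun t => decide (t = 1)

/-- the algorithm -/
def algo (x : List ℕ) : List ℕ :=
  [outL (insOf x) (runL (insOf x) (coinsOf x)).2.1 (runL (insOf x) (coinsOf x)).2.2.1]

/-- a matching as a list -/
def encP {m : ℕ} (X : PM (Fin m)) : List ℕ := List.ofFn fun v => (X.1 v).val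

/-- a matrix as a list -/
def encW {m : ℕ} (W : Fin m → Fin m → ℕ) : List (List ℕ) := List.ofFn fun x => List.ofFn (W x)

end Vale.Agent.P308
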