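import Vale.Agent.P308.Coins
import Vale.Agent.Lib.PolyTime.More

/-! More polynomial-time primitives. -/

namespace Vale.Agent.P308

open Vale.Agent.Lib.PolyTime

section General

variable {α : Type} [Enc α]

@[fun_prop] theorem pt_size {f : α → ℕ} (hf : PT f) : PT fun a => Nat.size (f a) :=
  hf.bits.length.congr fun _ => (Nat.size_eq_bits_len _).symm

theorem pt_two_pow {f : α → ℕ} (hf : PT f) (hb : PB f) : PT fun a => 2 ^ f a := by
  have key : ∀ k : ℕ, (fun s : ℕ => s + s)^[k] 1 = 2 ^ k := fun k => by
    induction k with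
    | zero => rfl
    | succ k ih => rw [Function.iterate_succ_apply', ih]; ring
  refine (PT.iterate (f := fun _ (s : ℕ) => s + s) (i := fun _ => 1) (by fun_prop) hf hb
    (by fun_prop) (hb.add (PB.const 1)) fun a k hk => ?_).congr fun a => (key _).symm
  rw [key, sz_nat, Nat.size_pow]; omega

@[fun_prop] theorem pt_pow {f : α → ℕ} (k : ℕ) (hf : PT f) : PT fun a => f a ^ k := by
  induction k with
  | zero => exact (PT.const 1).congr fun _ => pow_zero _
  | succ k ih => exact (ih.mul hf).congr fun _ => pow_succ _ _

theorem foldr_div (b : ℕ) (l : List Bool) : l.foldr (fun (d : Bool) (s : ℕ × ℕ) =>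
    (s.1 + s.1 + if d = true then 1 else 0,
      if 0 < b ∧ (s.2 + s.2 + 1) * b ≤ s.1 + s.1 + if d = true then 1 else 0 then s.2 + s.2 + 1
      else s.2 + s.2)) (0, 0) = (val l, val l / b) := by
  induction l with
  | nil => simp [val]
  | cons d l ih =>
    have e : val (d :: l) = val l + val l + if d = true then 1 else 0 := rfl
    rw [List.foldr_cons, ih, e]
    have hd : (if d = true then 1 else 0) ≤ 1 := by split_ifs <;> omega
    generalize (if d = true then 1 else 0) = x at hd
    generalize val l = v
    refine Prod.ext rfl ?_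
    rcases Nat.eq_zero_or_pos b with rfl | hb
    · simp
    have h1 := Nat.div_add_mod v b
    have h2 := Nat.mod_lt v hb
    dsimp only
    rw [mul_comm] at h1
    rw [eq_comm, Nat.div_eq_iff hb]
    split_ifs with h <;> simp only [add_mul, one_mul, hb, true_and] at h ⊢ <;> omega

theorem val_bits (k : ℕ) : val k.bits = k :=
  foldr_bits k _ id rfl fun b k => by cases b <;> simp <;> ring

theorem size_double (s : ℕ) {x : ℕ} (hx : x ≤ 1) : Nat.size (s + s + x) ≤ Nat.size s + 1 := by
  rw [Nat.size_le, pow_succ]
  have := Nat.lt_size_self s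
  omega

@[fun_prop] theorem pt_div {f g : α → ℕ} (hf : PT f) (hg : PT g) : PT fun a => f a / g a := by
  have h := PT.foldr_add (f := fun a (d : Bool) (s : ℕ × ℕ) =>
    (s.1 + s.1 + if d = true then 1 else 0,
      if 0 < g a ∧ (s.2 + s.2 + 1) * g a ≤ s.1 + s.1 + if d = true then 1 else 0 then s.2 + s.2 + 1
      else s.2 + s.2)) (i := fun _ => (0, 0)) (by fun_prop) hf.bits (by fun_prop) (PB.const 3)
    fun a s d _ => by
      have h1 := size_double s.1 (x := if d = true then 1 else 0) (by split_ifs <;> omega)
      have h2 := size_double s.2 (x := 1) le_rfl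
      have h3 := size_double s.2 (x := 0) zero_le_one
      rw [sz_prod s]
      simp only [sz_pair, sz_nat, add_zero] at *
      split_ifs at * <;> omega
  exact h.snd.congr fun a => by rw [foldr_div, val_bits]

@[fun_prop] theorem pt_val {w : α → List Bool} (hw : PT w) : PT fun a => val (w a) :=
  PT.foldr_add (f := fun _ (d : Bool) (s : ℕ) => s + s + if d = true then 1 else 0)
    (i := fun _ => 0) (by fun_prop) hw (by fun_prop) (PB.const 1)
    fun a s d _ => size_double s (by split_ifs <;> omega)

theorem pt_chunks {B k : α → ℕ} {w : α → List Bool} (hB : PT B) (hk : PT k) (hb : PB k)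
    (hw : PT w) : PT fun a => chunks (B a) (k a) (w a) := by
  have := PT.range hk hb
  unfold chunks; fun_prop

@[fun_prop] theorem pt_range_length {β : Type} [Enc β] [Inhabited β] {l : α → List β} (hl : PT l) :
    PT fun a => List.range (l a).length := PT.idx hl

theorem two_pow_size_le {x : ℕ} (hx : 0 < x) : 2 ^ Nat.size x ≤ 2 * x := by
  have h1 := Nat.size_pos.2 hx
  have h2 := (Nat.lt_size (m := Nat.size x - 1) (n := x)).1 (by omega)
  rw [show Nat.size x = Nat.size x - 1 + 1 by omega, pow_succ]; omega

end General

end Vale.Agent.P308
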