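import Vale.Agent.P308.Algo
import Vale.Agent.P308.Prim

/-! The counting program runs in polynomial time. -/

namespace Vale.Agent.P308

open Finset

namespace AlgoPT

open Vale.Agent.Lib.PolyTime

variable {α : Type} [Enc α]

@[fun_prop] theorem pt_set {β : Type} [Enc β] [Inhabited β] {l : α → List β} {i : α → ℕ}
    {y : α → β} (hl : PT l) (hi : PT i) (hy : PT y) : PT fun x => (l x).set (i x) (y x) := by
  have h : PT fun x => if i x < (l x).length then (l x).take (i x) ++ y x :: (l x).drop (i x + 1)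
      else l x := by fun_prop
  exact h.congr fun x => List.set_eq_take_append_cons_drop

theorem size_mul_le (a b : ℕ) : Nat.size (a * b) ≤ Nat.size a + Nat.size b := by
  rw [Nat.size_le, pow_add]
  exact Nat.mul_lt_mul'' (Nat.lt_size_self a) (Nat.lt_size_self b)

theorem pt_powb {f e : α → ℕ} (hf : PT f) (he : PT e) (hb : PB e) : PT fun x => f x ^ e x := by
  have key : ∀ b k : ℕ, (fun s : ℕ => s * b)^[k] 1 = b ^ k := fun b k => by
    induction k with
    | zero => rfl
    | succ k ih => rw [Function.iterate_succ_apply', ih, pow_succ]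
  have hs : ∀ b k : ℕ, Nat.size (b ^ k) ≤ k * Nat.size b + 1 := fun b k => by
    induction k with
    | zero => simp
    | succ k ih => have := size_mul_le (b ^ k) b; rw [pow_succ, add_mul]; omega
  refine (PT.iterate (f := fun x (s : ℕ) => s * f x) (i := fun _ => 1) (by fun_prop) he hb
    (by fun_prop) ((hb.mul hf.1).add (PB.const 1)) fun x k hk => ?_).congr fun x => (key _ _).symm
  rw [key, sz_nat, sz_nat]
  exact (hs _ _).trans (Nat.add_le_add_right (Nat.mul_le_mul_right _ hk) _)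

theorem getD_mem {β : Type} (l : List β) (i : ℕ) (d : β) : l.getD i d ∈ l ∨ l.getD i d = d := by
  rw [List.getD_eq_getElem?_getD]
  rcases hl : l[i]? with _ | z
  · simp
  · exact Or.inl (List.mem_of_getElem? hl)

theorem getD_le {Z : List ℕ} {B : ℕ} (h : ∀ z ∈ Z, z ≤ B) (l : ℕ) : Z.getD l 0 ≤ B := by
  rcases getD_mem Z l 0 with h1 | h1
  · exact h _ h1
  · omega

theorem sz_getD (Z : List ℕ) (l : ℕ) : sz (Z.getD l 0) ≤ sz Z := by
  rcases getD_mem Z l 0 with h1 | h1
  · exact sz_mem h1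
  · rw [h1]; simp [sz_nat]

theorem get2_le {M : List (List ℕ)} {B : ℕ} (h : ∀ r ∈ M, ∀ z ∈ r, z ≤ B) (x y : ℕ) :
    get2 M x y ≤ B := by
  refine getD_le (fun z hz => ?_) y
  rcases getD_mem M x [] with h1 | h1
  · exact h _ h1 z hz
  · rw [h1] at hz; simp at hz

theorem tab2_le {v : List ℕ} {f : ℕ → ℕ → ℕ} {B : ℕ} (h : ∀ x y, f x y ≤ B) :
    ∀ r ∈ tab2 v f, ∀ z ∈ r, z ≤ B := by
  intro r hr z hz
  obtain ⟨x, -, rfl⟩ := List.mem_map.1 hr
  obtain ⟨y, -, rfl⟩ := List.mem_map.1 hz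
  exact h x y

theorem sz_map_le {v : List ℕ} {f : ℕ → ℕ} {B : ℕ} (h : ∀ x ∈ v, f x ≤ B) :
    sz (v.map f) ≤ v.length * (2 * sz B + 2) := by
  have := sz_le_of_forall (l := v.map f) (b := sz B) fun z hz => by
    obtain ⟨x, hx, rfl⟩ := List.mem_map.1 hz
    exact sz_nat_mono (h x hx)
  rwa [List.length_map] at this

theorem sz_tab2 {v : List ℕ} {f : ℕ → ℕ → ℕ} {B : ℕ} (h : ∀ x y, f x y ≤ B) :
    sz (tab2 v f) ≤ v.length * (2 * (v.length * (2 * sz B + 2)) + 2) := by
  have := sz_le_of_forall (l := tab2 v f) (b := v.length * (2 * sz B + 2)) fun r hr => by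
    obtain ⟨x, -, rfl⟩ := List.mem_map.1 hr
    exact sz_map_le fun y _ => h x y
  rwa [tab2, List.length_map] at this

variable {a : α → Ins} {v U X Y g h : α → List ℕ} {i j k r t S : α → ℕ} {w : α → List Bool}
  {p f : α → Bool} {M W P : α → List (List ℕ)} {z : α → List ℕ × List ℕ} {s : α → StL}

@[fun_prop] theorem pt_get2 (hM : PT M) (hi : PT i) (hj : PT j) :
    PT fun x => get2 (M x) (i x) (j x) := by
  unfold get2; fun_prop

@[fun_prop] theorem pt_fwL (hv : PT v) (hM : PT M) : PT fun x => fwL (v x) (M x) := by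
  have hL : PT fun x => lmax (M x).flatten := by fun_prop
  refine PT.foldl_inv (f := fun x N j => tab2 (v x) fun a b =>
      min (get2 N a b) (max (get2 N a j) (get2 N j b))) (by unfold tab2; fun_prop) hv hM
    (hM.1.add (hv.pb_length.mul ((hv.pb_length.mul (hL.1.lin 2 2)).lin 2 2)))
    (fun x N => (∀ r ∈ N, ∀ y ∈ r, y ≤ lmax (M x).flatten) ∧ sz N ≤ sz (M x) + (v x).length *
      (2 * ((v x).length * (2 * sz (lmax (M x).flatten) + 2)) + 2))
    (fun x => ⟨fun r hr y hy => le_lmax (List.mem_flatten.2 ⟨r, hr, hy⟩), Nat.le_add_right _ _⟩)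
    (fun x N j _ hN => ?_) fun x N hN => hN.2
  have h1 : ∀ a b, min (get2 N a b) (max (get2 N a j) (get2 N j b)) ≤ lmax (M x).flatten :=
    fun a b => (min_le_left _ _).trans (get2_le hN.1 a b)
  exact ⟨tab2_le h1, (sz_tab2 h1).trans (Nat.le_add_left _ _)⟩

@[fun_prop] theorem pt_costL (hv : PT v) (hW : PT W) (hX : PT X) :
    PT fun x => costL (v x) (W x) (X x) := by
  unfold costL; fun_prop

@[fun_prop] theorem pt_swp (hi : PT i) (hj : PT j) (hk : PT k) :
    PT fun x => swp (i x) (j x) (k x) := by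
  unfold swp; fun_prop

@[fun_prop] theorem pt_swL (hv : PT v) (hi : PT i) (hj : PT j) (hX : PT X) :
    PT fun x => swL (v x) (i x) (j x) (X x) := by
  unfold swL; fun_prop

@[fun_prop] theorem pt_arcL (hv : PT v) (hX : PT X) (hY : PT Y) (hp : PT p) (hi : PT i)
    (hk : PT k) : PT fun x => arcL (v x) (X x) (Y x) (p x) (i x) (k x) := by
  refine (PT.foldl_add (f := fun x (s : Bool × ℕ × List ℕ) (_ : ℕ) =>
      (!s.1, if s.1 = true then (X x).getD s.2.1 0 else (Y x).getD s.2.1 0, s.2.1 :: s.2.2))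
    (l := fun x => (v x).take (k x)) (i := fun x => (p x, i x, [])) (by fun_prop) (by fun_prop)
    (by fun_prop) ((hX.1.add hY.1).lin 2 2) fun x s _ _ => ?_).snd.snd
  have h1 := sz_getD (X x) s.2.1
  have h2 := sz_getD (Y x) s.2.1
  rw [sz_prod s, sz_prod s.2]
  simp only [sz_pair, sz_bool, sz_cons]
  split_ifs <;> omega

@[fun_prop] theorem pt_crsL (hv : PT v) (hU : PT U) (hX : PT X) :
    PT fun x => crsL (v x) (U x) (X x) := by
  unfold crsL; fun_prop

@[fun_prop] theorem pt_mixL (hv : PT v) (hU : PT U) (hX : PT X) (hY : PT Y) :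
    PT fun x => mixL (v x) (U x) (X x) (Y x) := by
  unfold mixL; fun_prop

@[fun_prop] theorem pt_clip (hv : PT v) (hX : PT X) : PT fun x => clip (v x) (X x) := by
  unfold clip; fun_prop

@[fun_prop] theorem pt_mvL (hv : PT v) (hf : PT f) (hp : PT p) (hi : PT i) (hj : PT j)
    (hz : PT z) : PT fun x => mvL (v x) (f x) (p x) (i x) (j x) (z x) := by
  unfold mvL; fun_prop

@[fun_prop] theorem pt_rkL (hv : PT v) (hh : PT h) (hi : PT i) :
    PT fun x => rkL (v x) (h x) (i x) := by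
  unfold rkL; fun_prop

@[fun_prop] theorem pt_prt (hi : PT i) : PT fun x => prt (i x) := by
  unfold prt; fun_prop

@[fun_prop] theorem pt_keyL (hv : PT v) (hh : PT h) : PT fun x => keyL (v x) (h x) := by
  unfold keyL; fun_prop

@[fun_prop] theorem pt_initL (hv : PT v) (hr : PT r) (hw : PT w) :
    PT fun x => initL (v x) (r x) (w x) := by
  unfold initL; fun_prop

@[fun_prop] theorem pt_dfL (hv : PT v) : PT fun x => dfL (v x) := by
  refine PT.foldl_add (f := fun _ (s : ℕ) (i : ℕ) => if i % 2 = 1 then s * i else s)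
    (i := fun _ => 1) (by fun_prop) hv (by fun_prop) hv.1 fun x s y hy => ?_
  have h1 := sz_mem hy
  have h2 := size_mul_le s y
  simp only [sz_nat] at h1 ⊢
  split_ifs <;> omega

@[fun_prop] theorem pt_acc (hr : PT r) (hk : PT k) (hw : PT w) :
    PT fun x => acc (r x) (k x) (w x) := by
  unfold acc; simp only [Function.id_def]; fun_prop

@[fun_prop] theorem pt_mm (ha : PT a) : PT fun x => mm (a x) := by unfold mm; fun_prop

theorem pb_mm (ha : PT a) : PB fun x => mm (a x) :=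
  (ha.fst.pb_length.add (PB.const 3)).of_le fun x => by unfold mm; omega

@[fun_prop] theorem pt_qq (ha : PT a) : PT fun x => qq (a x) := by unfold qq; fun_prop

theorem pb_qq (ha : PT a) : PB fun x => qq (a x) := ha.snd.fst.length.1

@[fun_prop] theorem pt_vs (ha : PT a) : PT fun x => vs (a x) := PT.range (pt_mm ha) (pb_mm ha)

/-- the scale of an instance -/
def QA (a : Ins) : ℕ := QQ (qq a)

theorem QA_eq (a : Ins) : QQ (qq a) = QA a := rfl

@[fun_prop] theorem pt_QA (ha : PT a) : PT fun x => QA (a x) := pt_two_pow (pt_qq ha) (pb_qq ha)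

theorem pb_QA (ha : PT a) : PB fun x => QA (a x) :=
  (ha.snd.fst.pb_length.lin 2 1).of_le fun x => by
    unfold QA QQ qq
    rcases Nat.eq_zero_or_pos (a x).2.1.length with h | h
    · simp [h]
    · have := two_pow_size_le h; omega

@[fun_prop] theorem pt_cL (ha : PT a) (ht : PT t) (hg : PT g) :
    PT fun x => cL (a x) (t x) (g x) := by
  unfold cL tab2 BB T1; simp only [QA_eq]; fun_prop

@[fun_prop] theorem pt_exL (ha : PT a) (ht : PT t) (hi : PT i) :
    PT fun x => exL (a x) (t x) (i x) := by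
  unfold exL T1; simp only [QA_eq]; fun_prop

@[fun_prop] theorem pt_wL (ha : PT a) (ht : PT t) (hg : PT g) :
    PT fun x => wL (a x) (t x) (g x) := by
  unfold wL tab2 BB DD; simp only [QA_eq]; fun_prop

@[fun_prop] theorem pt_updL (ha : PT a) (ht : PT t) (hg : PT g) (hi : PT i) :
    PT fun x => updL (a x) (t x) (g x) (i x) := by
  unfold updL T1 cc; simp only [QA_eq]; fun_prop

@[fun_prop] theorem pt_pairCL (ha : PT a) (hW : PT W) (hz : PT z) (hw : PT w) :
    PT fun x => pairCL (a x) (W x) (z x) (w x) := by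
  unfold pairCL metG tryG; fun_prop

/-- one step of the population -/
def stepA (a : Ins) (W P : List (List ℕ)) (w : List Bool) : List (List ℕ) :=
  popStep ((vs a).map prt) (pairCL a W) (1000 * qq a) P w

@[fun_prop] theorem pt_stepA (ha : PT a) (hW : PT W) (hP : PT P) (hw : PT w) :
    PT fun x => stepA (a x) (W x) (P x) (w x) := by
  unfold stepA popStep popAt; fun_prop

/-- the size of a fresh particle -/
def KA (a : Ins) : ℕ := mm a * (2 * mm a + 2)

theorem pb_KA (ha : PT a) : PB fun x => KA (a x) := (pb_mm ha).mul ((pb_mm ha).lin 2 2)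

theorem len_vs (a : Ins) : (vs a).length = mm a := List.length_range

theorem sz_vs_map (a : Ins) {f : ℕ → ℕ} (h : ∀ x ∈ vs a, f x ≤ mm a) :
    sz ((vs a).map f) ≤ KA a := by
  have h1 := sz_nat_le (mm a)
  refine (sz_map_le h).trans ?_
  rw [len_vs]
  exact Nat.mul_le_mul_left _ (by omega)

theorem sz_prt (a : Ins) : sz ((vs a).map prt) ≤ KA a :=
  sz_vs_map a fun x hx => by
    have := List.mem_range.1 hx
    unfold prt; split_ifs <;> omega

theorem sz_clip (a : Ins) (X : List ℕ) : sz (clip (vs a) X) ≤ KA a :=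
  sz_vs_map a fun _ _ => (min_le_right _ _).trans (len_vs a).le

theorem pairCL_le (a : Ins) (W : List (List ℕ)) {b : ℕ} (hb : KA a ≤ b) (z : List ℕ × List ℕ)
    (w : List Bool) (h : sz z.1 ≤ b ∧ sz z.2 ≤ b) :
    sz (pairCL a W z w).1 ≤ b ∧ sz (pairCL a W z w).2 ≤ b := by
  have hm : ∀ f p i j, sz (mvL (vs a) f p i j z).1 ≤ b ∧ sz (mvL (vs a) f p i j z).2 ≤ b := by
    intro f p i j
    unfold mvL
    split_ifs
    exacts [⟨(sz_clip _ _).trans hb, h.2⟩, h, ⟨(sz_clip _ _).trans hb, (sz_clip _ _).trans hb⟩, h]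
  unfold pairCL metG tryG
  split_ifs
  exacts [hm _ _ _ _, h, h]

theorem stepA_inv (a : Ins) (W : List (List ℕ)) {b n : ℕ} (hb : KA a ≤ b) (P : List (List ℕ))
    (w : List Bool) (h : P.length ≤ n ∧ ∀ X ∈ P, sz X ≤ b) :
    (stepA a W P w).length ≤ n ∧ ∀ X ∈ stepA a W P w, sz X ≤ b := by
  have hg : ∀ i, sz (P.getD i ((vs a).map prt)) ≤ b := fun i => by
    rcases getD_mem P i ((vs a).map prt) with h1 | h1
    · exact h.2 _ h1
    · rw [h1]; exact (sz_prt a).trans hb
  unfold stepA popStep popAt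
  split_ifs
  · refine ⟨by simpa using h.1, fun X hX => ?_⟩
    rcases List.mem_or_eq_of_mem_set hX with h1 | rfl
    · rcases List.mem_or_eq_of_mem_set h1 with h2 | rfl
      · exact h.2 X h2
      · exact (pairCL_le a W hb _ _ ⟨hg _, hg _⟩).1
    · exact (pairCL_le a W hb _ _ ⟨hg _, hg _⟩).2
  · exact h

theorem mixPL_inv (a : Ins) (W : List (List ℕ)) {b n : ℕ} (hb : KA a ≤ b) (P : List (List ℕ))
    (w : List Bool) (h : P.length ≤ n ∧ ∀ X ∈ P, sz X ≤ b) :
    (mixPL a W P w).length ≤ n ∧ ∀ X ∈ mixPL a W P w, sz X ≤ b := by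
  unfold mixPL
  generalize chunks _ _ w = L
  induction L generalizing P with
  | nil => exact h
  | cons u L ih => exact ih _ (stepA_inv a W hb P u h)

theorem sz_pop {P : List (List ℕ)} {b n : ℕ} (h : P.length ≤ n ∧ ∀ X ∈ P, sz X ≤ b) :
    sz P ≤ n * (2 * b + 2) :=
  (sz_le_of_forall h.2).trans (Nat.mul_le_mul_right _ h.1)

@[fun_prop] theorem pt_mixPL (ha : PT a) (hW : PT W) (hP : PT P) (hw : PT w) :
    PT fun x => mixPL (a x) (W x) (P x) (w x) :=
  PT.foldl_inv (f := fun x => stepA (a x) (W x)) (by fun_prop)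
    (pt_chunks (by unfold Bs Bp; simp only [QA_eq]; fun_prop)
      (by unfold JJ; simp only [QA_eq]; fun_prop) ((pb_QA ha).pow 1303) hw) hP
    (hP.pb_length.mul ((hP.1.add (pb_KA ha)).lin 2 2))
    (fun x Q => Q.length ≤ (P x).length ∧ ∀ X ∈ Q, sz X ≤ sz (P x) + KA (a x))
    (fun _ => ⟨le_rfl, fun _ hX => (sz_mem hX).trans (Nat.le_add_right _ _)⟩)
    (fun _ Q u _ hQ => stepA_inv _ _ (Nat.le_add_left _ _) Q u hQ) fun _ _ hQ => sz_pop hQ

@[fun_prop] theorem pt_nextSL (ha : PT a) (ht : PT t) (hg : PT g) (hS : PT S) (hi : PT i)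
    (hY : PT Y) : PT fun x => nextSL (a x) (t x) (g x) (S x) (i x) (Y x) := by
  unfold nextSL; fun_prop

@[fun_prop] theorem pt_probeL (ha : PT a) (ht : PT t) (hg : PT g) (hS : PT S) (hP : PT P) :
    PT fun x => probeL (a x) (t x) (g x) (S x) (P x) := by
  unfold probeL; fun_prop

@[fun_prop] theorem pt_stageL (ha : PT a) (hs : PT s) (hw : PT w) :
    PT fun x => stageL (a x) (s x) (w x) := by
  unfold stageL; fun_prop

@[fun_prop] theorem pt_pop0L (ha : PT a) (hw : PT w) : PT fun x => pop0L (a x) (w x) := by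
  have h1 : PT fun x => chunks (mm (a x) * QA (a x) ^ 2) (QA (a x) ^ 1000) (w x) :=
    pt_chunks (by fun_prop) (by fun_prop) ((pb_QA ha).pow _) hw
  exact PT.map (f := fun x u => initL (vs (a x)) (QA (a x) ^ 2) u) (by fun_prop) h1

/-- a bound on the costs -/
def WB (a : Ins) (t : ℕ) : ℕ := BB (qq a) + t + T1 (qq a) + 2 * (cc (qq a) * t)

theorem WB_mono (a : Ins) (t : ℕ) : WB a t ≤ WB a (t + 1) := by
  unfold WB; rw [mul_add (cc _)]; omega

theorem costL_le (a : Ins) (t : ℕ) {g : List ℕ} (hg : ∀ y ∈ g, y ≤ cc (qq a) * t) (Y : List ℕ) :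
    costL (vs a) (wL a t g) Y ≤ mm a * WB a t := by
  have h1 : ∀ x y, get2 (cL a t g) x y ≤ WB a t := get2_le (tab2_le fun x y => by
    have h1 := getD_le hg x
    have h2 := getD_le hg y
    unfold WB
    split_ifs <;> omega)
  have h2 : ∀ x y, get2 (wL a t g) x y ≤ WB a t := get2_le (tab2_le fun x y => by
    have h2 := h1 x y
    unfold WB exL at *
    split_ifs <;> omega)
  have h3 := List.sum_le_card_nsmul ((vs a).map fun x => get2 (wL a t g) x (Y.getD x 0)) (WB a t)
    fun z hz => by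
      obtain ⟨x, -, rfl⟩ := List.mem_map.1 hz
      exact h2 _ _
  rwa [List.length_map, len_vs, smul_eq_mul] at h3

/-- the invariant of the run -/
def Inv (a : Ins) (n b : ℕ) (s : StL) : Prop :=
  s.2.1.length = mm a ∧ (∀ y ∈ s.2.1, y ≤ cc (qq a) * s.1) ∧
    s.2.2.1 ≤ s.1 * (mm a * WB a s.1) ∧ s.2.2.2.length ≤ n ∧ ∀ X ∈ s.2.2.2, sz X ≤ b

theorem stageL_inv (a : Ins) {n b : ℕ} (hb : KA a ≤ b) (s : StL) (w : List Bool)
    (h : Inv a n b s) : Inv a n b (stageL a s w) := by
  obtain ⟨-, h2, h3, h4⟩ := h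
  have h5 := mixPL_inv a (wL a s.1 s.2.1) hb _ w h4
  have h6 : ∀ x, ∀ y ∈ updL a s.1 s.2.1 x, y ≤ cc (qq a) * (s.1 + 1) := by
    intro x y hy
    obtain ⟨u, -, rfl⟩ := List.mem_map.1 hy
    have := getD_le h2 u
    rw [mul_add]
    split_ifs <;> omega
  unfold stageL probeL
  generalize mixPL a (wL a s.1 s.2.1) s.2.2.2 w = Q at h5
  refine ⟨by simp [updL, len_vs], h6 _, ?_, by simp only [List.length_drop]; omega,
    fun X hX => h5.2 X (List.mem_of_mem_drop hX)⟩
  have h7 := costL_le a (s.1 + 1) (h6 ((Q.getD 0 ((vs a).map prt)).getD (mm a - 1) 0))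
    (Q.getD 1 ((vs a).map prt))
  have h8 := Nat.mul_le_mul_left s.1 (Nat.mul_le_mul_left (mm a) (WB_mono a s.1))
  simp only [nextSL]
  rw [add_mul]
  omega

theorem fold_inv (a : Ins) {n b : ℕ} (hb : KA a ≤ b) (L : List (List Bool)) (s : StL)
    (h : Inv a n b s) :
    Inv a n b (L.foldl (stageL a) s) ∧ (L.foldl (stageL a) s).1 = s.1 + L.length := by
  induction L generalizing s with
  | nil => exact ⟨h, rfl⟩
  | cons u L ih =>
    obtain ⟨h1, h2⟩ := ih _ (stageL_inv a hb s u h)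
    refine ⟨h1, h2.trans ?_⟩
    simp only [stageL, probeL, List.length_cons]
    omega

theorem init_inv (a : Ins) (P : List (List ℕ)) :
    Inv a P.length (sz P + KA a) (0, (vs a).map fun _ => 0, 0, P) :=
  ⟨by simp [len_vs], by simp, by simp, le_rfl,
    fun _ hX => (sz_mem hX).trans (Nat.le_add_right _ _)⟩

theorem WB_le (a : Ins) {t T : ℕ} (h : t ≤ T) : WB a t ≤ WB a T :=
  monotone_nat_of_le_succ (WB_mono a) h

/-- a bound on the accumulated cost -/
def SB (a : Ins) : ℕ := TT (qq a) * (mm a * WB a (TT (qq a)))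

theorem Inv.bound {a : Ins} {n b : ℕ} {s : StL} (h : Inv a n b s) (ht : s.1 ≤ TT (qq a)) :
    (∀ y ∈ s.2.1, y ≤ cc (qq a) * TT (qq a)) ∧ s.2.2.1 ≤ SB a :=
  ⟨fun y hy => (h.2.1 y hy).trans (Nat.mul_le_mul_left _ ht),
    h.2.2.1.trans (Nat.mul_le_mul ht (Nat.mul_le_mul_left _ (WB_le a ht)))⟩

theorem pb_TT (ha : PT a) : PB fun x => TT (qq (a x)) :=
  ((pb_QA ha).pow 512).add (((PB.const 3).mul (pb_qq ha)).mul ((pb_QA ha).pow 510))

theorem pb_gB (ha : PT a) : PB fun x => cc (qq (a x)) * TT (qq (a x)) :=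
  ((pb_QA ha).pow 3).mul (pb_TT ha)

theorem pb_SB (ha : PT a) : PB fun x => SB (a x) :=
  (pb_TT ha).mul ((pb_mm ha).mul (((((pb_QA ha).pow 520).add (pb_TT ha)).add
    ((pb_QA ha).pow 512)).add ((PB.const 2).mul (pb_gB ha))))

theorem len_chunks (B k : ℕ) (w : List Bool) : (chunks B k w).length = k := by simp [chunks]

@[fun_prop] theorem pt_runL (ha : PT a) (hw : PT w) : PT fun x => runL (a x) (w x) := by
  have hP := pt_pop0L ha hw
  refine PT.foldl (f := fun x => stageL (a x)) (by fun_prop)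
    (pt_chunks (by unfold JJ Bs Bp; simp only [QA_eq]; fun_prop)
      (by unfold TT T1 DD; simp only [QA_eq]; fun_prop) (pb_TT ha)
      (by simp only [QA_eq]; fun_prop)) (by fun_prop)
    ((((pb_TT ha).lin 2 1).add (((pb_mm ha).mul ((pb_gB ha).lin 2 2)).lin 2 1)).add
      (((pb_SB ha).lin 2 1).add (hP.pb_length.mul ((hP.1.add (pb_KA ha)).lin 2 2))))
    fun x k => ?_
  obtain ⟨h1, h2⟩ := fold_inv (a x) (Nat.le_add_left _ _) (List.take k (chunks
    (JJ (qq (a x)) * Bs (qq (a x))) (TT (qq (a x))) ((w x).drop (QQ (qq (a x)) ^ 1000 *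
      (mm (a x) * QQ (qq (a x)) ^ 2))))) _ (init_inv (a x) (pop0L (a x) (w x)))
  generalize List.foldl _ _ _ = s at h1 h2 ⊢
  have ht : s.1 ≤ TT (qq (a x)) := by
    rw [h2, List.length_take, len_chunks]; simp
  obtain ⟨h3, h4⟩ := h1.bound ht
  have h5 := sz_le_of_forall fun y hy => (sz_nat_le y).trans (h3 y hy)
  have h6 := sz_pop h1.2.2.2
  have h7 := sz_nat_le s.1
  have h8 := sz_nat_le s.2.2.1
  rw [h1.1] at h5
  rw [sz_prod, sz_prod s.2, sz_prod s.2.2]
  beta_reduce
  omega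

theorem runL_bound (a : Ins) (w : List Bool) :
    totL a (runL a w).2.1 ≤ 2 * (mm a * (cc (qq a) * TT (qq a))) ∧ (runL a w).2.2.1 ≤ SB a := by
  obtain ⟨h1, h2⟩ := fold_inv a (Nat.le_add_left _ _) (chunks (JJ (qq a) * Bs (qq a)) (TT (qq a))
    (w.drop (QQ (qq a) ^ 1000 * (mm a * QQ (qq a) ^ 2)))) _ (init_inv a (pop0L a w))
  rw [len_chunks, zero_add] at h2
  obtain ⟨h3, h4⟩ := h1.bound h2.le
  refine ⟨Nat.mul_le_mul_left _ ?_, h4⟩
  have h5 := List.sum_le_card_nsmul ((runL a w).2.1.take (mm a - 2)) _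
    fun y hy => h3 y (List.mem_of_mem_take hy)
  rw [smul_eq_mul, List.length_take] at h5
  exact h5.trans (Nat.mul_le_mul_right _ (by omega))

theorem pt_outL (ha : PT a) (hg : PT g) (hS : PT S) (h1 : PB fun x => totL (a x) (g x))
    (h2 : PB S) : PT fun x => outL (a x) (g x) (S x) := by
  have h3 : PT fun x => totL (a x) (g x) := by unfold totL; fun_prop
  have h4 : PT fun x => QA (a x) ^ 510 := by fun_prop
  have h5 : PT fun x => QA (a x) ^ 510 - 1 := by fun_prop
  have h6 := (pt_powb h4 hS h2).mul (pt_powb h5 h3 h1)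
  exact pt_div (((PT.const 2).mul ((pt_dfL (pt_vs ha)).mul
    ((pt_powb h5 hS h2).mul (pt_powb h4 h3 h1)))).add h6) ((PT.const 2).mul h6)

theorem pt_insOf : PT insOf := by unfold insOf; fun_prop

theorem pt_coinsOf : PT coinsOf := by unfold coinsOf; fun_prop

end AlgoPT

open AlgoPT Vale.Agent.Lib.PolyTime in
theorem pt_algo : Vale.Agent.Lib.PolyTime.PT algo := by
  have h := pt_runL pt_insOf pt_coinsOf
  exact PT.cons (pt_outL pt_insOf h.snd.fst h.snd.snd.fst
    (((PB.const 2).mul ((pb_mm pt_insOf).mul (pb_gB pt_insOf))).of_le fun _ => (runL_bound _ _).1)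
    ((pb_SB pt_insOf).of_le fun _ => (runL_bound _ _).2)) (PT.const [])

end Vale.Agent.P308
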