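import Mathlib

/-! Perfect matchings as fixed point free involutions; switch and crossover moves. -/

set_option linter.unusedSectionVars false

namespace Vale.Agent.P308

open Finset

variable {V : Type} [Fintype V] [DecidableEq V]

/-- fixed point free involutions -/
def IsPM (σ : V → V) : Prop := (∀ v, σ (σ v) = v) ∧ ∀ v, σ v ≠ v

instance : DecidablePred (IsPM (V := V)) := fun _ => inferInstanceAs (Decidable (_ ∧ _))

/-- perfect matchings of the complete graph -/
abbrev PM (V : Type) [Fintype V] [DecidableEq V] : Type := {σ : V → V // IsPM σ}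

theorem PM.inv (X : PM V) (v : V) : X.1 (X.1 v) = v := X.2.1 v

theorem PM.ne (X : PM V) (v : V) : X.1 v ≠ v := X.2.2 v

theorem PM.eq_iff (X : PM V) {a b : V} : X.1 a = b ↔ X.1 b = a :=
  ⟨fun h => by rw [← h, X.inv], fun h => by rw [← h, X.inv]⟩

theorem PM.inj (X : PM V) {a b : V} (h : X.1 a = X.1 b) : a = b := by
  rw [← X.inv a, h, X.inv]

/-- the cost of a matching: every edge is counted twice -/
def cost (W : V → V → ℕ) (σ : V → V) : ℕ := ∑ v, W v (σ v)

/-- the switch move: conjugation by a transposition -/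
def sw (a b : V) (X : PM V) : PM V :=
  ⟨fun v => Equiv.swap a b (X.1 (Equiv.swap a b v)), fun v => by simp [X.inv], fun v h => by
    have := congrArg (Equiv.swap a b) h
    rw [Equiv.swap_apply_self] at this
    exact X.ne _ this⟩

theorem sw_apply (a b : V) (X : PM V) (v : V) :
    (sw a b X).1 v = Equiv.swap a b (X.1 (Equiv.swap a b v)) := rfl

@[simp] theorem sw_sw (a b : V) (X : PM V) : sw a b (sw a b X) = X := by
  ext v; simp [sw_apply]

@[simp] theorem sw_self (a : V) (X : PM V) : sw a a X = X := by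
  ext v; simp [sw_apply]

/-- some edge leaves `U` -/
def Crs (U : Finset V) (σ : V → V) : Prop := ∃ a ∈ U, σ a ∉ U

/-- at most one edge leaves `U` -/
def Val (U : Finset V) (σ : V → V) : Prop := ∀ a ∈ U, ∀ b ∈ U, σ a ∉ U → σ b ∉ U → a = b

/-- the crossover along `U` is allowed -/
def Ok2 (U : Finset V) (X Y : V → V) : Prop := Val U X ∧ Val U Y ∧ (Crs U X ↔ Crs U Y)

theorem Ok2.symm {U : Finset V} {X Y : V → V} (h : Ok2 U X Y) : Ok2 U Y X :=
  ⟨h.2.1, h.1, h.2.2.symm⟩

open Classical in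
/-- the vertex of `U` whose edge leaves `U` -/
noncomputable def port (U : Finset V) (σ : V → V) (v : V) : V :=
  if h : Crs U σ then h.choose else v

theorem port_spec {U : Finset V} {σ : V → V} (h : Crs U σ) (v : V) :
    port U σ v ∈ U ∧ σ (port U σ v) ∉ U := by
  rw [port, dif_pos h]; exact h.choose_spec

theorem port_eq {U : Finset V} {σ : V → V} (hv : Val U σ) {a : V} (ha : a ∈ U) (h : σ a ∉ U)
    (v : V) : port U σ v = a :=
  hv _ (port_spec ⟨a, ha, h⟩ v).1 a ha (port_spec ⟨a, ha, h⟩ v).2 h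

/-- inside of `X`, outside of `Y` -/
noncomputable def mixF (U : Finset V) (X Y : V → V) (v : V) : V :=
  if v ∈ U then (if X v ∈ U then X v else Y (port U Y v)) else (if Y v ∈ U then port U X v else Y v)

theorem mixF_isPM {U : Finset V} {X Y : PM V} (h : Ok2 U X.1 Y.1) : IsPM (mixF U X.1 Y.1) := by
  obtain ⟨hX, hY, hc⟩ := h
  constructor
  · intro v
    by_cases hv : v ∈ U
    · by_cases h1 : X.1 v ∈ U
      · simp [mixF, hv, h1, X.inv]
      · have h2 := port_spec (hc.1 ⟨v, hv, h1⟩) v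
        have e : mixF U X.1 Y.1 v = Y.1 (port U Y.1 v) := by simp [mixF, hv, h1]
        rw [e, mixF, if_neg h2.2, Y.inv, if_pos h2.1]
        exact port_eq hX hv h1 _
    · by_cases h1 : Y.1 v ∈ U
      · have h3 : Y.1 (Y.1 v) ∉ U := by rw [Y.inv]; exact hv
        have h2 := port_spec (hc.2 ⟨_, h1, h3⟩) v
        have e : mixF U X.1 Y.1 v = port U X.1 v := by simp [mixF, hv, h1]
        rw [e, mixF, if_pos h2.1, if_neg h2.2, port_eq hY h1 h3, Y.inv]
      · simp [mixF, hv, h1, Y.inv]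
  · intro v
    by_cases hv : v ∈ U
    · by_cases h1 : X.1 v ∈ U
      · simpa [mixF, hv, h1] using X.ne v
      · have h2 := port_spec (hc.1 ⟨v, hv, h1⟩) v
        have e : mixF U X.1 Y.1 v = Y.1 (port U Y.1 v) := by simp [mixF, hv, h1]
        rw [e]; intro h; exact h2.2 (h.symm ▸ hv)
    · by_cases h1 : Y.1 v ∈ U
      · have h3 : Y.1 (Y.1 v) ∉ U := by rw [Y.inv]; exact hv
        have h2 := port_spec (hc.2 ⟨_, h1, h3⟩) v
        have e : mixF U X.1 Y.1 v = port U X.1 v := by simp [mixF, hv, h1]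
        rw [e]; intro h; exact hv (h ▸ h2.1)
      · simpa [mixF, hv, h1] using Y.ne v

open Classical in
/-- inside of `X`, outside of `Y` if allowed, and otherwise `X` -/
noncomputable def mix (U : Finset V) (X Y : PM V) : PM V :=
  if h : Ok2 U X.1 Y.1 then ⟨mixF U X.1 Y.1, mixF_isPM h⟩ else X

theorem mix_val {U : Finset V} {X Y : PM V} (h : Ok2 U X.1 Y.1) :
    (mix U X Y).1 = mixF U X.1 Y.1 := by rw [mix, dif_pos h]

theorem mix_not {U : Finset V} {X Y : PM V} (h : ¬ Ok2 U X.1 Y.1) : mix U X Y = X := by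
  rw [mix, dif_neg h]

/-- same edges inside `U` -/
def SameIn (U : Finset V) (X Y : V → V) : Prop :=
  ∀ v ∈ U, (X v ∈ U ↔ Y v ∈ U) ∧ (X v ∈ U → Y v = X v)

/-- same edges outside `U` -/
def SameOut (U : Finset V) (X Y : V → V) : Prop :=
  ∀ v ∉ U, (X v ∈ U ↔ Y v ∈ U) ∧ (X v ∉ U → Y v = X v)

theorem SameIn.refl (U : Finset V) (X : V → V) : SameIn U X X := fun _ _ => ⟨Iff.rfl, fun _ => rfl⟩

theorem SameOut.refl (U : Finset V) (X : V → V) : SameOut U X X :=
  fun _ _ => ⟨Iff.rfl, fun _ => rfl⟩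

theorem SameIn.symm {U : Finset V} {X Y : V → V} (h : SameIn U X Y) : SameIn U Y X :=
  fun v hv => ⟨(h v hv).1.symm, fun h' => ((h v hv).2 ((h v hv).1.2 h')).symm⟩

theorem SameOut.symm {U : Finset V} {X Y : V → V} (h : SameOut U X Y) : SameOut U Y X :=
  fun v hv => ⟨(h v hv).1.symm, fun h' => ((h v hv).2 fun h'' => h' ((h v hv).1.1 h'')).symm⟩

theorem SameIn.trans {U : Finset V} {X Y Z : V → V} (h : SameIn U X Y) (h' : SameIn U Y Z) :
    SameIn U X Z := fun v hv =>
  ⟨(h v hv).1.trans (h' v hv).1, fun h1 => by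
    rw [(h' v hv).2 ((h v hv).1.1 h1), (h v hv).2 h1]⟩

theorem SameOut.trans {U : Finset V} {X Y Z : V → V} (h : SameOut U X Y) (h' : SameOut U Y Z) :
    SameOut U X Z := fun v hv =>
  ⟨(h v hv).1.trans (h' v hv).1, fun h1 => by
    rw [(h' v hv).2 fun h2 => h1 ((h v hv).1.2 h2), (h v hv).2 h1]⟩

theorem SameIn.val {U : Finset V} {X Y : V → V} (h : SameIn U X Y) (hX : Val U X) : Val U Y :=
  fun a ha b hb h1 h2 => hX a ha b hb (fun h' => h1 ((h a ha).1.1 h')) fun h' => h2 ((h b hb).1.1 h')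

theorem SameIn.crs {U : Finset V} {X Y : V → V} (h : SameIn U X Y) : Crs U X ↔ Crs U Y :=
  ⟨fun ⟨a, ha, h1⟩ => ⟨a, ha, fun h' => h1 ((h a ha).1.2 h')⟩,
    fun ⟨a, ha, h1⟩ => ⟨a, ha, fun h' => h1 ((h a ha).1.1 h')⟩⟩

theorem sameIn_mix (U : Finset V) (X Y : PM V) : SameIn U X.1 (mix U X Y).1 := by
  by_cases h : Ok2 U X.1 Y.1
  · intro v hv
    rw [mix_val h]
    by_cases h1 : X.1 v ∈ U
    · simp [mixF, hv, h1]
    · simpa [mixF, hv, h1] using (port_spec (h.2.2.1 ⟨v, hv, h1⟩) v).2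
  · rw [mix_not h]; exact SameIn.refl _ _

theorem sameOut_mix {U : Finset V} {X Y : PM V} (h : Ok2 U X.1 Y.1) :
    SameOut U Y.1 (mix U X Y).1 := by
  intro v hv
  rw [mix_val h]
  by_cases h1 : Y.1 v ∈ U
  · have h3 : Y.1 (Y.1 v) ∉ U := by rw [Y.inv]; exact hv
    simpa [mixF, hv, h1] using (port_spec (h.2.2.2 ⟨_, h1, h3⟩) v).1
  · simp [mixF, hv, h1]

/-- a matching with at most one crossing edge is determined by its inside and outside -/
theorem PM.ext_same {U : Finset V} {X Y : PM V} (hX : Val U X.1) (h1 : SameIn U X.1 Y.1)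
    (h2 : SameOut U X.1 Y.1) : X = Y := by
  have key : ∀ v ∉ U, Y.1 v = X.1 v := by
    intro v hv
    by_cases h3 : X.1 v ∈ U
    · have h4 := (h2 v hv).1.1 h3
      refine hX _ h4 _ h3 (fun h5 => ?_) (by rw [X.inv]; exact hv)
      have := (h1 _ h4).1.1 h5
      rw [Y.inv] at this
      exact hv this
    · exact (h2 v hv).2 h3
  ext1
  funext v
  by_cases hv : v ∈ U
  · by_cases h3 : X.1 v ∈ U
    · exact ((h1 v hv).2 h3).symm
    · have := key _ h3
      rw [X.inv] at this
      exact (Y.eq_iff.1 this).symm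
  · exact (key v hv).symm

theorem Ok2.mix {U : Finset V} {X Y : PM V} (h : Ok2 U X.1 Y.1) :
    Ok2 U (mix U X Y).1 (mix U Y X).1 :=
  ⟨(sameIn_mix U X Y).val h.1, (sameIn_mix U Y X).val h.2.1,
    (sameIn_mix U X Y).crs.symm.trans (h.2.2.trans (sameIn_mix U Y X).crs)⟩

theorem mix_mix (U : Finset V) (X Y : PM V) : mix U (mix U X Y) (mix U Y X) = X := by
  by_cases h : Ok2 U X.1 Y.1
  · exact (PM.ext_same h.1 ((sameIn_mix U X Y).trans (sameIn_mix U _ _))
      ((sameOut_mix h.symm).trans (sameOut_mix h.mix))).symm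
  · rw [mix_not h, mix_not fun h' => h h'.symm, mix_not h]

/-- the type of the `i`-th edge of an alternating walk -/
def typ (p : Bool) : ℕ → Bool
  | 0 => p
  | i + 1 => !typ p i

/-- the alternating walk from `v`; the first edge is an `X`-edge iff `p` -/
def walk (X Y : V → V) (p : Bool) (v : V) : ℕ → V
  | 0 => v
  | i + 1 => if typ p i then X (walk X Y p v i) else Y (walk X Y p v i)

/-- the first `k` vertices of the alternating walk -/
def arc (X Y : V → V) (p : Bool) (v : V) (k : ℕ) : Finset V := (range k).image (walk X Y p v)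

theorem arc_congr {X Y X' Y' : V → V} {p : Bool} {v : V} {k : ℕ}
    (hX : SameIn (arc X Y p v k) X X') (hY : SameIn (arc X Y p v k) Y Y') :
    arc X' Y' p v k = arc X Y p v k := by
  have key : ∀ i < k, walk X' Y' p v i = walk X Y p v i := by
    intro i
    induction i with
    | zero => intro _; rfl
    | succ i ih =>
      intro hi
      have h1 : walk X Y p v i ∈ arc X Y p v k := mem_image_of_mem _ (mem_range.2 (by omega))
      have h2 : walk X Y p v (i + 1) ∈ arc X Y p v k := mem_image_of_mem _ (mem_range.2 hi)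
      rw [walk] at h2
      rw [walk, walk, ih (by omega)]
      split_ifs at h2 ⊢
      · exact (hX _ h1).2 h2
      · exact (hY _ h1).2 h2
  exact image_congr fun i hi => key i (mem_range.1 hi)

/-- the crossover move: exchange the outsides along an alternating arc -/
noncomputable def xo (p : Bool) (v : V) (k : ℕ) (z : PM V × PM V) : PM V × PM V :=
  (mix (arc z.1.1 z.2.1 p v k) z.1 z.2, mix (arc z.1.1 z.2.1 p v k) z.2 z.1)

theorem xo_xo (p : Bool) (v : V) (k : ℕ) (z : PM V × PM V) : xo p v k (xo p v k z) = z := by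
  have h := arc_congr (sameIn_mix (arc z.1.1 z.2.1 p v k) z.1 z.2)
    (sameIn_mix (arc z.1.1 z.2.1 p v k) z.2 z.1)
  simp only [xo, h, mix_mix]

theorem xo_zero (p : Bool) (v : V) (z : PM V × PM V) : xo p v 0 z = (z.2, z.1) := by
  have h : ∀ X Y : PM V, mix ∅ X Y = Y := by
    intro X Y
    have hok : Ok2 ∅ X.1 Y.1 := by simp [Ok2, Val, Crs]
    exact (PM.ext_same hok.2.1 (by simp [SameIn]) (sameOut_mix hok)).symm
  simp [xo, arc, h]

/-- the cost of a pair -/
def cost2 (W : V → V → ℕ) (z : PM V × PM V) : ℕ := cost W z.1.1 + cost W z.2.1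

/-- Dirichlet form of the switch moves on the first matching -/
noncomputable def dirSw (W : V → V → ℕ) (β : ℝ) (G : PM V × PM V → ℝ) : ℝ :=
  ∑ z : PM V × PM V, ∑ a, ∑ b,
    β ^ max (cost2 W z) (cost2 W (sw a b z.1, z.2)) * (G (sw a b z.1, z.2) - G z) ^ 2

/-- Dirichlet form of the crossover moves -/
noncomputable def dirXo (W : V → V → ℕ) (β : ℝ) (G : PM V × PM V → ℝ) : ℝ :=
  ∑ z : PM V × PM V, ∑ p, ∑ v, ∑ k ∈ range (Fintype.card V + 1),
    β ^ max (cost2 W z) (cost2 W (xo p v k z)) * (G (xo p v k z) - G z) ^ 2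

/-- `W` is within `D` of the ultrametric `d` -/
structure Ultra (W d : V → V → ℕ) (D : ℕ) : Prop where
  W_symm : ∀ x y, W x y = W y x
  W_self : ∀ x, W x x = 0
  d_symm : ∀ x y, d x y = d y x
  d_self : ∀ x, d x x = 0
  ultra : ∀ x y z, d x z ≤ max (d x y) (d y z)
  le : ∀ x y, d x y ≤ W x y
  ge : ∀ x y, W x y ≤ d x y + D

end Vale.Agent.P308
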