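import Vale.Agent.P308.CoinOp

namespace Vale.Agent.P308

open Finset

section
variable {m : ℕ} {h : Fin m → ℕ}

theorem rk_lt (h : Fin m → ℕ) (v : Fin m) : rk h v < m := by
  have : (univ.filter fun u => h u < h v) ⊂ univ :=
    ssubset_univ_iff.2 fun e => by simpa using eq_univ_iff_forall.1 e v
  simpa [rk] using card_lt_card this

theorem init_rk_lt {u v : Fin m} (huv : h u < h v) : rk h u < rk h v :=
  card_lt_card ⟨fun w hw => by
    simp only [mem_filter, mem_univ, true_and] at hw ⊢; exact hw.trans huv,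
    fun e => by simpa using e (mem_filter.2 ⟨mem_univ u, huv⟩)⟩

theorem rk_inj (hh : Function.Injective h) : Function.Injective (rk h) := fun u v e => by
  rcases lt_trichotomy (h u) (h v) with a | a | a
  · exact ((init_rk_lt a).ne e).elim
  · exact hh a
  · exact ((init_rk_lt a).ne' e).elim

/-- conjugation of a matching -/
def initConj (e : Equiv.Perm (Fin m)) (X : PM (Fin m)) : PM (Fin m) :=
  ⟨fun v => e.symm (X.1 (e v)), fun v => by simp [X.inv], fun v h =>
    X.ne _ (e.symm_apply_eq.1 h)⟩

theorem keyPM_spec (hm : Even m) (d : PM (Fin m)) (hh : Function.Injective h) (v : Fin m) :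
    rk h ((keyPM d h).1 v) = prt (rk h v) := by
  have hi : Function.Injective fun v => (⟨rk h v, rk_lt h v⟩ : Fin m) :=
    fun u v e => rk_inj hh (congrArg Fin.val e)
  have H : Function.Injective h ∧ ∃ X : PM (Fin m), ∀ v, rk h (X.1 v) = prt (rk h v) := by
    refine ⟨hh, initConj (Equiv.ofBijective _ (Finite.injective_iff_bijective.1 hi)) (pm0 hm),
      fun v => ?_⟩
    exact congrArg Fin.val ((Equiv.ofBijective _
      (Finite.injective_iff_bijective.1 hi)).apply_symm_apply _)
  rw [keyPM, dif_pos H]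
  exact H.2.choose_spec v

theorem keyPM_not (d : PM (Fin m)) (hh : ¬ Function.Injective h) : keyPM d h = d := by
  rw [keyPM, dif_neg fun H => hh H.1]

theorem init_sum (d : PM (Fin m)) (r : ℕ) :
    ∑ X, Ex (m * r) (fun w => if initC d r w = X then 1 else 0) = 1 := by
  rw [← coin_sum]
  simp [Ex_const]

theorem init_conj (X Y : PM (Fin m)) : ∃ e, Y = initConj e X := by
  have key : ∀ X : PM (Fin m), (Function.Involutive.toPerm X.1 X.inv).cycleType =
      Multiset.replicate (m / 2) 2 := fun X => by
    have h1 : Function.Involutive.toPerm X.1 X.inv ^ 2 = 1 := by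
      rw [sq]; exact Equiv.ext fun v => X.inv v
    have h2 := Equiv.Perm.cycleType_of_pow_prime_eq_one h1
    have h3 := Equiv.Perm.sum_cycleType (Function.Involutive.toPerm X.1 X.inv)
    have h4 : (Function.Involutive.toPerm X.1 X.inv).support = univ :=
      eq_univ_of_forall fun v => Equiv.Perm.mem_support.2 (X.ne v)
    rw [h2, Multiset.sum_replicate, h4, card_univ, Fintype.card_fin, smul_eq_mul] at h3
    rw [h2]
    congr 1
    omega
  obtain ⟨c, hc⟩ := isConj_iff.1 (Equiv.Perm.isConj_iff_cycleType_eq.2 ((key Y).trans (key X).symm))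
  refine ⟨c, Subtype.ext (funext fun v => ?_)⟩
  have := congrArg (fun σ : Equiv.Perm (Fin m) => σ (c v)) hc
  simp only [Equiv.Perm.coe_mul, Function.comp_apply, Equiv.Perm.coe_inv,
    Equiv.symm_apply_apply] at this
  exact c.eq_symm_apply.2 this

theorem init_rk_comp (e : Equiv.Perm (Fin m)) (v : Fin m) :
    rk (fun u => h (e u)) v = rk h (e v) :=
  card_equiv e fun u => by simp

theorem init_key_comp (hm : Even m) (d : PM (Fin m)) (hh : Function.Injective h)
    (e : Equiv.Perm (Fin m)) : keyPM d (fun u => h (e u)) = initConj e (keyPM d h) := by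
  have hh' : Function.Injective fun u => h (e u) := hh.comp e.injective
  refine Subtype.ext (funext fun v => rk_inj hh' ?_)
  rw [keyPM_spec hm d hh', init_rk_comp, init_rk_comp, ← keyPM_spec hm d hh]
  simp [initConj]

theorem init_val_lt : ∀ w : List Bool, val w < 2 ^ w.length
  | [] => by simp [val]
  | b :: w => by
    have := init_val_lt w
    have e : val (b :: w) = val w + val w + if b = true then 1 else 0 := rfl
    rw [e, List.length_cons, pow_succ]
    split_ifs <;> omega

theorem init_keys (m r : ℕ) (G : (Fin m → ℕ) → ℝ) :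
    Ex (m * r) (fun w => G fun v => val ((w.drop (v * r)).take r)) =
      (∑ x : Fin m → Fin (2 ^ r), G fun v => x v) / ((2 : ℝ) ^ r) ^ m := by
  have h1 : ∀ y : Fin (2 ^ r),
      Ex r (fun w => if Fin.ofNat (2 ^ r) (val w) = y then 1 else 0) = 1 / 2 ^ r := fun y => by
    rw [Ex_val r fun i => if Fin.ofNat (2 ^ r) i = y then 1 else 0, sum_eq_single (y : ℕ)]
    · simp
    · intro b hb hy
      refine if_neg fun e => hy ?_
      rw [← e, Fin.val_ofNat, Nat.mod_eq_of_lt (mem_range.1 hb)]
    · intro hy
      exact (hy (mem_range.2 y.2)).elim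
  have h2 := Ex_prod (fun w => Fin.ofNat (2 ^ r) (val w)) r m fun l => G fun v => l.getD v 0
  simp only [h1, prod_const, card_univ, Fintype.card_fin, ← mul_sum] at h2
  rw [one_div_pow, one_div, inv_mul_eq_div] at h2
  refine Eq.trans (Ex_congr fun w _ => congrArg G (funext fun v => ?_))
    (h2.trans (congrArg (· / _) (sum_congr rfl fun x _ => congrArg G (funext fun v => ?_))))
  · have := init_val_lt ((w.drop (v * r)).take r)
    have h3 : 2 ^ ((w.drop (v * r)).take r).length ≤ 2 ^ r :=
      Nat.pow_le_pow_right (by norm_num) (List.length_take_le _ _)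
    simp [chunks, List.getD, Nat.mod_eq_of_lt (this.trans_le h3)]
  · simp [List.getD]

theorem init_pair (R : ℕ) {u v : Fin m} (huv : u ≠ v) :
    (univ.filter fun x : Fin m → Fin R => x u = x v).card * R ≤ R ^ m := by
  have := card_le_card_of_injOn
    (s := (univ.filter fun x : Fin m → Fin R => x u = x v) ×ˢ (univ : Finset (Fin R))) (t := univ)
    (fun p => Function.update p.1 u p.2) (fun _ _ => mem_univ _) (by
      rintro ⟨x, k⟩ hx ⟨y, l⟩ hy e
      simp only [coe_product, coe_filter, mem_univ, true_and, coe_univ, Set.mem_prod,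
        Set.mem_ofPred_eq, Set.mem_univ, and_true] at hx hy
      have e1 : ∀ w, w ≠ u → x w = y w := fun w hw => by
        simpa [Function.update_of_ne hw] using congrFun e w
      refine Prod.ext (funext fun w => ?_) (by simpa using congrFun e u)
      by_cases hw : w = u
      · rw [hw]; exact hx.trans ((e1 v huv.symm).trans hy.symm)
      · exact e1 w hw)
  simpa using this

theorem init_noninj (m R : ℕ) : (univ.filter fun x : Fin m → Fin R =>
    ¬ Function.Injective fun v => (x v : ℕ)).card * R ≤ m ^ 2 * R ^ m := by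
  classical
  have h1 : (univ.filter fun x : Fin m → Fin R => ¬ Function.Injective fun v => (x v : ℕ)) ⊆
      (univ.filter fun p : Fin m × Fin m => p.1 ≠ p.2).biUnion
        fun p => univ.filter fun x : Fin m → Fin R => x p.1 = x p.2 := fun x hx => by
    obtain ⟨u, v, h1, h2⟩ := Function.not_injective_iff.1 (mem_filter.1 hx).2
    exact mem_biUnion.2 ⟨(u, v), by simpa using h2, by simpa using Fin.ext h1⟩
  calc _ ≤ (∑ p ∈ univ.filter fun p : Fin m × Fin m => p.1 ≠ p.2,
        (univ.filter fun x : Fin m → Fin R => x p.1 = x p.2).card) * R :=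
        Nat.mul_le_mul_right _ ((card_le_card h1).trans card_biUnion_le)
    _ ≤ ∑ _p ∈ univ.filter fun p : Fin m × Fin m => p.1 ≠ p.2, R ^ m := by
        rw [sum_mul]
        exact sum_le_sum fun p hp => init_pair R (mem_filter.1 hp).2
    _ ≤ _ := by
        rw [sum_const, smul_eq_mul]
        refine Nat.mul_le_mul_right _ ((card_filter_le _ _).trans ?_)
        simp [sq]

theorem init_law (hm : Even m) (d : PM (Fin m)) (r : ℕ) (X : PM (Fin m)) :
    |Ex (m * r) (fun w => if initC d r w = X then 1 else 0) - 1 / Fintype.card (PM (Fin m))| ≤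
      (m : ℝ) ^ 2 / 2 ^ r := by
  classical
  let I : Finset (Fin m → Fin (2 ^ r)) := univ.filter fun x => Function.Injective fun v => (x v : ℕ)
  let A : PM (Fin m) → ℕ := fun Y => (I.filter fun x => keyPM d (fun v => x v) = Y).card
  let B : ℕ := (univ.filter fun x : Fin m → Fin (2 ^ r) =>
    ¬ Function.Injective fun v => (x v : ℕ)).card
  have hA : ∀ Y Z, A Y ≤ A Z := fun Y Z => by
    obtain ⟨e, rfl⟩ := init_conj Y Z
    refine card_le_card_of_injOn (fun x u => x (e u)) (fun x hx => ?_) fun x _ y _ hxy => ?_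
    · obtain ⟨h1, h2⟩ := mem_filter.1 hx
      have h3 := (mem_filter.1 h1).2
      exact mem_filter.2 ⟨mem_filter.2 ⟨mem_univ _, h3.comp e.injective⟩,
        h2 ▸ init_key_comp hm d h3 e⟩
    · exact funext fun u => by simpa using congrFun hxy (e.symm u)
  have hI : I.card = Fintype.card (PM (Fin m)) * A X := by
    rw [card_eq_sum_card_fiberwise (f := fun x : Fin m → Fin (2 ^ r) => keyPM d fun v => x v)
      (t := univ) fun _ _ => mem_univ _,
      sum_congr rfl fun Y _ => le_antisymm (hA Y X) (hA X Y), sum_const, card_univ, smul_eq_mul]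
  have hB : I.card + B = (2 ^ r) ^ m := by
    rw [card_filter_add_card_filter_not]; simp
  have hBR := init_noninj m (2 ^ r)
  have hX1 : A X ≤ (univ.filter fun x : Fin m → Fin (2 ^ r) => keyPM d (fun v => x v) = X).card :=
    card_le_card fun x hx => mem_filter.2 ⟨mem_univ _, (mem_filter.1 hx).2⟩
  have hX2 : (univ.filter fun x : Fin m → Fin (2 ^ r) => keyPM d (fun v => x v) = X).card ≤
      A X + B := by
    refine le_trans (card_le_card fun x hx => ?_) (card_union_le _ _)
    by_cases hi : Function.Injective fun v => (x v : ℕ)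
    · exact mem_union_left _ (mem_filter.2 ⟨mem_filter.2 ⟨mem_univ _, hi⟩, (mem_filter.1 hx).2⟩)
    · exact mem_union_right _ (mem_filter.2 ⟨mem_univ _, hi⟩)
  have e := init_keys m r fun k => if keyPM d k = X then 1 else 0
  rw [sum_boole] at e
  change |Ex (m * r) (fun w => if keyPM d (fun v => val ((w.drop (v * r)).take r)) = X then 1
    else 0) - _| ≤ _
  rw [e]
  have hc : 1 ≤ Fintype.card (PM (Fin m)) := Fintype.card_pos_iff.2 ⟨d⟩
  rw [hI] at hB
  generalize (univ.filter fun x : Fin m → Fin (2 ^ r) => keyPM d (fun v => x v) = X).card = p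
    at hX1 hX2
  change B * _ ≤ _ at hBR
  generalize Fintype.card (PM (Fin m)) = c at hB hc
  generalize A X = a at hB hX1 hX2
  have b1 : (a : ℝ) ≤ p := by exact_mod_cast hX1
  have b2 : (p : ℝ) ≤ a + B := by exact_mod_cast hX2
  have b3 : (c : ℝ) * a + B = (2 ^ r) ^ m := by exact_mod_cast hB
  have b4 : (B : ℝ) * 2 ^ r ≤ m ^ 2 * (2 ^ r) ^ m := by exact_mod_cast hBR
  have b5 : (1 : ℝ) ≤ c := by exact_mod_cast hc
  have b6 : (0 : ℝ) ≤ B := Nat.cast_nonneg _
  have b7 : (0 : ℝ) < (2 ^ r) ^ m := by positivity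
  have b8 : (B : ℝ) / (2 ^ r) ^ m ≤ m ^ 2 / 2 ^ r := by
    rw [div_le_div_iff₀ b7 (by positivity)]; exact b4
  have b9 : (1 : ℝ) / c = (a + B / c) / (2 ^ r) ^ m := by
    rw [← b3] at b7 ⊢; field_simp
  have b10 : (B : ℝ) / c ≤ B := div_le_self b6 b5
  have b11 : (0 : ℝ) ≤ B / c := by positivity
  refine le_trans ?_ b8
  rw [b9, ← sub_div, abs_div, abs_of_pos b7]
  exact div_le_div_of_nonneg_right (abs_le.2 ⟨by linarith, by linarith⟩) b7.le

theorem card_PM_le (m : ℕ) : Fintype.card (PM (Fin m)) ≤ m ^ m :=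
  (Fintype.card_subtype_le _).trans (by simp)

end

end Vale.Agent.P308
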