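import Vale.Agent.P308.Algo
import Vale.Agent.P308.Init

/-! The list operations on matchings compute the abstract ones. -/

namespace Vale.Agent.P308

open Finset

namespace Bridge1

variable {m : ℕ}

theorem map_range {β : Type} (m : ℕ) (f : ℕ → β) :
    (List.range m).map f = List.ofFn fun l : Fin m => f l := by
  apply List.ext_getElem <;> simp

theorem getD_ofFn (Z : Fin m → ℕ) (l : Fin m) : (List.ofFn Z).getD l 0 = Z l := by
  simp [List.getD_eq_getElem?_getD]

theorem getD_encP (X : PM (Fin m)) (v : Fin m) : (encP X).getD v 0 = (X.1 v).val :=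
  getD_ofFn _ v

theorem get2_encW (W : Fin m → Fin m → ℕ) (x y : Fin m) : get2 (encW W) x y = W x y := by
  have : (encW W).getD x [] = List.ofFn (W x) := by simp [encW, List.getD_eq_getElem?_getD]
  rw [get2, this, getD_ofFn]

theorem tab2_range (f : ℕ → ℕ → ℕ) :
    tab2 (List.range m) f = encW fun x y : Fin m => f x y := by
  simp only [tab2, encW, map_range]

theorem clip_enc (X : PM (Fin m)) : clip (List.range m) (encP X) = encP X := by
  rw [clip, map_range]
  refine congrArg List.ofFn (funext fun v => ?_)
  rw [getD_encP, List.length_range, min_eq_left (X.1 v).2.le]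

theorem swp_val (a b x : Fin m) : swp a b x = (Equiv.swap a b x).val := by
  rw [swp, Equiv.swap_apply_def]
  simp only [Fin.val_inj]
  split_ifs <;> rfl

theorem swL_enc (a b : Fin m) (X : PM (Fin m)) :
    swL (List.range m) a b (encP X) = encP (sw a b X) := by
  rw [swL, map_range]
  refine congrArg List.ofFn (funext fun v => ?_)
  rw [swp_val, getD_encP, swp_val, sw_apply]

/-- A list and a finite set with the same members. -/
def Rep (U : List ℕ) (U' : Finset (Fin m)) : Prop := ∀ v : Fin m, v.val ∈ U ↔ v ∈ U'

theorem arc_fold (X Y : PM (Fin m)) (p : Bool) (x : Fin m) (l : List ℕ) :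
    l.foldl (fun (s : Bool × ℕ × List ℕ) _ =>
      (!s.1, if s.1 = true then (encP X).getD s.2.1 0 else (encP Y).getD s.2.1 0, s.2.1 :: s.2.2))
      (p, x.val, []) = (typ p l.length, (walk X.1 Y.1 p x l.length).val,
        ((List.range l.length).map fun i => (walk X.1 Y.1 p x i).val).reverse) := by
  induction l using List.reverseRecOn with
  | nil => rfl
  | append_singleton l c ih =>
    rw [List.foldl_append, ih, List.length_append, List.length_singleton, List.range_succ]
    simp only [List.foldl_cons, List.foldl_nil, getD_encP, typ, walk, List.map_append,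
      List.map_cons, List.map_nil, List.reverse_append, List.reverse_cons, List.reverse_nil,
      List.nil_append, List.singleton_append]
    split_ifs <;> rfl

theorem arcL_rep (X Y : PM (Fin m)) (p : Bool) (x : Fin m) (k : ℕ) :
    Rep (arcL (List.range m) (encP X) (encP Y) p x k) (arc X.1 Y.1 p x (min k m)) := by
  intro v
  rw [arcL, arc_fold]
  simp [arc, Fin.val_inj]

theorem crsL_eq {U : List ℕ} {U' : Finset (Fin m)} (h : Rep U U') (X : PM (Fin m)) :
    crsL (List.range m) U (encP X) =
      ((List.finRange m).filter fun v => decide (v ∈ U' ∧ X.1 v ∉ U')).map Fin.val := by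
  rw [crsL, ← List.map_coe_finRange_eq_range, List.filter_map]
  congr 1
  refine List.filter_congr fun v _ => ?_
  simp only [Function.comp, getD_encP, h v, h (X.1 v)]

theorem crs_nodup (U' : Finset (Fin m)) (X : PM (Fin m)) :
    ((List.finRange m).filter fun v => decide (v ∈ U' ∧ X.1 v ∉ U')).Nodup :=
  (List.nodup_finRange m).filter _

theorem mem_crs {U' : Finset (Fin m)} {X : PM (Fin m)} {v : Fin m} :
    v ∈ (List.finRange m).filter (fun v => decide (v ∈ U' ∧ X.1 v ∉ U')) ↔
      v ∈ U' ∧ X.1 v ∉ U' := by simp

theorem val_iff (U' : Finset (Fin m)) (X : PM (Fin m)) : Val U' X.1 ↔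
    ((List.finRange m).filter fun v => decide (v ∈ U' ∧ X.1 v ∉ U')).length ≤ 1 := by
  rw [← List.toFinset_card_of_nodup (crs_nodup U' X), card_le_one]
  simp only [List.mem_toFinset, mem_crs]
  exact ⟨fun h a ha b hb => h a ha.1 b hb.1 ha.2 hb.2,
    fun h a ha b hb h1 h2 => h a ⟨ha, h1⟩ b ⟨hb, h2⟩⟩

theorem crs_iff (U' : Finset (Fin m)) (X : PM (Fin m)) : Crs U' X.1 ↔
    0 < ((List.finRange m).filter fun v => decide (v ∈ U' ∧ X.1 v ∉ U')).length := by
  rw [List.length_pos_iff_exists_mem]
  simp only [mem_crs]
  rfl

theorem head_crs {U' : Finset (Fin m)} {X : PM (Fin m)} (hv : Val U' X.1) (hc : Crs U' X.1)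
    (v : Fin m) :
    (((List.finRange m).filter fun v => decide (v ∈ U' ∧ X.1 v ∉ U')).map Fin.val).headD 0
      = (port U' X.1 v).val := by
  have h1 := (crs_iff U' X).1 hc
  have h2 := @mem_crs m U' X
  generalize ((List.finRange m).filter fun v => decide (v ∈ U' ∧ X.1 v ∉ U')) = l at h1 h2
  cases l with
  | nil => simp at h1
  | cons c l =>
    have h3 := h2.1 List.mem_cons_self
    rw [port_eq hv h3.1 h3.2]
    rfl

theorem mixL_enc {U : List ℕ} {U' : Finset (Fin m)} (h : Rep U U') (X Y : PM (Fin m)) :
    mixL (List.range m) U (encP X) (encP Y) = encP (mix U' X Y) := by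
  have hok : Ok2 U' X.1 Y.1 ↔ (crsL (List.range m) U (encP X)).length ≤ 1 ∧
      (crsL (List.range m) U (encP Y)).length = (crsL (List.range m) U (encP X)).length := by
    rw [crsL_eq h, crsL_eq h, List.length_map, List.length_map, Ok2, val_iff, val_iff, crs_iff,
      crs_iff]
    omega
  rw [mixL]
  by_cases hXY : Ok2 U' X.1 Y.1
  · rw [if_pos (hok.1 hXY), map_range]
    refine congrArg List.ofFn (funext fun v => ?_)
    rw [mix_val hXY, mixF, getD_encP, getD_encP, crsL_eq h, crsL_eq h]
    simp only [h v, h (X.1 v), h (Y.1 v)]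
    by_cases hv : v ∈ U'
    · rw [if_pos hv, if_pos hv]
      by_cases h1 : X.1 v ∈ U'
      · rw [if_pos h1, if_pos h1]
      · rw [if_neg h1, if_neg h1, head_crs hXY.2.1 (hXY.2.2.1 ⟨v, hv, h1⟩) v, getD_encP]
    · rw [if_neg hv, if_neg hv]
      by_cases h1 : Y.1 v ∈ U'
      · rw [if_pos h1, if_pos h1,
          head_crs hXY.1 (hXY.2.2.2 ⟨_, h1, by rw [Y.inv]; exact hv⟩) v]
      · rw [if_neg h1, if_neg h1]
  · rw [if_neg (fun h' => hXY (hok.2 h')), mix_not hXY]

theorem rkL_enc (h : Fin m → ℕ) (x : Fin m) : rkL (List.range m) (List.ofFn h) x = rk h x := by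
  rw [rkL, ← List.map_coe_finRange_eq_range, List.filter_map, List.length_map, rk,
    ← List.toFinset_card_of_nodup ((List.nodup_finRange m).filter _)]
  congr 1
  ext u
  simp only [List.mem_toFinset, List.mem_filter, List.mem_finRange, Function.comp, getD_ofFn,
    decide_eq_true_eq, mem_filter, mem_univ]

theorem all_iff (h : Fin m → ℕ) : (((List.range m).all fun x => (List.range m).all fun y =>
    decide (x = y ∨ (List.ofFn h).getD x 0 ≠ (List.ofFn h).getD y 0)) = true) ↔
      Function.Injective h := by
  simp only [List.all_eq_true, List.mem_range, decide_eq_true_eq]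
  constructor
  · intro H x y hxy
    have := H x x.2 y y.2
    rw [getD_ofFn, getD_ofFn] at this
    exact Fin.ext (this.resolve_right fun h' => h' hxy)
  · intro H x hx y hy
    rw [show x = (⟨x, hx⟩ : Fin m).val from rfl, show y = (⟨y, hy⟩ : Fin m).val from rfl,
      getD_ofFn, getD_ofFn]
    by_contra hc
    push Not at hc
    exact hc.1 (congrArg Fin.val (H hc.2))

theorem fw_fold (c : Fin m → Fin m → ℕ) (j : ℕ) (hj : j ≤ m) :
    (List.range j).foldl (fun M j => tab2 (List.range m) fun x y =>
      min (get2 M x y) (max (get2 M x j) (get2 M j y))) (encW c) = encW (FW c j) := by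
  induction j with
  | zero => rfl
  | succ j ih =>
    have hj' : j < m := hj
    rw [List.range_succ, List.foldl_append, ih hj'.le, List.foldl_cons, List.foldl_nil,
      tab2_range]
    refine congrArg encW (funext fun x => funext fun y => ?_)
    rw [show j = (⟨j, hj'⟩ : Fin m).val from rfl, get2_encW, get2_encW, get2_encW, FW]
    simp only [dif_pos hj']

theorem df_two (k : ℕ) : dfL (List.range (2 * k)) = (2 * k - 1).doubleFactorial := by
  induction k with
  | zero => rfl
  | succ k ih =>
    unfold dfL at ih ⊢
    rw [show 2 * (k + 1) = 2 * k + 1 + 1 by ring, List.range_succ, List.range_succ,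
      List.foldl_append, List.foldl_append, ih]
    simp only [List.foldl_cons, List.foldl_nil]
    rw [if_pos (by omega), if_neg (by omega), Nat.add_sub_cancel]
    cases k with
    | zero => rfl
    | succ k =>
      rw [show 2 * (k + 1) + 1 = 2 * (k + 1) - 1 + 2 by omega, Nat.doubleFactorial_add_two,
        mul_comm]

end Bridge1

open Bridge1

section
variable {m : ℕ}

theorem costL_enc (W : Fin m → Fin m → ℕ) (X : PM (Fin m)) :
    costL (List.range m) (encW W) (encP X) = cost W X.1 := by
  rw [costL, map_range, List.sum_ofFn, cost]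
  exact sum_congr rfl fun v _ => by rw [getD_encP, get2_encW]

theorem mvL_enc (f p : Bool) (a b : ℕ) (z : PM (Fin m) × PM (Fin m)) :
    mvL (List.range m) f p a b (encP z.1, encP z.2) =
      (encP (mv f p a b z).1, encP (mv f p a b z).2) := by
  rw [mvL, mv, List.length_range]
  by_cases ha : a < m
  · rw [if_pos ha, dif_pos ha]
    cases f with
    | true =>
      rw [if_pos rfl, if_pos rfl]
      by_cases hb : b < m
      · rw [if_pos hb, dif_pos hb]
        have := swL_enc ⟨a, ha⟩ ⟨b, hb⟩ z.1
        dsimp only at this ⊢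
        rw [this, clip_enc]
      · rw [if_neg hb, dif_neg hb]
    | false =>
      rw [if_neg Bool.false_ne_true, if_neg Bool.false_ne_true]
      have h := arcL_rep z.1 z.2 p ⟨a, ha⟩ b
      dsimp only at h ⊢
      rw [mixL_enc h, mixL_enc h, clip_enc, clip_enc]
      rfl
  · rw [if_neg ha, dif_neg ha]

theorem encP_pm0 (hm : Even m) : (List.range m).map prt = encP (pm0 hm) := by
  rw [map_range]; rfl

theorem initL_enc (hm : Even m) (r : ℕ) (w : List Bool) :
    initL (List.range m) r w = encP (initC (pm0 hm) r w) := by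
  rw [initL, initC, map_range, keyL]
  generalize (fun v : Fin m => val ((w.drop (v * r)).take r)) = h
  by_cases hh : Function.Injective h
  · rw [if_pos ((all_iff h).2 hh), map_range]
    refine congrArg List.ofFn (funext fun v => ?_)
    have h1 := keyPM_spec hm (pm0 hm) hh v
    rw [rkL_enc]
    cases hf : (List.range m).find? fun u =>
        decide (rkL (List.range m) (List.ofFn h) u = prt (rk h v)) with
    | none =>
      have := List.find?_eq_none.1 hf _ (List.mem_range.2 ((keyPM (pm0 hm) h).1 v).2)
      rw [rkL_enc, h1] at this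
      simp at this
    | some k =>
      have h2 : k < m := List.mem_range.1 (List.mem_of_find?_eq_some hf)
      have h3 := List.find?_some hf
      rw [decide_eq_true_eq, show k = (⟨k, h2⟩ : Fin m).val from rfl, rkL_enc, ← h1] at h3
      rw [← rk_inj hh h3]
      rfl
  · rw [if_neg (fun h' => hh ((all_iff h).1 h')), keyPM_not _ hh, encP_pm0 hm]

theorem fwL_enc (c : Fin m → Fin m → ℕ) : fwL (List.range m) (encW c) = encW (FW c m) :=
  fw_fold c m le_rfl

theorem dfL_range (hm : Even m) : dfL (List.range m) = (m - 1).doubleFactorial := by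
  obtain ⟨k, rfl⟩ := hm
  rw [← two_mul]
  exact df_two k

end

end Vale.Agent.P308
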