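import Mathlib

/-! Input and output conventions of the counting machine. -/

namespace Vale.Agent.P308

/-- The binary code of a list of natural numbers: every binary digit `b` is written `1 b`, and
every number is followed by `0`. -/
def code (l : List ℕ) : List Bool :=
  l.flatMap fun a => a.bits.flatMap (fun b => [true, b]) ++ [false]

open Classical in
/-- The input of the machine: `n`, `⌈1 / ε⌉`, `⌈1 / δ⌉`, the adjacency matrix row by row, and then
the coin tosses `ω`. -/
noncomputable def input {n T : ℕ} (G : SimpleGraph (Fin n)) (ε δ : ℝ) (ω : Fin T → Bool) :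
    List ℕ :=
  [n, ⌈1 / ε⌉₊, ⌈1 / δ⌉₊] ++
    (List.ofFn fun u => List.ofFn fun v => if G.Adj u v then 1 else 0).flatten ++
      List.ofFn fun t => (ω t).toNat

/-- The number of perfect matchings. -/
noncomputable def numPM {n : ℕ} (G : SimpleGraph (Fin n)) : ℕ :=
  {M : G.Subgraph | M.IsPerfectMatching}.ncard

end Vale.Agent.P308
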