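import Vale.Agent.P308.Bridge1
import Vale.Agent.P308.Defs

namespace Vale.Agent.P308

open Finset

namespace Bridge2

theorem map_range {β : Type} (D : ℕ) (f : ℕ → β) :
    (List.range D).map f = List.ofFn fun l : Fin D => f l := by
  apply List.ext_getElem <;> simp

theorem getD_ofFn {β : Type} {D : ℕ} (Z : Fin D → β) (l : Fin D) (d : β) :
    (List.ofFn Z).getD l d = Z l := by
  simp [List.getD_eq_getElem?_getD]

theorem tab2_range (m : ℕ) (f : ℕ → ℕ → ℕ) :
    tab2 (List.range m) f = encW fun x y : Fin m => f x y := by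
  simp only [tab2, encW, map_range]

theorem get2_enc {m : ℕ} (W : Fin m → Fin m → ℕ) (x y : Fin m) : get2 (encW W) x y = W x y := by
  simp only [get2, encW, getD_ofFn]

theorem metG_nat {α β : Type} (e : α → β) {mv : Bool → Bool → ℕ → ℕ → α → α}
    {mv' : Bool → Bool → ℕ → ℕ → β → β} {cst : α → ℕ} {cst' : β → ℕ}
    (h1 : ∀ f p a b z, mv' f p a b (e z) = e (mv f p a b z)) (h2 : ∀ z, cst' (e z) = cst z)
    (q r : ℕ) (z : α) (w : List Bool) : metG mv' cst' q r (e z) w = e (metG mv cst q r z w) := by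
  simp only [metG, tryG, h1, h2, apply_ite e]

theorem popStep_nat {α β : Type} (e : α → β) {pair : α × α → List Bool → α × α}
    {pair' : β × β → List Bool → β × β}
    (h : ∀ x y w, pair' (e x, e y) w = (e (pair (x, y) w).1, e (pair (x, y) w).2)) (d : α) (q : ℕ)
    (P : List α) (w : List Bool) :
    popStep (e d) pair' q (P.map e) w = (popStep d pair q P w).map e := by
  simp only [popStep, popAt, List.length_map, List.getD_map, h, apply_ite (List.map e),
    List.map_set]

/-- the list instance represents the abstract instance -/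
structure Rel (a : Ins) (p : Par) : Prop where
  hm : mm a = p.m
  hq : qq a = p.q
  ho : p.o.val = p.m - 1
  hz : p.z.val = p.m - 2
  two : 2 ≤ p.m
  hA : ∀ x y : Fin p.m, (x.val < a.1.length ∧ y.val < a.1.length ∧
    a.2.2.getD (x * a.1.length + y) 0 = 1) ↔ p.A x y = true

variable {a : Ins} {p : Par}

theorem Rel.hv (h : Rel a p) : vs a = List.range p.m := by rw [vs, h.hm]

theorem Rel.cL (h : Rel a p) (t : ℕ) (g : Fin p.m → ℕ) :
    cL a t (List.ofFn g) = encW (p.cM t g) := by
  rw [P308.cL, h.hv, tab2_range]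
  congr 1
  funext x y
  simp only [Par.cM, h.hA, getD_ofFn, h.hm, h.hq, ← h.ho, Fin.val_inj]

theorem Rel.wL (h : Rel a p) (t : ℕ) (g : Fin p.m → ℕ) :
    wL a t (List.ofFn g) = encW (p.wM t g) := by
  rw [P308.wL, h.hv, tab2_range]
  congr 1
  funext x y
  simp only [Par.wM, Par.uM, Par.ex, exL, h.cL, fwL_enc, get2_enc, h.hm, h.hq, ← h.ho, ← h.hz,
    Fin.val_inj]

theorem Rel.updL (h : Rel a p) (t : ℕ) (g : Fin p.m → ℕ) (x : Fin p.m) :
    updL a t (List.ofFn g) x = List.ofFn (p.upd t g x) := by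
  rw [P308.updL, h.hv, map_range]
  refine congrArg List.ofFn (funext fun y => ?_)
  simp only [Par.upd, getD_ofFn, h.hq, ne_eq, Fin.val_inj]

theorem Rel.pair (h : Rel a p) (W : Fin p.m → Fin p.m → ℕ) (x y : PM (Fin p.m)) (w : List Bool) :
    pairCL a (encW W) (encP x, encP y) w =
      (encP (p.pairC W (x, y) w).1, encP (p.pairC W (x, y) w).2) := by
  rw [pairCL, h.hv, h.hq]
  exact metG_nat (fun z : PM (Fin p.m) × PM (Fin p.m) => (encP z.1, encP z.2))
    (fun f p a b z => mvL_enc f p a b z) (fun z => by simp only [costL_enc, cost2]) _ _ (x, y) w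

theorem Rel.mix (h : Rel a p) (he : Even p.m) (W : Fin p.m → Fin p.m → ℕ)
    (P : List (PM (Fin p.m))) (w : List Bool) :
    mixPL a (encW W) (P.map encP) w = (p.mixP (pm0 he) W P w).map encP := by
  rw [mixPL, Par.mixP, h.hv, h.hq, encP_pm0 he]
  exact List.foldl_hom (List.map encP) fun P w => popStep_nat encP (h.pair W) _ _ P w

/-- the list form of a state -/
def encS (p : Par) (s : p.St) : StL := (s.1, List.ofFn s.2.1, s.2.2.1, s.2.2.2.map encP)

theorem Rel.stage (h : Rel a p) (he : Even p.m) (s : p.St) (w : List Bool) :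
    stageL a (encS p s) w = encS p (p.stage (pm0 he) s w) := by
  have e : ∀ X : PM (Fin p.m), (encP X).getD (p.m - 1) 0 = (X.1 p.o).val := fun X => by
    rw [← h.ho, encP, getD_ofFn]
  simp only [stageL, encS, Par.stage, probeL, Par.probe, h.wL, h.mix he, h.hv, encP_pm0 he,
    List.getD_map, h.hm, e, h.updL, nextSL, Par.nextS, costL_enc, List.map_drop]

theorem Rel.run (h : Rel a p) (he : Even p.m) (w : List Bool) :
    runL a w = encS p (p.run (pm0 he) w) := by
  have e : ((0, (vs a).map fun _ => 0, 0, pop0L a w) : StL) =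
      encS p (0, fun _ => 0, 0, p.pop0 (pm0 he) w) := by
    simp only [encS, h.hv, map_range, pop0L, Par.pop0, h.hm, h.hq, List.map_map]
    congr 4
    funext u
    exact initL_enc he _ u
  rw [runL, e, Par.run, Par.C0, h.hm, h.hq]
  exact List.foldl_hom (encS p) fun s w => h.stage he s w

theorem Rel.tot (h : Rel a p) (g : Fin p.m → ℕ) : totL a (List.ofFn g) = p.GG g := by
  rw [totL, Par.GG, h.hm, List.sum_take_ofFn]
  congr 2
  ext v
  have h1 := h.ho
  have h2 := h.hz
  have h3 := h.two
  have h4 := v.2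
  simp only [Par.S2, mem_filter, mem_univ, true_and, mem_erase, ne_eq, ← Fin.val_inj, and_true]
  omega

theorem Rel.out (h : Rel a p) (he : Even p.m) (g : Fin p.m → ℕ) (S : ℕ) :
    outL a (List.ofFn g) S = p.out g S := by
  simp only [outL, Par.out, Par.num, Par.den, h.tot, h.hv, h.hq, dfL_range he]

theorem flat_getD {n : ℕ} (Y : Fin n → Fin n → ℕ) (x y : Fin n) :
    (List.ofFn fun u => List.ofFn (Y u)).flatten.getD (x * n + y) 0 = Y x y := by
  have e : (List.ofFn fun u => List.ofFn (Y u)).flatten =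
      List.ofFn fun l : Fin (n * n) => Y l.divNat l.modNat := by
    rw [List.ofFn_mul]
    congr 2
    funext i
    congr 1
    funext j
    have hn : 0 < n := j.pos
    congr 1
    · refine Fin.ext ?_
      simp [Fin.divNat, Nat.add_div hn, Nat.div_eq_of_lt j.2, Nat.mod_eq_of_lt j.2,
        Nat.mul_div_cancel _ hn]
    · refine Fin.ext ?_
      simp [Fin.modNat, Nat.mod_eq_of_lt j.2]
  have hl : x * n + y < n * n := by
    have h1 : (x + 1) * n ≤ n * n := Nat.mul_le_mul_right _ x.2
    have h2 := y.2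
    rw [add_mul] at h1
    omega
  have hn : 0 < n := x.pos
  rw [e, show x * n + y = (⟨x * n + y, hl⟩ : Fin (n * n)).val from rfl, getD_ofFn]
  congr 1
  · refine Fin.ext ?_
    simp [Fin.divNat, Nat.add_div hn, Nat.div_eq_of_lt y.2, Nat.mod_eq_of_lt y.2,
      Nat.mul_div_cancel _ hn]
  · refine Fin.ext ?_
    simp [Fin.modNat, Nat.mod_eq_of_lt y.2]

theorem flat_length {n : ℕ} (Y : Fin n → Fin n → ℕ) :
    (List.ofFn fun u => List.ofFn (Y u)).flatten.length = n * n := by
  simp [List.length_flatten, List.map_ofFn, List.sum_ofFn, Function.comp]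

end Bridge2

open Bridge2 in
theorem algo_input {n T : ℕ} (G : SimpleGraph (Fin n)) (ε δ : ℝ) (ω : Fin T → Bool) {q : ℕ}
    (hq : q = Nat.size (65536 + n + ⌈1 / ε⌉₊ + Nat.size ⌈1 / δ⌉₊))
    (hT : 65536 + n + ⌈1 / ε⌉₊ + Nat.size ⌈1 / δ⌉₊ ≤ T) :
    algo (input G ε δ ω) =
      [(par G q).out ((par G q).run (pm0 (par_even G q)) (List.ofFn ω)).2.1
        ((par G q).run (pm0 (par_even G q)) (List.ofFn ω)).2.2.1] := by
  classical
  obtain ⟨Y, hY, hi⟩ : ∃ Y : Fin n → Fin n → ℕ, (∀ u v, Y u v = 1 ↔ G.Adj u v) ∧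
      input G ε δ ω = n :: ⌈1 / ε⌉₊ :: ⌈1 / δ⌉₊ :: ((List.ofFn fun u => List.ofFn (Y u)).flatten ++
        List.ofFn fun t => (ω t).toNat) :=
    ⟨fun u v => if G.Adj u v then 1 else 0, fun u v => by simp, by simp [input]⟩
  have hl := flat_length Y
  have h1 : (insOf (input G ε δ ω)).1.length = n := by
    simp only [insOf, hi, List.getD_cons_zero, List.length_take, List.length_cons,
      List.length_append, List.length_ofFn]
    omega
  have h2 : (insOf (input G ε δ ω)).2.2 = (List.ofFn fun u => List.ofFn (Y u)).flatten := by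
    simp only [insOf, hi, List.getD_cons_zero, List.drop_succ_cons, List.drop_zero]
    exact List.take_left' hl
  have h3 : coinsOf (input G ε δ ω) = List.ofFn ω := by
    simp only [coinsOf, hi, List.getD_cons_zero, add_comm 3, List.drop_succ_cons]
    rw [List.drop_left' hl, List.map_ofFn]
    congr 1
    funext t
    rcases h : ω t <;> simp [h]
  have h : Rel (insOf (input G ε δ ω)) (par G q) := by
    refine ⟨by rw [mm, h1]; rfl, ?_, rfl, rfl, by simp [par], fun x y => ?_⟩
    · change _ = q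
      rw [hq, qq]
      congr 1
      simp only [insOf, hi, List.getD_cons_zero, List.getD_cons_succ, List.length_take,
        List.length_cons, List.length_append, List.length_ofFn]
      omega
    · rw [h1, h2]
      simp only [par, decide_eq_true_eq]
      constructor
      · rintro ⟨hx, hy, hxy⟩
        exact ⟨⟨x, hx⟩, ⟨y, hy⟩, rfl, rfl, (hY _ _).1 ((flat_getD Y ⟨x, hx⟩ ⟨y, hy⟩).symm.trans hxy)⟩
      · rintro ⟨u, v, hu, hv, huv⟩
        rw [hu, hv, flat_getD]
        exact ⟨u.2, v.2, (hY _ _).2 huv⟩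
  rw [algo, h3, h.run (par_even G q)]
  exact congrArg (fun z => [z]) (h.out (par_even G q) _ _)

end Vale.Agent.P308
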