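import Vale.Agent.P308.Model

namespace Vale.Agent.P308

open Finset

theorem coin_sum {ι : Type} (s : Finset ι) (k : ℕ) (f : ι → List Bool → ℝ) :
    Ex k (fun w => ∑ i ∈ s, f i w) = ∑ i ∈ s, Ex k (f i) := by
  simp only [Ex_ofFn]
  rw [sum_comm, sum_div]

theorem coin_mul (k : ℕ) (c : ℝ) (f : List Bool → ℝ) : Ex k (fun w => f w * c) = Ex k f * c := by
  simp only [Ex_ofFn]
  rw [← sum_mul]; ring

theorem coin_comp {Ω : Type} [Fintype Ω] [DecidableEq Ω] (f : List Bool → Ω) (k : ℕ) (Φ : Ω → ℝ) :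
    Ex k (fun w => Φ (f w)) = ∑ y, Ex k (fun w => if f w = y then 1 else 0) * Φ y := by
  simp only [← coin_mul, ← coin_sum]
  refine Ex_congr fun w _ => ?_
  simp

theorem coin_any (x y : ℝ) : ∀ r : ℕ,
    Ex r (fun w => if w.any id = true then x else y) = x + (1 / 2) ^ r * (y - x)
  | 0 => by simp [Ex]
  | r + 1 => by
    have := coin_any x y r
    simp only [Ex, List.any_cons, id, Bool.false_or, Bool.true_or, if_true, Ex_const] at this ⊢
    rw [this]; ring

theorem coin_all (r : ℕ) (x y : ℝ) : ∀ d : ℕ,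
    Ex (d * r) (fun w => if ((chunks r d w).all fun c => c.any id) = true then x else y) =
      y + (1 - 1 / 2 ^ r) ^ d * (x - y)
  | 0 => by simp [Ex, chunks]
  | d + 1 => by
    simp only [chunks_succ, List.all_cons]
    rw [Nat.succ_mul, add_comm, Ex_split r _ fun u v =>
      if (u.any id && (chunks r d v).all fun c => c.any id) = true then x else y]
    have h : ∀ u : List Bool, Ex (d * r) (fun v =>
        if (u.any id && (chunks r d v).all fun c => c.any id) = true then x else y) =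
        if u.any id = true then y + (1 - 1 / 2 ^ r) ^ d * (x - y) else y := fun u => by
      cases u.any id
      · simp [Ex_const]
      · simp only [Bool.true_and, if_true, coin_all r x y d]
    simp only [h, coin_any, one_div_pow]
    ring

theorem Ex_acc {r d D : ℕ} (hr : 0 < r) (hd : d ≤ D) (x y : ℝ) :
    Ex (D * r) (fun w => if acc r d w = true then x else y) = y + (1 - 1 / 2 ^ r) ^ d * (x - y) := by
  rw [← coin_all, ← Ex_take (Nat.mul_le_mul_right r hd)]
  refine Ex_congr fun w hw => ?_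
  have h : d ≤ w.length := hw ▸ hd.trans (Nat.le_mul_of_pos_right D hr)
  rw [chunks_take, acc, List.take_range, min_eq_left h, chunks, List.all_map]
  rfl

theorem coin_two (q k : ℕ) (H : ℕ → ℕ → List Bool → ℝ) :
    Ex (q + (q + k)) (fun w => H (val (w.take q)) (val ((w.drop q).take q)) ((w.drop q).drop q)) =
      (∑ a ∈ range (2 ^ q), ∑ b ∈ range (2 ^ q), Ex k (H a b)) / ((2 : ℝ) ^ q) ^ 2 := by
  rw [Ex_split q _ fun u v => H (val u) (val (v.take q)) (v.drop q)]
  have h : ∀ a, Ex (q + k) (fun v => H a (val (v.take q)) (v.drop q)) =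
      (∑ b ∈ range (2 ^ q), Ex k (H a b)) / 2 ^ q := fun a => by
    rw [Ex_split q _ fun u v => H a (val u) v]
    exact Ex_val q fun b => Ex k (H a b)
  simp only [h]
  rw [Ex_val q fun a => (∑ b ∈ range (2 ^ q), Ex k (H a b)) / 2 ^ q, ← sum_div, div_div, sq]

theorem coin_metG {α : Type} (mv : Bool → Bool → ℕ → ℕ → α → α) (cst : α → ℕ) (q r : ℕ) (z : α)
    (f p : Bool) (w : List Bool) : metG mv cst q r z (true :: f :: p :: w) =
      tryG cst r z (mv f p (val (w.take q)) (val ((w.drop q).take q)) z) ((w.drop q).drop q) := by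
  rw [List.drop_drop, metG, show 3 + q = q + 1 + 1 + 1 by omega,
    show 3 + 2 * q = q + q + 1 + 1 + 1 by omega]
  rfl

theorem Ex_metG {m q r D : ℕ} (W : Fin m → Fin m → ℕ) (hr : 0 < r) (hD : ∀ z, cost2 W z ≤ D)
    (G : PM (Fin m) × PM (Fin m) → ℝ) (z : PM (Fin m) × PM (Fin m)) :
    Ex (3 + 2 * q + D * r) (fun w => G (metG mv (cost2 W) q r z w)) =
      pairL W (1 - 1 / 2 ^ r) (2 ^ q) G z := by
  have h1 : ∀ z', Ex (D * r) (fun w => G (tryG (cost2 W) r z z' w)) =
      G z + (1 - 1 / 2 ^ r) ^ (cost2 W z' - cost2 W z) * (G z' - G z) := fun z' => by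
    simp only [tryG, apply_ite G]
    exact Ex_acc hr ((Nat.sub_le _ _).trans (hD z')) _ _
  have h2 : ∀ f p, Ex (q + (q + D * r))
      (fun w => G (metG mv (cost2 W) q r z (true :: f :: p :: w))) =
      G z + (∑ a ∈ range (2 ^ q), ∑ b ∈ range (2 ^ q), (1 - 1 / 2 ^ r : ℝ) ^
        (cost2 W (mv f p a b z) - cost2 W z) * (G (mv f p a b z) - G z)) / ((2 : ℝ) ^ q) ^ 2 :=
    fun f p => by
    simp only [coin_metG]
    rw [coin_two q _ fun a b w => G (tryG (cost2 W) r z (mv f p a b z) w)]
    simp only [h1, sum_add_distrib, sum_const, card_range, nsmul_eq_mul]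
    push_cast
    field_simp
  have h3 : ∀ w : List Bool, metG mv (cost2 W) q r z (false :: w) = z := fun w => rfl
  rw [show 3 + 2 * q + D * r = q + (q + D * r) + 1 + 1 + 1 by omega]
  simp only [Ex, h2, h3, Ex_const, pairL, LinearMap.coe_mk, AddHom.coe_mk, Fintype.sum_bool]
  push_cast
  ring

theorem coin_sum_fin {N Q : ℕ} (hN : N ≤ Q) (T : Fin N → ℝ) :
    ∑ a ∈ range Q, (if h : a < N then T ⟨a, h⟩ else 0) = ∑ i, T i := by
  rw [← sum_subset (range_subset_range.2 hN) fun a _ ha => dif_neg (by simpa using ha),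
    ← Fin.sum_univ_eq_sum_range fun a => if h : a < N then T ⟨a, h⟩ else 0]
  exact sum_congr rfl fun i _ => dif_pos i.2

theorem coin_sum_fin2 {N Q : ℕ} (hN : N ≤ Q) (T : Fin N → Fin N → ℝ) :
    ∑ a ∈ range Q, ∑ b ∈ range Q, (if ha : a < N then
      (if hb : b < N then T ⟨a, ha⟩ ⟨b, hb⟩ else 0) else 0) = ∑ i, ∑ j, T i j := by
  rw [← coin_sum_fin hN fun i => ∑ j, T i j]
  refine sum_congr rfl fun a _ => ?_
  by_cases ha : a < N
  · simp only [dif_pos ha]; exact coin_sum_fin hN _
  · simp only [dif_neg ha, sum_const_zero]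

theorem coin_set {Ω : Type} {N : ℕ} (x : Fin N → Ω) (i : Fin N) (v : Ω) :
    (List.ofFn x).set i v = List.ofFn (Function.update x i v) := by
  refine List.ext_getElem (by simp) fun k h1 h2 => ?_
  simp only [List.getElem_set, List.getElem_ofFn, Function.update_apply, Fin.ext_iff, eq_comm]

theorem coin_step {Ω : Type} [Fintype Ω] (d : Ω) {pair : Ω × Ω → List Bool → Ω × Ω}
    {P : (Ω × Ω → ℝ) →ₗ[ℝ] (Ω × Ω → ℝ)} {B q N : ℕ}
    (hP : ∀ G z, Ex B (fun w => G (pair z w)) = P G z) (hN : N ≤ 2 ^ q)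
    (F : List Ω → ℝ) (x : Fin N → Ω) :
    Ex (2 * q + B) (fun w => F (popStep d pair q (List.ofFn x) w)) =
      popOp P (2 ^ q) (fun y => F (List.ofFn y)) x := by
  have h : ∀ a b, Ex B (fun w => F (popAt d pair (List.ofFn x) a b w)) = F (List.ofFn x) -
      if ha : a < N then (if hb : b < N then (if (⟨b, hb⟩ : Fin N) = ⟨a, ha⟩ then 0 else
        F (List.ofFn x) - P (fun z => F (List.ofFn
          (Function.update (Function.update x ⟨a, ha⟩ z.1) ⟨b, hb⟩ z.2))) (x ⟨a, ha⟩, x ⟨b, hb⟩))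
        else 0) else 0 := fun a b => by
    by_cases hc : a < N ∧ b < N ∧ a ≠ b
    · obtain ⟨ha, hb, hab⟩ := hc
      rw [dif_pos ha, dif_pos hb, if_neg fun h => hab (congrArg Fin.val h).symm, sub_sub_cancel,
        ← hP]
      refine Ex_congr fun w _ => ?_
      have e : ∀ (k : ℕ) (hk : k < N), (List.ofFn x).getD k d = x ⟨k, hk⟩ := fun k hk => by
        simp [List.getD, hk]
      rw [popAt, if_pos (by simpa using ⟨ha, hb, hab⟩), e a ha, e b hb, ← coin_set, ← coin_set]
    · have e : ∀ w, popAt d pair (List.ofFn x) a b w = List.ofFn x := fun w => by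
        rw [popAt, if_neg (by simpa using hc)]
      simp only [e, Ex_const]
      split_ifs with ha hb hab
      · rw [sub_zero]
      · exact (hc ⟨ha, hb, fun h => hab (Fin.ext h.symm)⟩).elim
      · rw [sub_zero]
      · rw [sub_zero]
  have h2 := coin_two q B fun a b w => F (popAt d pair (List.ofFn x) a b w)
  simp only [List.drop_drop] at h2
  rw [show 2 * q + B = q + (q + B) by omega]
  simp only [popStep, two_mul]
  rw [h2]
  simp only [h, sum_sub_distrib, sum_const, card_range, nsmul_eq_mul]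
  rw [coin_sum_fin2 hN fun i j => if j = i then 0 else F (List.ofFn x) -
    P (fun z => F (List.ofFn (Function.update (Function.update x i z.1) j z.2))) (x i, x j)]
  unfold popOp
  simp only [← filter_ne', sum_filter, ite_not]
  push_cast
  field_simp

theorem Ex_popFold {Ω : Type} [Fintype Ω] (d : Ω) {pair : Ω × Ω → List Bool → Ω × Ω}
    {P : (Ω × Ω → ℝ) →ₗ[ℝ] (Ω × Ω → ℝ)} {B q N : ℕ}
    (hP : ∀ G z, Ex B (fun w => G (pair z w)) = P G z) (hN : N ≤ 2 ^ q) (J : ℕ)
    (F : List Ω → ℝ) (x : Fin N → Ω) :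
    Ex (J * (2 * q + B))
      (fun w => F ((chunks (2 * q + B) J w).foldl (popStep d pair q) (List.ofFn x))) =
      (popOp P (2 ^ q))^[J] (fun y => F (List.ofFn y)) x := by
  rw [Ex_fold]
  induction J generalizing F with
  | zero => rfl
  | succ J ih =>
    rw [Function.iterate_succ_apply, Function.iterate_succ_apply, ih]
    exact congrArg (fun H => (popOp P (2 ^ q))^[J] H x) (funext fun y => coin_step d hP hN F y)

theorem sum_ofFn_succ {Ω : Type} [Fintype Ω] (μ : Ω → ℝ) (N : ℕ) (F : List Ω → ℝ) :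
    ∑ x : Fin (N + 1) → Ω, (∏ i, μ (x i)) * F (List.ofFn x) =
      ∑ y, μ y * ∑ x : Fin N → Ω, (∏ i, μ (x i)) * F (y :: List.ofFn x) := by
  rw [← (Fin.consEquiv fun _ => Ω).sum_comp, Fintype.sum_prod_type]
  simp only [Fin.consEquiv, Equiv.coe_fn_mk, List.ofFn_succ, Fin.cons_zero, Fin.cons_succ,
    Fin.prod_univ_succ, mul_sum, mul_assoc]

theorem Ex_prod {Ω : Type} [Fintype Ω] [DecidableEq Ω] (f : List Bool → Ω) (B N : ℕ)
    (F : List Ω → ℝ) :
    Ex (N * B) (fun w => F ((chunks B N w).map f)) =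
      ∑ x : Fin N → Ω, (∏ i, Ex B fun w => if f w = x i then 1 else 0) * F (List.ofFn x) := by
  induction N generalizing F with
  | zero => simp [Ex, chunks]
  | succ N ih =>
    rw [sum_ofFn_succ (fun y => Ex B fun w => if f w = y then 1 else 0), ← coin_comp]
    simp only [chunks_succ, List.map_cons]
    rw [Nat.succ_mul, add_comm, Ex_split B _ fun u v => F (f u :: (chunks B N v).map f)]
    exact Ex_congr fun u _ => ih fun l => F (f u :: l)

theorem length_popStep {α : Type} (d : α) (pair : α × α → List Bool → α × α) (q : ℕ) (P : List α)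
    (w : List Bool) : (popStep d pair q P w).length = P.length := by
  unfold popStep popAt
  split_ifs <;> simp

end Vale.Agent.P308
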