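import Mathlib

/-! Averages over strings of fair coins. -/

namespace Vale.Agent.P308

open Finset

/-- The average over all coin strings of a given length. -/
noncomputable def Ex : ℕ → (List Bool → ℝ) → ℝ
  | 0, f => f []
  | k + 1, f => (Ex k (fun w => f (false :: w)) + Ex k fun w => f (true :: w)) / 2

theorem Ex_mono : ∀ {k : ℕ} {f g : List Bool → ℝ}, (∀ w, w.length = k → f w ≤ g w) → Ex k f ≤ Ex k g
  | 0, _, _, h => h [] rfl
  | k + 1, f, g, h => by
    have h1 := Ex_mono (k := k) fun w hw => h (false :: w) (by simp [hw])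
    have h2 := Ex_mono (k := k) fun w hw => h (true :: w) (by simp [hw])
    simp only [Ex]; linarith

theorem Ex_congr {k : ℕ} {f g : List Bool → ℝ} (h : ∀ w, w.length = k → f w = g w) :
    Ex k f = Ex k g :=
  le_antisymm (Ex_mono fun w hw => (h w hw).le) (Ex_mono fun w hw => (h w hw).ge)

theorem Ex_const : ∀ (k : ℕ) (a : ℝ), Ex k (fun _ => a) = a
  | 0, _ => rfl
  | k + 1, a => by simp only [Ex, Ex_const k]; ring

theorem Ex_affine (a b : ℝ) : ∀ (k : ℕ) (f : List Bool → ℝ),
    Ex k (fun w => a + b * f w) = a + b * Ex k f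
  | 0, _ => rfl
  | k + 1, f => by simp only [Ex, Ex_affine a b k]; ring

theorem Ex_split : ∀ (a b : ℕ) (f : List Bool → List Bool → ℝ),
    Ex (a + b) (fun w => f (w.take a) (w.drop a)) = Ex a fun u => Ex b (f u)
  | 0, b, f => by simp [Ex]
  | a + 1, b, f => by
    rw [Nat.add_right_comm]
    simp only [Ex, List.take_succ_cons, List.drop_succ_cons]
    rw [Ex_split a b fun u v => f (false :: u) v, Ex_split a b fun u v => f (true :: u) v]

theorem Ex_take {a k : ℕ} (h : a ≤ k) (f : List Bool → ℝ) :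
    Ex k (fun w => f (w.take a)) = Ex a f := by
  obtain ⟨b, rfl⟩ := Nat.exists_eq_add_of_le h
  rw [Ex_split a b fun u _ => f u]
  simp only [Ex_const]

theorem Ex_ofFn : ∀ (T : ℕ) (f : List Bool → ℝ),
    Ex T f = (∑ ω : Fin T → Bool, f (List.ofFn ω)) / 2 ^ T
  | 0, f => by simp [Ex]
  | T + 1, f => by
    rw [← (Fin.consEquiv fun _ => Bool).sum_comp, Fintype.sum_prod_type, Fintype.sum_bool]
    simp only [Ex, Ex_ofFn T, Fin.consEquiv, Equiv.coe_fn_mk, List.ofFn_succ, Fin.cons_zero,
      Fin.cons_succ]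
    ring

/-- The number written by a string of coins. -/
def val (w : List Bool) : ℕ := w.foldr (fun b acc => acc + acc + if b = true then 1 else 0) 0

theorem sum_range_two_mul (g : ℕ → ℝ) : ∀ k : ℕ,
    ∑ i ∈ range (2 * k), g i = ∑ i ∈ range k, g (i + i) + ∑ i ∈ range k, g (i + i + 1)
  | 0 => by simp
  | k + 1 => by
    rw [mul_add, mul_one, sum_range_succ, sum_range_succ, sum_range_two_mul g k, sum_range_succ,
      sum_range_succ, two_mul]
    ring

theorem Ex_val : ∀ (k : ℕ) (g : ℕ → ℝ),
    Ex k (fun w => g (val w)) = (∑ i ∈ range (2 ^ k), g i) / 2 ^ k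
  | 0, g => by simp [Ex, val]
  | k + 1, g => by
    have h1 := Ex_val k fun i => g (i + i)
    have h2 := Ex_val k fun i => g (i + i + 1)
    rw [pow_succ' 2 k, sum_range_two_mul]
    simp only [Ex, val, List.foldr_cons, Bool.false_eq_true, if_true, if_false, add_zero] at h1 h2 ⊢
    rw [h1, h2]; ring

theorem sum_range_mod (g : ℕ → ℝ) (a : ℕ) : ∀ b : ℕ,
    ∑ i ∈ range (a * b), g (i % a) = b * ∑ i ∈ range a, g i
  | 0 => by simp
  | b + 1 => by
    rw [mul_add, mul_one, sum_range_add, sum_range_mod g a b,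
      sum_congr rfl (f := fun x => g ((a * b + x) % a)) (g := fun i => g i) fun i hi => by
        rw [Nat.mul_add_mod, Nat.mod_eq_of_lt (mem_range.1 hi)]]
    push_cast; ring

theorem Ex_mod {e k : ℕ} (h : e ≤ k) (g : ℕ → ℝ) :
    Ex k (fun w => g (val w % 2 ^ e)) = (∑ i ∈ range (2 ^ e), g i) / 2 ^ e := by
  obtain ⟨b, rfl⟩ := Nat.exists_eq_add_of_le h
  rw [Ex_val _ fun i => g (i % 2 ^ e), pow_add, sum_range_mod]
  push_cast; field_simp; ring

theorem Ex_all (x y : ℝ) : ∀ d : ℕ,
    Ex d (fun w => if w.all id = true then x else y) = y + (1 / 2) ^ d * (x - y)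
  | 0 => by simp [Ex]
  | d + 1 => by
    have := Ex_all x y d
    simp only [Ex, List.all_cons, id, Bool.false_and, Bool.true_and, Bool.false_eq_true, if_false,
      Ex_const] at this ⊢
    rw [this]; ring

/-- Consecutive blocks of coins. -/
def chunks (B k : ℕ) (w : List Bool) : List (List Bool) :=
  (List.range k).map fun t => (w.drop (t * B)).take B

theorem chunks_succ (B k : ℕ) (w : List Bool) :
    chunks B (k + 1) w = w.take B :: chunks B k (w.drop B) := by
  simp only [chunks, List.range_succ_eq_map, List.map_cons, List.map_map, zero_mul, List.drop_zero,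
    List.drop_drop, List.cons.injEq, true_and]
  exact List.map_congr_left fun t _ => by simp [add_mul, add_comm]

theorem chunks_take (B k : ℕ) (w : List Bool) : chunks B k (w.take (k * B)) = chunks B k w := by
  refine List.map_congr_left fun t ht => ?_
  have := Nat.mul_le_mul_right B (List.mem_range.1 ht)
  rw [List.drop_take, List.take_take, min_eq_left (by rw [Nat.succ_mul] at this; omega)]

theorem Ex_fold {σ : Type} (f : σ → List Bool → σ) (B : ℕ) (ψ : σ → ℝ) : ∀ (k : ℕ) (s : σ),
    Ex (k * B) (fun w => ψ ((chunks B k w).foldl f s)) =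
      (fun (φ : σ → ℝ) s => Ex B fun b => φ (f s b))^[k] ψ s
  | 0, s => by simp [Ex, chunks]
  | k + 1, s => by
    simp only [chunks_succ, List.foldl_cons]
    rw [Nat.succ_mul, add_comm, Ex_split B _ fun u v => ψ ((chunks B k v).foldl f (f s u)),
      Function.iterate_succ_apply']
    simp only [Ex_fold f B ψ k]

end Vale.Agent.P308
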