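import Vale.Agent.P308.Haf

namespace Vale.Agent.P308

open Finset

namespace ComplAux

open scoped symmDiff

variable {V : Type} [Fintype V] [DecidableEq V] {b : V → V → ℝ}

theorem haf_insert (b : V → V → ℝ) {z : V} {X : Finset V} (hz : z ∉ X) :
    haf b (insert z X) = ∑ y ∈ X, b z y * b y z * haf b (X.erase y) := by
  rw [haf_expand b (mem_insert_self z X), erase_insert hz]

/-- the exchange inequality -/
theorem exch (hb : ∀ x y, 0 ≤ b x y) (n : ℕ) : ∀ (U U1 : Finset V) (z : V),
    U.card + U1.card ≤ n → z ∉ U → z ∉ U1 → haf b U * haf b (insert z U1) ≤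
      ∑ w ∈ U ∆ U1, haf b (insert z (U ∆ {w})) * haf b (U1 ∆ {w}) := by
  induction n using Nat.strong_induction_on with
  | _ n ih =>
    intro U U1 z hn hz hz1
    have hs : ∀ y, 0 ≤ b z y * b y z := fun y => mul_nonneg (hb _ _) (hb _ _)
    have h1 : ∀ y ∈ U1 ∩ U, haf b U * (b z y * b y z * haf b (U1.erase y)) ≤
        ∑ w ∈ U ∆ U1, b z y * b y z * haf b ((U ∆ {w}).erase y) * haf b (U1 ∆ {w}) := by
      intro y hy
      obtain ⟨hy1, hy2⟩ := mem_inter.1 hy
      have h2 := card_erase_of_mem hy1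
      have h3 := card_erase_of_mem hy2
      have h4 := card_pos.2 ⟨y, hy1⟩
      have h5 := ih (n - 1) (by omega) (U1.erase y) (U.erase y) y (by omega)
        (notMem_erase _ _) (notMem_erase _ _)
      have h6 : (U1.erase y) ∆ (U.erase y) = U ∆ U1 := by
        ext v
        simp only [mem_symmDiff, mem_erase]
        grind
      rw [insert_erase hy2, h6] at h5
      calc _ = b z y * b y z * (haf b (U1.erase y) * haf b U) := by ring
        _ ≤ _ := mul_le_mul_of_nonneg_left h5 (hs y)
        _ = _ := by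
          rw [Finset.mul_sum]
          refine Finset.sum_congr rfl fun w hw => ?_
          rw [mem_symmDiff] at hw
          have h7 : insert y ((U1.erase y) ∆ {w}) = U1 ∆ {w} := by
            ext v
            simp only [mem_symmDiff, mem_erase, mem_insert, mem_singleton]
            grind
          have h8 : (U.erase y) ∆ {w} = (U ∆ {w}).erase y := by
            ext v
            simp only [mem_symmDiff, mem_erase, mem_singleton]
            grind
          rw [h7, h8]
          ring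
    have h2 : ∀ w ∈ U ∆ U1, ∑ y ∈ U1 ∩ U,
        b z y * b y z * haf b ((U ∆ {w}).erase y) * haf b (U1 ∆ {w}) +
          (if w ∈ U1 \ U then haf b U * (b z w * b w z * haf b (U1.erase w)) else 0) ≤
        haf b (insert z (U ∆ {w})) * haf b (U1 ∆ {w}) := by
      intro w hw
      rw [mem_symmDiff] at hw
      rw [haf_insert b (by simp only [mem_symmDiff, mem_singleton]; grind), Finset.sum_mul]
      have h3 : ∀ y, 0 ≤ b z y * b y z * haf b ((U ∆ {w}).erase y) * haf b (U1 ∆ {w}) :=
        fun y => mul_nonneg (mul_nonneg (hs y) (haf_nonneg hb _)) (haf_nonneg hb _)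
      split_ifs with h
      · obtain ⟨h4, h5⟩ := mem_sdiff.1 h
        have h6 : (U ∆ {w}).erase w = U := by
          ext v
          simp only [mem_symmDiff, mem_erase, mem_singleton]
          grind
        have h7 : U1 ∆ {w} = U1.erase w := by
          ext v
          simp only [mem_symmDiff, mem_erase, mem_singleton]
          grind
        refine le_trans (le_of_eq ?_) (Finset.sum_le_sum_of_subset_of_nonneg
          (s := insert w (U1 ∩ U)) (fun v hv => ?_) fun y _ _ => h3 y)
        · rw [Finset.sum_insert fun h8 => h5 (mem_inter.1 h8).2, h6, add_comm]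
          congr 1
          rw [h7]
          ring
        · simp only [mem_symmDiff, mem_insert, mem_inter, mem_singleton] at hv ⊢
          grind
      · rw [add_zero]
        refine Finset.sum_le_sum_of_subset_of_nonneg (fun v hv => ?_) fun y _ _ => h3 y
        simp only [mem_symmDiff, mem_sdiff, mem_inter, mem_singleton] at hv h ⊢
        grind
    refine le_trans ?_ (Finset.sum_le_sum h2)
    have h3 : U ∆ U1 ∩ (U1 \ U) = U1 \ U := by
      ext v
      simp only [mem_symmDiff, mem_sdiff, mem_inter]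
      grind
    rw [Finset.sum_add_distrib, Finset.sum_comm, Finset.sum_ite_mem, h3, haf_insert b hz1,
      Finset.mul_sum, ← Finset.sum_inter_add_sum_sdiff U1 U]
    exact add_le_add_left (Finset.sum_le_sum h1) _

theorem four (hb : ∀ x y, 0 ≤ b x y) {S : Finset V} {a c y z : V} (ha : a ∈ S) (hc : c ∈ S)
    (hy : y ∈ S) (hz : z ∈ S) (h1 : a ≠ c) (h2 : a ≠ y) (h3 : a ≠ z) (h4 : c ≠ y) (h5 : c ≠ z)
    (h6 : y ≠ z) :
    haf b (S.erase z) * haf b (S \ {a, c, y}) ≤ haf b (S.erase a) * haf b (S \ {z, c, y}) +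
      (haf b (S.erase c) * haf b (S \ {a, z, y}) + haf b (S.erase y) * haf b (S \ {z, c, a})) := by
  have h := exch hb _ (S.erase z) (S \ {a, c, y, z}) z le_rfl (notMem_erase _ _) (by simp)
  have e0 : insert z (S \ {a, c, y, z}) = S \ {a, c, y} := by
    ext v
    simp only [mem_sdiff, mem_insert, mem_singleton]
    grind
  have e1 : (S.erase z) ∆ (S \ {a, c, y, z}) = {a, c, y} := by
    ext v
    simp only [mem_symmDiff, mem_sdiff, mem_insert, mem_singleton, mem_erase]
    grind
  have e2 : ∀ w ∈ S, w ≠ z → insert z ((S.erase z) ∆ {w}) = S.erase w := by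
    intro w hw hwz
    ext v
    simp only [mem_symmDiff, mem_insert, mem_singleton, mem_erase]
    grind
  have e3 : (S \ {a, c, y, z}) ∆ {a} = S \ {z, c, y} := by
    ext v
    simp only [mem_symmDiff, mem_sdiff, mem_insert, mem_singleton]
    grind
  have e4 : (S \ {a, c, y, z}) ∆ {c} = S \ {a, z, y} := by
    ext v
    simp only [mem_symmDiff, mem_sdiff, mem_insert, mem_singleton]
    grind
  have e5 : (S \ {a, c, y, z}) ∆ {y} = S \ {z, c, a} := by
    ext v
    simp only [mem_symmDiff, mem_sdiff, mem_insert, mem_singleton]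
    grind
  rw [e0, e1, Finset.sum_insert (by simp [h1, h2]), Finset.sum_insert (by simp [h4]),
    Finset.sum_singleton, e2 a ha h3, e2 c hc h5, e2 y hy h6, e3, e4, e5] at h
  exact h

theorem one_term (hb : ∀ x y, 0 ≤ b x y) (hs : ∀ x y, b x y = b y x) {S : Finset V} {u v y : V}
    (hu : u ∈ S) (hv : v ∈ S) (h1 : u ≠ v) (h2 : u ≠ y) (h3 : v ≠ y) {h : ℝ}
    (hh : h ≤ b u v ^ 2) : h * haf b (S \ {u, v, y}) ≤ haf b (S.erase y) := by
  have e : ((S.erase y).erase u).erase v = S \ {u, v, y} := by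
    ext w
    simp only [mem_sdiff, mem_insert, mem_singleton, mem_erase]
    grind
  rw [haf_expand b (mem_erase.2 ⟨h2, hu⟩)]
  refine le_trans ?_ (Finset.single_le_sum
    (f := fun w => b u w * b w u * haf b (((S.erase y).erase u).erase w))
    (fun w _ => mul_nonneg (mul_nonneg (hb _ _) (hb _ _)) (haf_nonneg hb _))
    (mem_erase.2 ⟨h1.symm, mem_erase.2 ⟨h3, hv⟩⟩))
  rw [e, hs v u, ← sq]
  exact mul_le_mul_of_nonneg_right hh (haf_nonneg hb _)

theorem haf_two {S : Finset V} (hS : Odd S.card) {a y : V} (ha : a ∈ S) (hy : y ∈ S) (h : a ≠ y)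
    {v : V} (hv : v = a ∨ v = y) : haf b (S \ {a, v, y}) = 0 := by
  have e : S \ {a, v, y} = (S.erase a).erase y := by
    ext w
    simp only [mem_sdiff, mem_insert, mem_singleton, mem_erase]
    grind
  have h1 := mem_erase.2 ⟨h.symm, hy⟩
  have h2 := card_pos.2 ⟨y, h1⟩
  rw [card_erase_of_mem ha] at h2
  refine haf_odd b ?_
  rw [e, card_erase_of_mem h1, card_erase_of_mem ha]
  obtain ⟨k, hk⟩ := hS
  exact ⟨k - 1, by omega⟩

theorem edge (hb : ∀ x y, 0 ≤ b x y) (hs : ∀ x y, b x y = b y x) {S : Finset V} (hS : Odd S.card)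
    {a y u v : V} (ha : a ∈ S) (hy : y ∈ S) (hu : u ∈ S) (hv : v ∈ S) (hay : a ≠ y) {h : ℝ}
    (h0 : 0 ≤ h) (hh : u ≠ v → h ≤ b u v ^ 2) :
    h * (haf b (S.erase u) * haf b (S \ {a, v, y})) ≤
      h * (haf b (S.erase v) * haf b (S \ {a, u, y})) +
        2 * (haf b (S.erase a) * haf b (S.erase y)) := by
  have p : ∀ X, 0 ≤ haf b X := haf_nonneg hb
  have p1 := mul_nonneg (p (S.erase a)) (p (S.erase y))
  have p2 := mul_nonneg h0 (mul_nonneg (p (S.erase v)) (p (S \ {a, u, y})))
  by_cases h1 : v = a ∨ v = y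
  · rw [haf_two hS ha hy hay h1]
    linarith
  push Not at h1
  by_cases h2 : u = v
  · subst h2
    linarith
  by_cases h3 : u = a
  · subst h3
    have := mul_le_mul_of_nonneg_left (one_term hb hs hu hv h2 hay h1.2 (hh h2)) (p (S.erase u))
    linarith
  by_cases h4 : u = y
  · subst h4
    have := mul_le_mul_of_nonneg_left (one_term hb hs hu hv h2 h3 h1.1 (hh h2)) (p (S.erase u))
    have e : ({u, v, a} : Finset V) = {a, v, u} := by
      ext w
      simp only [mem_insert, mem_singleton]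
      grind
    rw [e] at this
    linarith
  have h5 := mul_le_mul_of_nonneg_left
    (four hb ha hv hy hu h1.1.symm hay (Ne.symm h3) h1.2 (Ne.symm h2) (Ne.symm h4)) h0
  have h6 := mul_le_mul_of_nonneg_left (one_term hb hs hu hv h2 h4 h1.2 (hh h2)) (p (S.erase a))
  have h7 := mul_le_mul_of_nonneg_left (one_term hb hs hu hv h2 h3 h1.1 (hh h2)) (p (S.erase y))
  linarith

omit [Fintype V] [DecidableEq V] in
theorem reach {S : Finset V} {r : V → V → Prop} {ψ : V → ℝ} {k : ℝ} (hk : 0 ≤ k) {a : V}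
    (ha : a ∈ S) (h0 : ψ a ≤ 0) (hr : ∀ u v, r u v → v ∈ S ∧ ψ v ≤ ψ u + k) {w : V}
    (hw : Relation.ReflTransGen r a w) : ψ w ≤ S.card * k := by
  classical
  have key : ∀ n : ℕ, (∀ v, Relation.ReflTransGen r a v → ψ v ≤ n * k) ∨
      n + 1 ≤ (S.filter fun v => ψ v ≤ n * k).card := by
    intro n
    induction n with
    | zero => exact Or.inr (card_pos.2 ⟨a, mem_filter.2 ⟨ha, by simpa using h0⟩⟩)
    | succ n ih =>
      have h1 : (n : ℝ) * k ≤ (n + 1 : ℕ) * k := by
        push_cast
        linarith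
      by_cases h2 : ∃ v ∈ S, n * k < ψ v ∧ ψ v ≤ (n + 1 : ℕ) * k
      · rcases ih with ih | ih
        · exact Or.inl fun v hv => (ih v hv).trans h1
        · obtain ⟨v, hv, h3, h4⟩ := h2
          refine Or.inr (lt_of_le_of_lt ih (card_lt_card ⟨fun x hx => ?_, fun h5 => ?_⟩))
          · exact mem_filter.2 ⟨(mem_filter.1 hx).1, (mem_filter.1 hx).2.trans h1⟩
          · exact absurd (mem_filter.1 (h5 (mem_filter.2 ⟨hv, h4⟩))).2 (not_le.2 h3)
      · refine Or.inl fun v hv => le_trans ?_ h1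
        induction hv with
        | refl => exact h0.trans (by positivity)
        | tail _ h4 ih2 =>
          by_contra h5
          refine h2 ⟨_, (hr _ _ h4).1, not_le.1 h5, (hr _ _ h4).2.trans ?_⟩
          push_cast
          linarith
  rcases key S.card with h | h
  · exact h w hw
  · exact absurd (h.trans (card_filter_le _ _)) (by omega)

theorem a3_bound (hb : ∀ x y, 0 ≤ b x y) (hs : ∀ x y, b x y = b y x) {S : Finset V}
    (hS : Odd S.card) {lo K : ℝ} (hlo : 0 < lo)
    (hA : ∀ u ∈ S, lo ≤ haf b (S.erase u) ∧ haf b (S.erase u) ≤ K * lo) {a w y : V} (ha : a ∈ S)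
    (hw : w ∈ S) (hy : y ∈ S) (hay : a ≠ y) {h : ℝ} (h0 : 0 < h)
    (hp : Relation.ReflTransGen (fun u v => u ∈ S ∧ v ∈ S ∧ (u ≠ v → h ≤ b u v ^ 2)) a w) :
    h * haf b (S \ {a, w, y}) ≤ 2 * S.card * K ^ 2 * haf b (S.erase y) := by
  have p : ∀ u ∈ S, 0 < haf b (S.erase u) := fun u hu => hlo.trans_le (hA u hu).1
  have pa := p a ha
  have py := p y hy
  have pw := p w hw
  have h1 := reach (S := S) (ψ := fun u => h * haf b (S \ {a, u, y}) / haf b (S.erase u))
    (k := 2 * (haf b (S.erase a) * haf b (S.erase y)) / lo ^ 2) (by positivity) ha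
    (by rw [haf_two hS ha hy hay (Or.inl rfl)]; simp) (fun u v huv => ⟨huv.2.1, by
      have h2 := edge hb hs hS ha hy huv.1 huv.2.1 hay h0.le huv.2.2
      have pu := p u huv.1
      have pv := p v huv.2.1
      have h3 : 2 * (haf b (S.erase a) * haf b (S.erase y)) /
          (haf b (S.erase u) * haf b (S.erase v)) ≤
          2 * (haf b (S.erase a) * haf b (S.erase y)) / lo ^ 2 := by
        rw [sq]
        gcongr
        · exact (hA u huv.1).1
        · exact (hA v huv.2.1).1
      refine le_trans ?_ (add_le_add_right h3 _)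
      rw [div_add_div _ _ pu.ne' (by positivity), div_le_div_iff₀ pv (by positivity)]
      have h4 := mul_le_mul_of_nonneg_left h2 (mul_pos pu pv).le
      linarith⟩) hp
  rw [div_le_iff₀ pw] at h1
  refine h1.trans ?_
  have h2 : haf b (S.erase a) * haf b (S.erase w) ≤ K * lo * (K * lo) :=
    mul_le_mul (hA a ha).2 (hA w hw).2 pw.le (pa.le.trans (hA a ha).2)
  calc _ = 2 * S.card * (haf b (S.erase a) * haf b (S.erase w)) * haf b (S.erase y) / lo ^ 2 := by
        ring
    _ ≤ 2 * S.card * (K * lo * (K * lo)) * haf b (S.erase y) / lo ^ 2 := by gcongr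
    _ = _ := by field_simp

/-- the hybrid weights -/
noncomputable def hyb (b b' : V → V → ℝ) (T : Finset V) (x y : V) : ℝ :=
  if x ∈ T ∨ y ∈ T then b' x y else b x y

omit [Fintype V] in
theorem hyb_insert (b b' : V → V → ℝ) (T : Finset V) {x u v : V} (hu : u ≠ x) (hv : v ≠ x) :
    hyb b b' (insert x T) u v = hyb b b' T u v := by
  simp only [hyb, mem_insert, hu, hv, false_or]

theorem step {S T : Finset V} (hS : Odd S.card) {b b' h : V → V → ℝ} {K δ lo : ℝ}
    (hb : ∀ x y, 0 < b x y) (hb' : ∀ x y, 0 < b' x y) (hs : ∀ x y, b x y = b y x)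
    (hs' : ∀ x y, b' x y = b' y x) (hle : ∀ x ∈ S, ∀ y ∈ S, x ≠ y → b x y ≤ b' x y)
    (hup : ∀ x ∈ S, ∀ y ∈ S, x ≠ y → b' x y ^ 2 ≤ b x y ^ 2 + δ * h x y)
    (hh : ∀ x y, 0 < h x y)
    (hpath : ∀ x ∈ S, ∀ y ∈ S, x ≠ y →
      Relation.ReflTransGen (fun u v => u ∈ S ∧ v ∈ S ∧ h x y ≤ b u v ^ 2) x y)
    (hδ : 0 ≤ δ) (hlo : 0 < lo)
    (hA : ∀ u ∈ S, lo ≤ haf (hyb b b' T) (S.erase u) ∧ haf (hyb b b' T) (S.erase u) ≤ K * lo)
    {x y : V} (hx : x ∈ S) (hy : y ∈ S) :
    haf (hyb b b' (insert x T)) (S.erase y) ≤ haf (hyb b b' T) (S.erase y) +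
      δ * (2 * S.card ^ 2 * K ^ 2 * haf (hyb b b' T) (S.erase y)) := by
  have q0 : ∀ u v, 0 ≤ hyb b b' T u v := fun u v => by
    unfold hyb
    split_ifs
    exacts [(hb' u v).le, (hb u v).le]
  have q1 : ∀ u v, hyb b b' T u v = hyb b b' T v u := fun u v => by
    simp only [hyb, or_comm, hs u v, hs' u v]
  have q2 : ∀ u ∈ S, ∀ v ∈ S, u ≠ v → b u v ^ 2 ≤ hyb b b' T u v ^ 2 := fun u hu v hv huv => by
    unfold hyb
    split_ifs
    exacts [pow_le_pow_left₀ (hb u v).le (hle u hu v hv huv) 2, le_rfl]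
  have p := haf_nonneg q0
  by_cases hxy : x = y
  · subst hxy
    rw [haf_congr fun u hu v hv _ => hyb_insert b b' T (ne_of_mem_erase hu) (ne_of_mem_erase hv)]
    have := p (S.erase x)
    exact le_add_of_nonneg_right (by positivity)
  have hx' := mem_erase.2 ⟨hxy, hx⟩
  rw [haf_expand (hyb b b' (insert x T)) hx']
  have h1 : ∀ w ∈ (S.erase y).erase x, hyb b b' (insert x T) x w * hyb b b' (insert x T) w x *
      haf (hyb b b' (insert x T)) (((S.erase y).erase x).erase w) ≤
      hyb b b' T x w * hyb b b' T w x * haf (hyb b b' T) (((S.erase y).erase x).erase w) +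
        δ * (2 * S.card * K ^ 2 * haf (hyb b b' T) (S.erase y)) := by
    intro w hw
    obtain ⟨hwx, hw'⟩ := mem_erase.1 hw
    have hwS := mem_of_mem_erase hw'
    have e : ((S.erase y).erase x).erase w = S \ {x, w, y} := by
      ext v
      simp only [mem_sdiff, mem_insert, mem_singleton, mem_erase]
      grind
    rw [haf_congr fun u hu v hv _ => hyb_insert b b' T (ne_of_mem_erase (mem_of_mem_erase hu))
      (ne_of_mem_erase (mem_of_mem_erase hv)), e, q1 w x]
    have h2 : hyb b b' (insert x T) x w = b' x w := by simp [hyb]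
    have h3 : hyb b b' (insert x T) w x = b' x w := by simp [hyb, hs' w x]
    have h4 := a3_bound q0 q1 hS hlo hA hx hwS hy hxy (hh x w)
      (by
        refine Relation.ReflTransGen.mono (fun u v huv => ?_) _ _ (hpath x hx w hwS hwx.symm)
        exact ⟨huv.1, huv.2.1, fun hne => huv.2.2.trans (q2 u huv.1 v huv.2.1 hne)⟩)
    have h5 := (hup x hx w hwS hwx.symm).trans (add_le_add_left (q2 x hx w hwS hwx.symm) _)
    have h6 := mul_le_mul_of_nonneg_right h5 (p (S \ {x, w, y}))
    have h7 := mul_le_mul_of_nonneg_left h4 hδ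
    rw [h2, h3]
    linarith
  refine (Finset.sum_le_sum h1).trans ?_
  rw [Finset.sum_add_distrib, ← haf_expand _ hx', Finset.sum_const, nsmul_eq_mul]
  have h2 : (((S.erase y).erase x).card : ℝ) ≤ S.card := by
    exact_mod_cast card_le_card ((erase_subset _ _).trans (erase_subset _ _))
  have h3 := p (S.erase y)
  have h4 := mul_le_mul_of_nonneg_right h2
    (show 0 ≤ δ * (2 * S.card * K ^ 2 * haf (hyb b b' T) (S.erase y)) by positivity)
  linarith

end ComplAux

section
variable {V : Type} [Fintype V] [DecidableEq V]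

open ComplAux in
theorem completion {S : Finset V} (hS : Odd S.card) {b b' h : V → V → ℝ} {C δ : ℝ}
    (hb : ∀ x y, 0 < b x y) (hb' : ∀ x y, 0 < b' x y) (hs : ∀ x y, b x y = b y x)
    (hs' : ∀ x y, b' x y = b' y x) (hle : ∀ x ∈ S, ∀ y ∈ S, x ≠ y → b x y ≤ b' x y)
    (hup : ∀ x ∈ S, ∀ y ∈ S, x ≠ y → b' x y ^ 2 ≤ b x y ^ 2 + δ * h x y)
    (hh : ∀ x y, 0 < h x y)
    (hpath : ∀ x ∈ S, ∀ y ∈ S, x ≠ y →
      Relation.ReflTransGen (fun u v => u ∈ S ∧ v ∈ S ∧ h x y ≤ b u v ^ 2) x y)
    (hbal : ∀ x ∈ S, ∀ y ∈ S, haf b (S.erase x) ≤ C * haf b (S.erase y))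
    (hδ : 0 ≤ δ) (hθ : 16 * δ * C ^ 2 * (S.card : ℝ) ^ 3 ≤ 1) :
    ∀ x ∈ S, haf b' (S.erase x) ≤ (1 + 16 * δ * C ^ 2 * (S.card : ℝ) ^ 3) * haf b (S.erase x) := by
  obtain ⟨z, hz, hmin⟩ := exists_min_image S (fun u => haf b (S.erase u)) (card_pos.1 hS.pos)
  have hlo : 0 < haf b (S.erase z) := haf_pos hb (by
    rw [card_erase_of_mem hz]
    exact hS.tsub_odd odd_one)
  have p := haf_nonneg fun x y => (hb x y).le
  have key : ∀ T : Finset V, T ⊆ S → ∀ y ∈ S, haf (hyb b b' T) (S.erase y) ≤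
      (1 + T.card * (16 * δ * C ^ 2 * (S.card : ℝ) ^ 2)) * haf b (S.erase y) := by
    intro T
    induction T using Finset.induction_on with
    | empty =>
      intro _ y _
      have : hyb b b' ∅ = b := by
        funext u v
        simp [hyb]
      simp [this]
    | insert x T hx ih =>
      intro hT y hy
      have hTS : T ⊆ S := (subset_insert _ _).trans hT
      have h1 : (T.card : ℝ) * (16 * δ * C ^ 2 * (S.card : ℝ) ^ 2) ≤ 1 := by
        have h2 : (T.card : ℝ) ≤ S.card := by exact_mod_cast card_le_card hTS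
        have h3 := mul_le_mul_of_nonneg_right h2
          (show 0 ≤ 16 * δ * C ^ 2 * (S.card : ℝ) ^ 2 by positivity)
        linarith
      have h2 : ∀ u ∈ S, haf (hyb b b' T) (S.erase u) ≤ 2 * haf b (S.erase u) := fun u hu =>
        (ih hTS u hu).trans (mul_le_mul_of_nonneg_right (by linarith) (p _))
      have h3 := step (T := T) (K := 2 * C) hS hb hb' hs hs' hle hup hh hpath hδ hlo
        (fun u hu => ⟨(hmin u hu).trans (haf_mono (fun x y => (hb x y).le) fun v hv w hw hne => by
          unfold hyb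
          split_ifs
          exacts [hle v (mem_of_mem_erase hv) w (mem_of_mem_erase hw) hne, le_rfl]), by
            linarith [h2 u hu, hbal u hu z hz]⟩) (hT (mem_insert_self _ _)) hy
      have h4 := mul_le_mul_of_nonneg_left (h2 y hy)
        (show 0 ≤ δ * (2 * (S.card : ℝ) ^ 2 * (2 * C) ^ 2) by positivity)
      have h5 := ih hTS y hy
      rw [card_insert_of_notMem hx]
      push_cast
      linarith
  intro x hx
  have h1 := key S Subset.rfl x hx
  rw [haf_congr (b' := b') fun u hu v _ _ => by simp [hyb, mem_of_mem_erase hu]] at h1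
  linarith

end

end Vale.Agent.P308
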