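import Vale.Agent.P308.Basic
import Vale.Agent.P308.Coins

/-! The counting process on matchings: all definitions. -/

namespace Vale.Agent.P308

open Finset

section Haf

variable {V : Type} [Fintype V] [DecidableEq V]

/-- involutions moving exactly the points of `U`: the perfect matchings of `U` -/
def PMon (U : Finset V) : Finset (V → V) :=
  univ.filter fun σ => ∀ v, σ (σ v) = v ∧ (σ v = v ↔ v ∉ U)

/-- the hafnian of the edge weights `b x y * b y x` on `U` -/
noncomputable def haf (b : V → V → ℝ) (U : Finset V) : ℝ := ∑ σ ∈ PMon U, ∏ v ∈ U, b v (σ v)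

end Haf

/-- the minimax closure, by pivots `0, …, j - 1` -/
def FW {m : ℕ} (c : Fin m → Fin m → ℕ) : ℕ → Fin m → Fin m → ℕ
  | 0 => c
  | j + 1 => fun x y =>
    if h : j < m then min (FW c j x y) (max (FW c j x ⟨j, h⟩) (FW c j ⟨j, h⟩ y)) else FW c j x y

section Pop

variable {Ω : Type} [Fintype Ω]

/-- one step of the population chain: a pair move on two random particles -/
noncomputable def popOp {N : ℕ} (P : (Ω × Ω → ℝ) →ₗ[ℝ] (Ω × Ω → ℝ)) (Q : ℕ)
    (F : (Fin N → Ω) → ℝ) (x : Fin N → Ω) : ℝ :=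
  F x - (∑ i, ∑ j ∈ univ.erase i,
    (F x - P (fun z => F (Function.update (Function.update x i z.1) j z.2)) (x i, x j))) /
      (Q : ℝ) ^ 2

/-- a lazy reversible pair operator with a gap on additive functions -/
structure PairGap (π : Ω → ℝ) (P : (Ω × Ω → ℝ) →ₗ[ℝ] (Ω × Ω → ℝ)) (γ : ℝ) : Prop where
  pos : ∀ x, 0 < π x
  sum : ∑ x, π x = 1
  one : ∀ z, P (fun _ => 1) z = 1
  symm : ∀ G H : Ω × Ω → ℝ,
    ∑ z, π z.1 * π z.2 * (P G z * H z) = ∑ z, π z.1 * π z.2 * (G z * P H z)
  lazy : ∀ G : Ω × Ω → ℝ,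
    ∑ z, π z.1 * π z.2 * (G z - P G z) ^ 2 ≤ ∑ z, π z.1 * π z.2 * (G z * (G z - P G z))
  gap : ∀ f g : Ω → ℝ, ∑ x, π x * f x = 0 → ∑ x, π x * g x = 0 →
    γ * (∑ x, π x * f x ^ 2 + ∑ x, π x * g x ^ 2) ≤
      ∑ z : Ω × Ω, π z.1 * π z.2 *
        ((f z.1 + g z.2) * (f z.1 + g z.2 - P (fun z => f z.1 + g z.2) z))

/-- the same in coordinates with respect to an orthonormal basis whose vector `o` is constant -/
structure PairGap0 [DecidableEq Ω] (o : Ω) (P : (Ω × Ω → ℝ) →ₗ[ℝ] (Ω × Ω → ℝ)) (γ : ℝ) : Prop where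
  one : P (Pi.single (o, o) 1) = Pi.single (o, o) 1
  symm : ∀ G H : Ω × Ω → ℝ, ∑ z, P G z * H z = ∑ z, G z * P H z
  lazy : ∀ G : Ω × Ω → ℝ, ∑ z, (G z - P G z) ^ 2 ≤ ∑ z, G z * (G z - P G z)
  gap : ∀ G : Ω × Ω → ℝ, (∀ z, (z.1 = o ↔ z.2 = o) → G z = 0) →
    γ * ∑ z, G z ^ 2 ≤ ∑ z, G z * (G z - P G z)

end Pop

section Coin

variable {α : Type}

/-- `d` trials, each failing only if `r` coins are all false -/
def acc (r d : ℕ) (w : List Bool) : Bool :=
  ((List.range w.length).take d).all fun t => ((w.drop (t * r)).take r).any id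

/-- accept or reject a proposal -/
def tryG (cst : α → ℕ) (r : ℕ) (z z' : α) (w : List Bool) : α :=
  if acc r (cst z' - cst z) w = true then z' else z

/-- the lazy Metropolis move driven by coins -/
def metG (mv : Bool → Bool → ℕ → ℕ → α → α) (cst : α → ℕ) (q r : ℕ) (z : α) (w : List Bool) : α :=
  if w.getD 0 false = true then
    tryG cst r z (mv (w.getD 1 false) (w.getD 2 false) (val ((w.drop 3).take q))
      (val ((w.drop (3 + q)).take q)) z) (w.drop (3 + 2 * q))
  else z

/-- a pair move on particles `i` and `j` -/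
def popAt (d : α) (pair : α × α → List Bool → α × α) (P : List α) (i j : ℕ) (w : List Bool) :
    List α :=
  if i < P.length ∧ j < P.length ∧ i ≠ j then
    (P.set i (pair (P.getD i d, P.getD j d) w).1).set j (pair (P.getD i d, P.getD j d) w).2
  else P

/-- one step of the population chain driven by coins -/
def popStep (d : α) (pair : α × α → List Bool → α × α) (q : ℕ) (P : List α) (w : List Bool) :
    List α :=
  popAt d pair P (val (w.take q)) (val ((w.drop q).take q)) (w.drop (2 * q))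

end Coin

section Pair

variable {m : ℕ}

/-- the proposed move of a pair: a switch or a crossover -/
noncomputable def mv (f p : Bool) (a b : ℕ) (z : PM (Fin m) × PM (Fin m)) :
    PM (Fin m) × PM (Fin m) :=
  if h : a < m then
    (if f = true then (if h' : b < m then (sw ⟨a, h⟩ ⟨b, h'⟩ z.1, z.2) else z)
    else xo p ⟨a, h⟩ (min b m) z)
  else z

/-- the lazy Metropolis operator on pairs -/
noncomputable def pairL (W : Fin m → Fin m → ℕ) (β : ℝ) (Q : ℕ) :
    (PM (Fin m) × PM (Fin m) → ℝ) →ₗ[ℝ] (PM (Fin m) × PM (Fin m) → ℝ) where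
  toFun G z := G z + (∑ f, ∑ p, ∑ a ∈ range Q, ∑ b ∈ range Q,
    β ^ (cost2 W (mv f p a b z) - cost2 W z) * (G (mv f p a b z) - G z)) / (8 * (Q : ℝ) ^ 2)
  map_add' G H := by
    funext z
    simp only [Pi.add_apply, add_sub_add_comm, mul_add, sum_add_distrib]
    ring
  map_smul' c G := by
    funext z
    simp only [Pi.smul_apply, smul_eq_mul, RingHom.id_apply, ← mul_sub, mul_left_comm _ c,
      ← mul_sum]
    ring

/-- the partner of a position -/
def prt (r : ℕ) : ℕ := if r % 2 = 0 then r + 1 else r - 1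

/-- the standard matching -/
def pm0 (hm : Even m) : PM (Fin m) :=
  ⟨fun v => ⟨prt v, by have := v.2; obtain ⟨k, rfl⟩ := hm; unfold prt; split_ifs <;> omega⟩,
    fun v => Fin.ext (by simp only [prt]; split_ifs <;> omega),
    fun v h => by have := congrArg Fin.val h; simp only [prt] at this; split_ifs at this <;> omega⟩

/-- the rank of a key -/
def rk (h : Fin m → ℕ) (v : Fin m) : ℕ := (univ.filter fun u => h u < h v).card

open Classical in
/-- the matching of consecutive keys -/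
noncomputable def keyPM (d : PM (Fin m)) (h : Fin m → ℕ) : PM (Fin m) :=
  if H : Function.Injective h ∧ ∃ X : PM (Fin m), ∀ v, rk h (X.1 v) = prt (rk h v) then
    H.2.choose else d

/-- a random matching from `m * r` coins -/
noncomputable def initC (d : PM (Fin m)) (r : ℕ) (w : List Bool) : PM (Fin m) :=
  keyPM d fun v => val ((w.drop (v * r)).take r)

end Pair

/-- the scale -/
def QQ (q : ℕ) : ℕ := 2 ^ q
/-- the completion gap, also the length of the second phase -/
def DD (q : ℕ) : ℕ := 3 * q * QQ q ^ 510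
/-- the length of the first phase -/
def T1 (q : ℕ) : ℕ := QQ q ^ 512
/-- the number of stages -/
def TT (q : ℕ) : ℕ := T1 q + DD q
/-- the feedback step -/
def cc (q : ℕ) : ℕ := QQ q ^ 3
/-- the cost of root edges -/
def BB (q : ℕ) : ℕ := QQ q ^ 520
/-- coins of a pair move -/
def Bp (q : ℕ) : ℕ := 3 + 2 * q + QQ q ^ 522 * (510 * q)
/-- coins of a population step -/
def Bs (q : ℕ) : ℕ := 2 * (1000 * q) + Bp q
/-- population steps in a stage -/
def JJ (q : ℕ) : ℕ := QQ q ^ 1303
/-- the base of the weights -/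
noncomputable def be (q : ℕ) : ℝ := 1 - 1 / (QQ q : ℝ) ^ 510

/-- An instance: vertices, scale, the spare vertex `z`, the root `o`, adjacency. -/
structure Par where
  m : ℕ
  q : ℕ
  z : Fin m
  o : Fin m
  A : Fin m → Fin m → Bool

namespace Par

/-- The standing assumptions. -/
structure OK (a : Par) : Prop where
  ne : a.z ≠ a.o
  even : Even a.m
  big : 16 ≤ a.q
  lt : a.m < QQ a.q
  symm : ∀ x y, a.A x y = a.A y x

variable (a : Par)

/-- raw costs -/
def cM (t : ℕ) (g : Fin a.m → ℕ) (x y : Fin a.m) : ℕ :=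
  if x = y then 0 else if x = a.o ∨ y = a.o then BB a.q
  else (if a.A x y = true then 0 else min t (T1 a.q)) + g x + g y

/-- the ultrametric -/
def uM (t : ℕ) (g : Fin a.m → ℕ) : Fin a.m → Fin a.m → ℕ := FW (a.cM t g) a.m

/-- extra cost of root edges -/
def ex (t : ℕ) (x : Fin a.m) : ℕ := if x = a.z then 0 else t - T1 a.q

/-- completed costs -/
def wM (t : ℕ) (g : Fin a.m → ℕ) (x y : Fin a.m) : ℕ :=
  if x = y then 0 else if y = a.o then BB a.q + a.ex t x else if x = a.o then BB a.q + a.ex t y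
  else min (a.cM t g x y) (DD a.q + a.uM t g x y)

/-- feedback on the potentials -/
def upd (t : ℕ) (g : Fin a.m → ℕ) (x : Fin a.m) : Fin a.m → ℕ :=
  fun y => if t < T1 a.q ∧ y ≠ x then g y + cc a.q else g y

/-- states: stage, potentials, accumulated cost, population -/
abbrev St : Type := ℕ × (Fin a.m → ℕ) × ℕ × List (PM (Fin a.m))

/-- the pair move driven by coins -/
noncomputable def pairC (W : Fin a.m → Fin a.m → ℕ) :
    PM (Fin a.m) × PM (Fin a.m) → List Bool → PM (Fin a.m) × PM (Fin a.m) :=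
  metG mv (cost2 W) a.q (510 * a.q)

/-- mixing the population -/
noncomputable def mixP (d : PM (Fin a.m)) (W : Fin a.m → Fin a.m → ℕ) (P : List (PM (Fin a.m)))
    (w : List Bool) : List (PM (Fin a.m)) :=
  (chunks (Bs a.q) (JJ a.q) w).foldl (popStep d (a.pairC W) (1000 * a.q)) P

/-- the new accumulated cost -/
def nextS (t : ℕ) (g : Fin a.m → ℕ) (S : ℕ) (x : Fin a.m) (Y : PM (Fin a.m)) : ℕ :=
  S + (cost (a.wM (t + 1) (a.upd t g x)) Y.1 - cost (a.wM t g) Y.1)

/-- using two particles as probes -/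
def probe (d : PM (Fin a.m)) (t : ℕ) (g : Fin a.m → ℕ) (S : ℕ) (P : List (PM (Fin a.m))) : a.St :=
  (t + 1, a.upd t g ((P.getD 0 d).1 a.o), a.nextS t g S ((P.getD 0 d).1 a.o) (P.getD 1 d), P.drop 2)

/-- one stage -/
noncomputable def stage (d : PM (Fin a.m)) (s : a.St) (w : List Bool) : a.St :=
  a.probe d s.1 s.2.1 s.2.2.1 (a.mixP d (a.wM s.1 s.2.1) s.2.2.2 w)

/-- coins of the initial population -/
def C0 : ℕ := QQ a.q ^ 1000 * (a.m * QQ a.q ^ 2)

/-- all coins -/
def CC : ℕ := a.C0 + TT a.q * (JJ a.q * Bs a.q)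

/-- the initial population -/
noncomputable def pop0 (d : PM (Fin a.m)) (w : List Bool) : List (PM (Fin a.m)) :=
  (chunks (a.m * QQ a.q ^ 2) (QQ a.q ^ 1000) w).map (initC d (QQ a.q ^ 2))

/-- the whole run -/
noncomputable def run (d : PM (Fin a.m)) (w : List Bool) : a.St :=
  (chunks (JJ a.q * Bs a.q) (TT a.q) (w.drop a.C0)).foldl (a.stage d) (0, fun _ => 0, 0, a.pop0 d w)

/-- the vertices other than the root -/
def S1 : Finset (Fin a.m) := univ.erase a.o

/-- the true vertices -/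
def S2 : Finset (Fin a.m) := (univ.erase a.o).erase a.z

/-- the total potential -/
def GG (g : Fin a.m → ℕ) : ℕ := 2 * ∑ y ∈ a.S2, g y

/-- numerator of the estimate -/
def num (g : Fin a.m → ℕ) (S : ℕ) : ℕ :=
  (a.m - 1).doubleFactorial * ((QQ a.q ^ 510 - 1) ^ S * (QQ a.q ^ 510) ^ a.GG g)

/-- denominator of the estimate -/
def den (g : Fin a.m → ℕ) (S : ℕ) : ℕ := (QQ a.q ^ 510) ^ S * (QQ a.q ^ 510 - 1) ^ a.GG g

/-- the rounded estimate -/
def out (g : Fin a.m → ℕ) (S : ℕ) : ℕ := (2 * a.num g S + a.den g S) / (2 * a.den g S)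

/-- the number of perfect matchings of the true vertices along edges -/
def cnt : ℕ := ((PMon a.S2).filter fun σ => ∀ v ∈ a.S2, a.A v (σ v) = true).card

/-- the indicator of a bad output -/
noncomputable def bad (g : Fin a.m → ℕ) (S : ℕ) : ℝ :=
  if |(a.out g S : ℝ) - a.cnt| ≤ a.cnt / QQ a.q then 0 else 1

/-- the partition function -/
noncomputable def ZZ (t : ℕ) (g : Fin a.m → ℕ) : ℝ :=
  ∑ X : PM (Fin a.m), be a.q ^ cost (a.wM t g) X.1

/-- the target law -/
noncomputable def pi (t : ℕ) (g : Fin a.m → ℕ) (X : PM (Fin a.m)) : ℝ :=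
  be a.q ^ cost (a.wM t g) X.1 / a.ZZ t g

/-- raw hafnians with one hole -/
noncomputable def AA (t : ℕ) (g : Fin a.m → ℕ) (x : Fin a.m) : ℝ :=
  haf (fun u v => be a.q ^ a.cM t g u v) (a.S1.erase x)

/-- completed hafnians with one hole -/
noncomputable def AW (t : ℕ) (g : Fin a.m → ℕ) (x : Fin a.m) : ℝ :=
  haf (fun u v => be a.q ^ a.wM t g u v) (a.S1.erase x)

/-- the imbalance -/
noncomputable def yy (t : ℕ) (g : Fin a.m → ℕ) (x : Fin a.m) : ℝ :=
  Real.log (a.AA t g x / a.AA t g a.z)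

/-- the error of the estimate of the partition function -/
noncomputable def err (t : ℕ) (g : Fin a.m → ℕ) (S : ℕ) : ℝ :=
  S * Real.log (be a.q) - Real.log (a.ZZ t g / a.ZZ 0 fun _ => 0)

/-- the potential of the imbalance -/
noncomputable def PhiY (t : ℕ) (g : Fin a.m → ℕ) : ℝ :=
  ∑ x ∈ a.S1, (Real.exp ((QQ a.q : ℝ) ^ 3 * (a.yy t g x - 2)) +
    Real.exp (-(QQ a.q : ℝ) ^ 3 * (a.yy t g x + 2)))

/-- the potential of the error -/
noncomputable def PhiE (t : ℕ) (g : Fin a.m → ℕ) (S : ℕ) : ℝ :=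
  (Real.exp ((QQ a.q : ℝ) ^ 3 * a.err t g S) + Real.exp (-(QQ a.q : ℝ) ^ 3 * a.err t g S)) *
    Real.exp (((TT a.q : ℝ) - t) / (QQ a.q : ℝ) ^ 1000 - (QQ a.q : ℝ) ^ 2 / 16)

end Par

open Classical in
/-- the instance of a graph -/
noncomputable def par {n : ℕ} (G : SimpleGraph (Fin n)) (q : ℕ) : Par where
  m := n + n % 2 + 2
  q := q
  z := ⟨n + n % 2, by omega⟩
  o := ⟨n + n % 2 + 1, by omega⟩
  A x y := decide (∃ u v : Fin n, x.val = u.val ∧ y.val = v.val ∧ G.Adj u v)

theorem par_even {n : ℕ} (G : SimpleGraph (Fin n)) (q : ℕ) : Even (par G q).m :=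
  Nat.even_iff.2 (by simp only [par]; omega)

end Vale.Agent.P308
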