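import Vale.Agent.P308.Defs
import Vale.Agent.P308.Model

namespace Vale.Agent.P308

open Finset

namespace CountAux

variable {V W : Type} [Fintype V] [DecidableEq V]

/-- the subgraph of an involution -/
def sub (G : SimpleGraph W) (e : W → V) (σ : V → V) : G.Subgraph where
  verts := Set.univ
  Adj u v := G.Adj u v ∧ σ (e u) = e v ∧ σ (e v) = e u
  adj_sub h := h.1
  edge_vert _ := Set.mem_univ _
  symm := ⟨fun _ _ h => ⟨h.1.symm, h.2.2, h.2.1⟩⟩

theorem card_eq (G : SimpleGraph W) {e : W → V} (he : Function.Injective e) {U : Finset V}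
    (hU : ∀ x, x ∈ U ↔ ∃ u, e u = x) {A : V → V → Bool}
    (hA : ∀ x y, A x y = true ↔ ∃ u v, x = e u ∧ y = e v ∧ G.Adj u v) {S : Finset (V → V)}
    (hS : ∀ σ, σ ∈ S ↔ σ ∈ PMon U ∧ ∀ v ∈ U, A v (σ v) = true) :
    S.card = {M : G.Subgraph | M.IsPerfectMatching}.ncard := by
  rw [← Set.ncard_coe_finset]
  have key : ∀ σ ∈ S, ∀ v, ∃ w, (sub G e σ).Adj v w := by
    intro σ hσ v
    obtain ⟨h1, h2⟩ := (hS σ).1 hσ
    obtain ⟨u, w, h3, h4, h5⟩ := (hA _ _).1 (h2 (e v) ((hU _).2 ⟨v, rfl⟩))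
    obtain rfl := he h3
    exact ⟨w, h5, h4, by rw [← h4]; exact ((mem_filter.1 h1).2 _).1⟩
  refine Set.ncard_congr (fun σ _ => sub G e σ) (fun σ hσ => ?_) (fun σ σ' hσ hσ' h => ?_)
    (fun M hM => ?_)
  · refine SimpleGraph.Subgraph.isPerfectMatching_iff.2 (fun v => ?_)
    obtain ⟨w, hw⟩ := key σ hσ v
    exact ⟨w, hw, fun w' hw' => he (hw'.2.1.symm.trans hw.2.1)⟩
  · funext x
    by_cases hx : x ∈ U
    · obtain ⟨v, rfl⟩ := (hU x).1 hx
      obtain ⟨w, hw⟩ := key σ hσ v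
      have hw' : (sub G e σ').Adj v w := h ▸ hw
      exact hw.2.1.trans hw'.2.1.symm
    · rw [((mem_filter.1 ((hS σ).1 hσ).1).2 x).2.2 hx,
        ((mem_filter.1 ((hS σ').1 hσ').1).2 x).2.2 hx]
  · have h1 := SimpleGraph.Subgraph.isPerfectMatching_iff.1 hM
    choose p hp hp' using h1
    have hpp : ∀ v, p (p v) = v := fun v => (hp' (p v) v (hp v).symm).symm
    have h2 : ∀ v, Function.extend e (e ∘ p) id (e v) = e (p v) := fun v => he.extend_apply _ _ v
    have h3 : ∀ x, x ∉ U → Function.extend e (e ∘ p) id x = x := fun x hx =>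
      Function.extend_apply' _ _ x (fun h => hx ((hU x).2 h))
    refine ⟨Function.extend e (e ∘ p) id, (hS _).2 ⟨mem_filter.2 ⟨mem_univ _, fun x => ?_⟩,
      fun x hx => ?_⟩, ?_⟩
    · by_cases hx : x ∈ U
      · obtain ⟨v, rfl⟩ := (hU x).1 hx
        rw [h2, h2, hpp]
        exact ⟨rfl, fun h => absurd (he h) (M.adj_sub (hp v)).ne', fun h => absurd hx h⟩
      · rw [h3 x hx, h3 x hx]
        exact ⟨rfl, fun _ => hx, fun _ => rfl⟩
    · obtain ⟨v, rfl⟩ := (hU x).1 hx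
      exact (hA _ _).2 ⟨v, p v, rfl, h2 v, M.adj_sub (hp v)⟩
    · refine SimpleGraph.Subgraph.ext ?_ ?_
      · exact (Set.eq_univ_of_forall hM.2).symm
      · funext u v
        refine propext ⟨fun h => ?_, fun h => ⟨M.adj_sub h, ?_, ?_⟩⟩
        · have h4 := h.2.1
          rw [h2] at h4
          rw [← he h4]; exact hp u
        · rw [h2, ← hp' u v h]
        · rw [h2, ← hp' v u h.symm]

theorem mem_S2 {n : ℕ} (G : SimpleGraph (Fin n)) (q : ℕ) (x : Fin (par G q).m) :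
    x ∈ (par G q).S2 ↔ x.val < n + n % 2 := by
  have h : x.val < n + n % 2 + 2 := x.2
  simp only [Par.S2, mem_erase, mem_univ, and_true, ne_eq, Fin.ext_iff]
  have e1 : (par G q).z.val = n + n % 2 := rfl
  have e2 : (par G q).o.val = n + n % 2 + 1 := rfl
  rw [e1, e2]
  omega

theorem A_iff {n : ℕ} (G : SimpleGraph (Fin n)) (q : ℕ) (x y : Fin (par G q).m) :
    (par G q).A x y = true ↔ ∃ u v : Fin n, x.val = u.val ∧ y.val = v.val ∧ G.Adj u v := by
  simp only [par, decide_eq_true_eq]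

end CountAux

theorem par_ok {n : ℕ} (G : SimpleGraph (Fin n)) {q : ℕ} (hq : 16 ≤ q) (hn : n + 3 < QQ q) :
    (par G q).OK := by
  refine ⟨fun h => ?_, par_even G q, hq, ?_, fun x y => ?_⟩
  · have h1 : n + n % 2 = n + n % 2 + 1 := congrArg Fin.val h
    omega
  · show n + n % 2 + 2 < QQ q
    omega
  · rw [Bool.eq_iff_iff, CountAux.A_iff, CountAux.A_iff]
    exact ⟨fun ⟨u, v, h1, h2, h3⟩ => ⟨v, u, h2, h1, h3.symm⟩,
      fun ⟨u, v, h1, h2, h3⟩ => ⟨v, u, h2, h1, h3.symm⟩⟩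

theorem par_cnt {n : ℕ} (G : SimpleGraph (Fin n)) (q : ℕ) : (par G q).cnt = numPM G := by
  unfold Par.cnt numPM
  by_cases hn : n % 2 = 0
  · refine CountAux.card_eq G (U := (par G q).S2) (A := (par G q).A)
      (e := fun u : Fin n => (⟨u.val, by show u.val < n + n % 2 + 2; omega⟩ : Fin (par G q).m))
      (fun u v h => Fin.ext (Fin.mk.inj h)) (fun x => ?_) (fun x y => ?_)
      (fun σ => mem_filter)
    · rw [CountAux.mem_S2]
      exact ⟨fun h => ⟨⟨x.val, by omega⟩, rfl⟩, fun ⟨u, hu⟩ => by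
        have h1 : u.val = x.val := congrArg Fin.val hu
        have := u.2
        omega⟩
    · rw [CountAux.A_iff]
      exact ⟨fun ⟨u, v, h1, h2, h3⟩ => ⟨u, v, Fin.ext h1, Fin.ext h2, h3⟩,
        fun ⟨u, v, h1, h2, h3⟩ => ⟨u, v, congrArg Fin.val h1, congrArg Fin.val h2, h3⟩⟩
  · have h1 : {M : G.Subgraph | M.IsPerfectMatching} = ∅ := by
      refine Set.eq_empty_of_forall_notMem (fun M hM => hn ?_)
      have := SimpleGraph.Subgraph.IsPerfectMatching.even_card hM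
      rw [Fintype.card_fin] at this
      exact Nat.even_iff.1 this
    rw [h1, Set.ncard_empty, card_eq_zero]
    refine filter_eq_empty_iff.2 (fun σ _ h => ?_)
    obtain ⟨u, v, h2, -⟩ := (CountAux.A_iff G q _ _).1
      (h ⟨n, by show n < n + n % 2 + 2; omega⟩ ((CountAux.mem_S2 G q _).2
        (by show n < n + n % 2; omega)))
    have h3 : n = u.val := h2
    have := u.2
    omega

end Vale.Agent.P308
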