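import Mathlib

/-! Real inequalities for exponential supermartingales. -/

namespace Vale.Agent.P308.DriftYAux

open Finset

theorem exp_mean {ι : Type} (S : Finset ι) (p D : ι → ℝ) (hp : ∀ i ∈ S, 0 ≤ p i)
    (hs : ∑ i ∈ S, p i = 1) (ζ : ℝ) (hζ : ζ ≤ 1) (hD : ∀ i ∈ S, |D i| ≤ ζ) :
    ∑ i ∈ S, p i * Real.exp (D i) ≤ 1 + ∑ i ∈ S, p i * D i + ζ ^ 2 := by
  calc ∑ i ∈ S, p i * Real.exp (D i) ≤ ∑ i ∈ S, (p i * (1 + ζ ^ 2) + p i * D i) := by
        refine sum_le_sum fun i hi => ?_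
        rw [← mul_add]
        refine mul_le_mul_of_nonneg_left ?_ (hp i hi)
        have h1 := Real.abs_exp_sub_one_sub_id_le ((hD i hi).trans hζ)
        have h2 : D i ^ 2 ≤ ζ ^ 2 := by
          rw [← sq_abs]
          exact pow_le_pow_left₀ (abs_nonneg _) (hD i hi) 2
        linarith [le_abs_self (Real.exp (D i) - 1 - D i)]
    _ = _ := by rw [sum_add_distrib, ← sum_mul, hs]; ring

theorem exp_tilt {ι : Type} (S : Finset ι) (p D : ι → ℝ) (hp : ∀ i ∈ S, 0 ≤ p i)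
    (hs : ∑ i ∈ S, p i = 1) (ζ s : ℝ) (hs1 : 1 ≤ s) (hζ0 : 0 ≤ ζ) (hζ : s * ζ ≤ 1)
    (hD : ∀ i ∈ S, |D i| ≤ ζ) (h1 : ∑ i ∈ S, p i * Real.exp (D i) = 1) :
    ∑ i ∈ S, p i * Real.exp (s * D i) ≤ 1 + 2 * (s * ζ) ^ 2 ∧
      ∑ i ∈ S, p i * Real.exp (-s * D i) ≤ 1 + 2 * (s * ζ) ^ 2 := by
  have hζ1 : ζ ≤ 1 := by nlinarith
  have hm1 : ∑ i ∈ S, p i * D i ≤ 0 := by
    have : ∑ i ∈ S, (p i + p i * D i) ≤ ∑ i ∈ S, p i * Real.exp (D i) := by
      refine sum_le_sum fun i hi => ?_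
      have := mul_le_mul_of_nonneg_left (Real.add_one_le_exp (D i)) (hp i hi)
      linarith
    rw [sum_add_distrib, hs, h1] at this
    linarith
  have hm2 : -ζ ^ 2 ≤ ∑ i ∈ S, p i * D i := by
    have := exp_mean S p D hp hs ζ hζ1 hD
    linarith
  have hs0 : 0 ≤ s := by linarith
  have e : ∀ c : ℝ, ∑ i ∈ S, p i * (c * D i) = c * ∑ i ∈ S, p i * D i := fun c => by
    rw [mul_sum]; exact sum_congr rfl fun _ _ => by ring
  constructor
  · have := exp_mean S p (fun i => s * D i) hp hs (s * ζ) hζ fun i hi => by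
      rw [abs_mul, abs_of_nonneg hs0]; exact mul_le_mul_of_nonneg_left (hD i hi) hs0
    rw [e] at this
    nlinarith [mul_nonneg hs0 (neg_nonneg.2 hm1), sq_nonneg (s * ζ)]
  · have := exp_mean S p (fun i => -s * D i) hp hs (s * ζ) hζ fun i hi => by
      rw [abs_mul, abs_neg, abs_of_nonneg hs0]; exact mul_le_mul_of_nonneg_left (hD i hi) hs0
    rw [e] at this
    have h2 := mul_le_mul_of_nonneg_left hm2 hs0
    have h3 : s * ζ ^ 2 ≤ (s * ζ) ^ 2 := by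
      have : s * ζ ^ 2 * 1 ≤ s * ζ ^ 2 * s := mul_le_mul_of_nonneg_left hs1 (by positivity)
      nlinarith
    nlinarith

theorem half_step {ι : Type} (S : Finset ι) (p D : ι → ℝ) (hp : ∀ i ∈ S, 0 ≤ p i)
    (hs : ∑ i ∈ S, p i = 1) (ζ s y : ℝ) (hs0 : 0 ≤ s) (hζ : s * ζ ≤ 1)
    (hD : ∀ i ∈ S, |D i| ≤ ζ) (h1 : 1 ≤ y → ∑ i ∈ S, p i * D i + s * ζ ^ 2 ≤ 0) :
    ∑ i ∈ S, p i * Real.exp (s * (y + D i - 2)) ≤
      Real.exp (s * (y - 2)) + 3 * Real.exp (-s) := by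
  have hsD : ∀ i ∈ S, |s * D i| ≤ s * ζ := fun i hi => by
    rw [abs_mul, abs_of_nonneg hs0]; exact mul_le_mul_of_nonneg_left (hD i hi) hs0
  by_cases hy : 1 ≤ y
  · have h2 := exp_mean S p (fun i => s * D i) hp hs (s * ζ) hζ hsD
    have e : ∑ i ∈ S, p i * (s * D i) = s * ∑ i ∈ S, p i * D i := by
      rw [mul_sum]; exact sum_congr rfl fun _ _ => by ring
    rw [e] at h2
    have h3 := mul_le_mul_of_nonneg_left (h1 hy) hs0
    have h4 : ∑ i ∈ S, p i * Real.exp (s * D i) ≤ 1 := by nlinarith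
    have e2 : ∑ i ∈ S, p i * Real.exp (s * (y + D i - 2)) =
        Real.exp (s * (y - 2)) * ∑ i ∈ S, p i * Real.exp (s * D i) := by
      rw [mul_sum]
      refine sum_congr rfl fun i _ => ?_
      rw [mul_left_comm, ← Real.exp_add]
      congr 2
      ring
    rw [e2]
    have h5 := Real.exp_pos (s * (y - 2))
    have h6 := Real.exp_pos (-s)
    nlinarith
  · have h2 : ∑ i ∈ S, p i * Real.exp (s * (y + D i - 2)) ≤
        ∑ i ∈ S, p i * (3 * Real.exp (-s)) := by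
      refine sum_le_sum fun i hi => mul_le_mul_of_nonneg_left ?_ (hp i hi)
      have h3 : s * (y + D i - 2) ≤ 1 + -s := by
        have h4 := (le_abs_self _).trans (hsD i hi)
        have h5 : s * y ≤ s * 1 := mul_le_mul_of_nonneg_left (by linarith) hs0
        nlinarith
      refine (Real.exp_le_exp.2 h3).trans ?_
      rw [Real.exp_add]
      exact mul_le_mul_of_nonneg_right (by linarith [Real.exp_one_lt_d9]) (Real.exp_pos _).le
    rw [← sum_mul, hs, one_mul] at h2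
    linarith [Real.exp_pos (s * (y - 2))]

theorem term_step {ι : Type} [DecidableEq ι] (S : Finset ι) (p : ι → ℝ) (hp : ∀ i ∈ S, 0 ≤ p i)
    (hs : ∑ i ∈ S, p i = 1) {z x : ι} (hz : z ∈ S) (hx : x ∈ S) (Q η ρ y : ℝ) (hQ : 32 ≤ Q)
    (hη : 0 ≤ η) (hsm : 600 * Q ^ 7 * η ≤ 1) (hρ : |ρ| ≤ η * Q) (hpz : 1 ≤ 16 * Q * p z)
    (h1 : 1 ≤ y → 2 * p z ≤ p x) (h2 : y ≤ -1 → 2 * p x ≤ p z) (y' : ι → ℝ)
    (hy' : ∀ w ∈ S, y' w =
      y + ρ + 2 * Q ^ 3 * η * ((if w = z then 1 else 0) - if w = x then 1 else 0)) :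
    ∑ w ∈ S, p w * (Real.exp (Q ^ 3 * (y' w - 2)) + Real.exp (-Q ^ 3 * (y' w + 2))) ≤
      Real.exp (Q ^ 3 * (y - 2)) + Real.exp (-Q ^ 3 * (y + 2)) + 6 * Real.exp (-Q ^ 3) := by
  have hQ0 : 0 < Q := by linarith
  have hQ1 : 1 ≤ Q := by linarith
  set D : ι → ℝ := fun w =>
    ρ + 2 * Q ^ 3 * η * ((if w = z then 1 else 0) - if w = x then 1 else 0) with hDdef
  have hc : 0 ≤ Q ^ 3 * η := by positivity
  have hQ3 : Q ≤ Q ^ 3 := le_self_pow₀ hQ1 (by norm_num)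
  have hρ' : |ρ| ≤ Q ^ 3 * η := hρ.trans (by nlinarith)
  have hD : ∀ w ∈ S, |D w| ≤ 3 * (Q ^ 3 * η) := by
    intro w _
    rw [abs_le] at hρ' ⊢
    simp only [hDdef]
    split_ifs <;> constructor <;> linarith [hρ'.1, hρ'.2]
  have hmean : ∑ w ∈ S, p w * D w = ρ + 2 * Q ^ 3 * η * (p z - p x) := by
    have e : ∀ w, p w * D w = p w * ρ + 2 * Q ^ 3 * η *
        ((if w = z then p w else 0) - if w = x then p w else 0) := by
      intro w
      simp only [hDdef]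
      split_ifs <;> ring
    simp only [e, sum_add_distrib, ← mul_sum, ← sum_mul, sum_sub_distrib, sum_ite_eq', hs, hz, hx,
      if_true, one_mul]
  have hsζ : Q ^ 3 * (3 * (Q ^ 3 * η)) ≤ 1 := by
    have h3 : Q ^ 6 * η ≤ Q ^ 7 * η :=
      mul_le_mul_of_nonneg_right (pow_le_pow_right₀ hQ1 (by norm_num)) hη
    have h4 : 0 ≤ Q ^ 7 * η := by positivity
    nlinarith
  have hsq : Q ^ 3 * (3 * (Q ^ 3 * η)) ^ 2 ≤ η * Q ^ 2 / 32 := by
    have h3 : 0 ≤ η * Q ^ 2 := by positivity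
    have h4 := mul_le_mul_of_nonneg_left hsm h3
    have h5 : 0 ≤ η * Q ^ 2 * (Q ^ 7 * η) := by positivity
    nlinarith
  have hpz' : η * Q ^ 2 / 16 ≤ Q ^ 3 * η * p z := by
    have h3 : 0 ≤ η * Q ^ 2 := by positivity
    have h4 := mul_le_mul_of_nonneg_left hpz h3
    nlinarith
  have hlin : η * Q ≤ η * Q ^ 2 / 32 := by
    have h3 : 0 ≤ η * Q := by positivity
    have h4 := mul_le_mul_of_nonneg_left hQ h3
    nlinarith
  rw [abs_le] at hρ
  have k1 := half_step S p D hp hs (3 * (Q ^ 3 * η)) (Q ^ 3) y (by positivity) hsζ hD fun hy => by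
    rw [hmean]
    have h3 := mul_le_mul_of_nonneg_left (h1 hy) hc
    have h4 : 0 ≤ η * Q ^ 2 := by positivity
    nlinarith
  have k2 := half_step S p (fun w => -D w) hp hs (3 * (Q ^ 3 * η)) (Q ^ 3) (-y) (by positivity) hsζ
    (fun w hw => by rw [abs_neg]; exact hD w hw) fun hy => by
      have e : ∑ w ∈ S, p w * -D w = -∑ w ∈ S, p w * D w := by
        rw [← sum_neg_distrib]; exact sum_congr rfl fun _ _ => by ring
      rw [e, hmean]
      have h3 := mul_le_mul_of_nonneg_left (h2 (by linarith)) hc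
      nlinarith
  have e1 : ∑ w ∈ S, p w * (Real.exp (Q ^ 3 * (y' w - 2)) + Real.exp (-Q ^ 3 * (y' w + 2))) =
      ∑ w ∈ S, p w * Real.exp (Q ^ 3 * (y + D w - 2)) +
        ∑ w ∈ S, p w * Real.exp (Q ^ 3 * (-y + -D w - 2)) := by
    rw [← sum_add_distrib]
    refine sum_congr rfl fun w hw => ?_
    have e2 : y' w = y + D w := by rw [hy' w hw, hDdef, add_assoc]
    rw [e2, ← mul_add]
    congr 3
    ring
  have e3 : -Q ^ 3 * (y + 2) = Q ^ 3 * (-y - 2) := by ring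
  rw [e1, e3]
  linarith

end Vale.Agent.P308.DriftYAux
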