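import Vale.Agent.P308.WtsA
import Vale.Agent.P308.DriftYAux

namespace Vale.Agent.P308

open Finset

theorem DriftE_num {Q : ℝ} (hQ : 65536 ≤ Q) :
    Q ^ 3 * (6 / Q ^ 506) ≤ 1 ∧ 2 * (Q ^ 3 * (6 / Q ^ 506)) ^ 2 ≤ 1 / Q ^ 1000 := by
  have hQ0 : 0 < Q := by linarith
  have hQ1 : 1 ≤ Q := by linarith
  have e : Q ^ 3 * (6 / Q ^ 506) = 6 / Q ^ 503 := by
    rw [show Q ^ 506 = Q ^ 3 * Q ^ 503 by rw [← pow_add]]
    field_simp
  rw [e]
  constructor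
  · rw [div_le_one (by positivity)]
    have : Q ≤ Q ^ 503 := le_self_pow₀ hQ1 (by norm_num)
    linarith
  · rw [div_pow, ← pow_mul, show 503 * 2 = 6 + 1000 by norm_num, pow_add, ← mul_div_assoc,
      div_le_div_iff₀ (by positivity) (by positivity), one_mul]
    refine mul_le_mul_of_nonneg_right ?_ (by positivity)
    have : Q ≤ Q ^ 6 := le_self_pow₀ hQ1 (by norm_num)
    linarith

theorem Par.driftE {a : Par} (h : a.OK) (t : ℕ) (g : Fin a.m → ℕ) (S : ℕ) (x : Fin a.m) :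
    ∑ Y, a.pi t g Y * a.PhiE (t + 1) (a.upd t g x) (a.nextS t g S x Y) ≤ a.PhiE t g S := by
  have hQ : (65536 : ℝ) ≤ QQ a.q := by exact_mod_cast QQ_ge h.big
  have hb := be_pos h.big
  have hL1 := log_be_ge h.big
  have hL2 := log_be_le h.big
  obtain ⟨hn1, hn2⟩ := DriftE_num hQ
  have hZ := Par.ZZ_pos h t g
  have hZ' := Par.ZZ_pos h (t + 1) (a.upd t g x)
  have hZ0 := Par.ZZ_pos h 0 fun _ => 0
  have hp : ∀ Y ∈ (univ : Finset (PM (Fin a.m))), 0 ≤ a.pi t g Y :=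
    fun Y _ => (Par.pi_pos h t g Y).le
  have hs := Par.pi_sum h t g
  generalize hQe : (QQ a.q : ℝ) = Q at hQ hL1 hL2 hn1 hn2
  have hQ0 : 0 < Q := by linarith
  have hL0 : Real.log (be a.q) ≤ 0 := by
    refine hL2.trans ?_
    rw [neg_div]
    exact neg_nonpos.2 (by positivity)
  set d : PM (Fin a.m) → ℕ := fun Y =>
    cost (a.wM (t + 1) (a.upd t g x)) Y.1 - cost (a.wM t g) Y.1 with hd
  set ξ : PM (Fin a.m) → ℝ := fun Y => d Y * Real.log (be a.q) with hξ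
  have hξ1 : ∀ Y, ξ Y ≤ 0 := fun Y => mul_nonpos_of_nonneg_of_nonpos (Nat.cast_nonneg _) hL0
  have hξ2 : ∀ Y, -(6 / Q ^ 506) ≤ ξ Y := by
    intro Y
    have h1 : d Y ≤ 3 * QQ a.q ^ 4 := by
      have := (Par.cost_step h t g x Y.1).2
      simp only [hd]
      omega
    have h2 : (d Y : ℝ) ≤ 3 * Q ^ 4 := by rw [← hQe]; exact_mod_cast h1
    have h3 : 3 * Q ^ 4 * Real.log (be a.q) ≤ ξ Y := mul_le_mul_of_nonpos_right h2 hL0
    have h4 := mul_le_mul_of_nonneg_left hL1 (by positivity : 0 ≤ 3 * Q ^ 4)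
    have e : 3 * Q ^ 4 * (-2 / Q ^ 510) = -(6 / Q ^ 506) := by
      rw [show Q ^ 510 = Q ^ 4 * Q ^ 506 by rw [← pow_add]]
      field_simp
      norm_num
    linarith
  set R : ℝ := a.ZZ (t + 1) (a.upd t g x) / a.ZZ t g with hR
  have hR0 : 0 < R := div_pos hZ' hZ
  have hRe : ∑ Y, a.pi t g Y * Real.exp (ξ Y) = R := by
    rw [hR, Par.ZZ, sum_div]
    refine sum_congr rfl fun Y _ => ?_
    have h1 := (Par.cost_step h t g x Y.1).1
    have e : cost (a.wM (t + 1) (a.upd t g x)) Y.1 = cost (a.wM t g) Y.1 + d Y := by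
      simp only [hd]; omega
    simp only [hξ]
    rw [Real.exp_nat_mul, Real.exp_log hb, e, pow_add, Par.pi]
    ring
  have hR1 : Real.log R ≤ 0 := by
    refine Real.log_nonpos hR0.le ?_
    rw [← hRe, ← hs]
    refine sum_le_sum fun Y hY => ?_
    exact mul_le_of_le_one_right (hp Y hY) (Real.exp_le_one_iff.2 (hξ1 Y))
  have hR2 : -(6 / Q ^ 506) ≤ Real.log R := by
    rw [Real.le_log_iff_exp_le hR0, ← hRe]
    calc Real.exp (-(6 / Q ^ 506)) = ∑ Y, a.pi t g Y * Real.exp (-(6 / Q ^ 506)) := by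
          rw [← sum_mul, hs, one_mul]
      _ ≤ _ := sum_le_sum fun Y hY =>
          mul_le_mul_of_nonneg_left (Real.exp_le_exp.2 (hξ2 Y)) (hp Y hY)
  have hD : ∀ Y ∈ (univ : Finset (PM (Fin a.m))), |ξ Y - Real.log R| ≤ 6 / Q ^ 506 :=
    fun Y _ => abs_le.2 ⟨by linarith [hξ2 Y], by linarith [hξ1 Y]⟩
  have hone : ∑ Y, a.pi t g Y * Real.exp (ξ Y - Real.log R) = 1 := by
    simp only [Real.exp_sub, Real.exp_log hR0, ← mul_div_assoc, ← sum_div, hRe]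
    exact div_self hR0.ne'
  obtain ⟨k1, k2⟩ := DriftYAux.exp_tilt univ (a.pi t g) (fun Y => ξ Y - Real.log R) hp hs
    (6 / Q ^ 506) (Q ^ 3) (one_le_pow₀ (by linarith)) (by positivity) hn1 hD hone
  have herr : ∀ Y, a.err (t + 1) (a.upd t g x) (a.nextS t g S x Y) =
      a.err t g S + (ξ Y - Real.log R) := by
    intro Y
    simp only [Par.err, Par.nextS, hR, hξ, hd]
    rw [Real.log_div hZ'.ne' hZ0.ne', Real.log_div hZ.ne' hZ0.ne', Real.log_div hZ'.ne' hZ.ne',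
      Nat.cast_add]
    ring
  have hE : 1 + 2 * (Q ^ 3 * (6 / Q ^ 506)) ^ 2 ≤ Real.exp (1 / Q ^ 1000) := by
    linarith [Real.add_one_le_exp (1 / Q ^ 1000)]
  simp only [Par.PhiE, herr, hQe]
  have e1 : Real.exp (((TT a.q : ℝ) - t) / Q ^ 1000 - Q ^ 2 / 16) = Real.exp (1 / Q ^ 1000) *
      Real.exp (((TT a.q : ℝ) - ((t + 1 : ℕ) : ℝ)) / Q ^ 1000 - Q ^ 2 / 16) := by
    rw [← Real.exp_add, Nat.cast_add, Nat.cast_one]
    congr 1
    generalize Q ^ 1000 = W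
    ring
  rw [e1]
  generalize Real.exp (1 / Q ^ 1000) = E1 at hE
  have hE2 := Real.exp_pos (((TT a.q : ℝ) - ((t + 1 : ℕ) : ℝ)) / Q ^ 1000 - Q ^ 2 / 16)
  generalize Real.exp (((TT a.q : ℝ) - ((t + 1 : ℕ) : ℝ)) / Q ^ 1000 - Q ^ 2 / 16) = E2 at hE2
  have e2 : ∀ Y, a.pi t g Y * ((Real.exp (Q ^ 3 * (a.err t g S + (ξ Y - Real.log R))) +
      Real.exp (-Q ^ 3 * (a.err t g S + (ξ Y - Real.log R)))) * E2) =
      Real.exp (Q ^ 3 * a.err t g S) * E2 *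
        (a.pi t g Y * Real.exp (Q ^ 3 * (ξ Y - Real.log R))) +
      Real.exp (-Q ^ 3 * a.err t g S) * E2 *
        (a.pi t g Y * Real.exp (-Q ^ 3 * (ξ Y - Real.log R))) := by
    intro Y
    rw [mul_add (Q ^ 3), mul_add (-Q ^ 3), Real.exp_add, Real.exp_add]
    ring
  simp only [e2, sum_add_distrib, ← mul_sum]
  have k3 := mul_le_mul_of_nonneg_left (k1.trans hE)
    (mul_pos (Real.exp_pos (Q ^ 3 * a.err t g S)) hE2).le
  have k4 := mul_le_mul_of_nonneg_left (k2.trans hE)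
    (mul_pos (Real.exp_pos (-Q ^ 3 * a.err t g S)) hE2).le
  calc _ ≤ _ := add_le_add k3 k4
    _ = _ := by ring

end Vale.Agent.P308
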