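import Vale.Agent.P308.WtsB
import Vale.Agent.P308.DriftYAux

namespace Vale.Agent.P308

open Finset

section
variable {a : Par} {t : ℕ} {g : Fin a.m → ℕ}

theorem DriftY_late (ht : T1 a.q ≤ t) (x : Fin a.m) :
    a.PhiY (t + 1) (a.upd t g x) = a.PhiY t g := by
  have h1 : a.upd t g x = g := by
    funext y
    simp only [Par.upd, not_lt.2 ht, false_and, if_false]
  have h2 : a.cM (t + 1) g = a.cM t g := by
    funext u v
    simp only [Par.cM, min_eq_right ht, min_eq_right (ht.trans (Nat.le_succ t))]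
  simp only [h1, Par.PhiY, Par.yy, Par.AA, h2]

theorem DriftY_cM (t : ℕ) (g : Fin a.m → ℕ) (u v : Fin a.m) :
    a.cM t g u v ≤ a.cM (t + 1) g u v ∧ a.cM (t + 1) g u v ≤ a.cM t g u v + 1 := by
  simp only [Par.cM]
  split_ifs <;> omega

theorem DriftY_AA (h : a.OK) (t : ℕ) (g : Fin a.m → ℕ) {x : Fin a.m} (hx : x ∈ a.S1) :
    Real.log (a.AA (t + 1) g x) ≤ Real.log (a.AA t g x) ∧
      Real.log (a.AA t g x) + QQ a.q * Real.log (be a.q) ≤ Real.log (a.AA (t + 1) g x) := by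
  have hb := be_pos h.big
  have hb1 := (be_lt a.q).le
  have h1 := Par.AA_pos h t g hx
  have h2 := Par.AA_pos h (t + 1) g hx
  constructor
  · refine Real.log_le_log h2 (haf_mono (fun _ _ => (pow_pos hb _).le) fun u _ v _ _ => ?_)
    exact pow_le_pow_of_le_one hb.le hb1 (DriftY_cM t g u v).1
  · rw [← Real.log_pow, ← Real.log_mul h1.ne' (pow_pos hb _).ne']
    refine Real.log_le_log (mul_pos h1 (pow_pos hb _)) ?_
    have h3 := haf_scale (fun u v => be a.q ^ a.cM t g u v) (fun _ => Real.sqrt (be a.q))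
      (a.S1.erase x)
    rw [Real.sq_sqrt hb.le, Real.mul_self_sqrt hb.le, prod_const] at h3
    have h4 : (a.S1.erase x).card ≤ QQ a.q := by
      have h5 := h.lt
      have h6 := card_erase_le (s := a.S1) (a := x)
      rw [WtsB_card_S1] at h6
      omega
    calc a.AA t g x * be a.q ^ QQ a.q ≤ a.AA t g x * be a.q ^ (a.S1.erase x).card :=
          mul_le_mul_of_nonneg_left (pow_le_pow_of_le_one hb.le hb1 h4) h1.le
      _ = _ := h3.symm
      _ ≤ a.AA (t + 1) g x := by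
          refine haf_mono (fun _ _ => (mul_pos (pow_pos hb _) hb).le) fun u _ v _ _ => ?_
          rw [← pow_succ]
          exact pow_le_pow_of_le_one hb.le hb1 (DriftY_cM t g u v).2

theorem DriftY_rho (h : a.OK) (t : ℕ) (g : Fin a.m → ℕ) {x : Fin a.m} (hx : x ∈ a.S1) :
    |a.yy (t + 1) g x - a.yy t g x| ≤ -Real.log (be a.q) * QQ a.q := by
  have hz := WtsB_z_mem h
  obtain ⟨h1, h2⟩ := DriftY_AA h t g hx
  obtain ⟨h3, h4⟩ := DriftY_AA h t g hz
  rw [Par.yy, Par.yy, Real.log_div (Par.AA_pos h _ _ hx).ne' (Par.AA_pos h _ _ hz).ne',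
    Real.log_div (Par.AA_pos h _ _ hx).ne' (Par.AA_pos h _ _ hz).ne', abs_le]
  constructor <;> linarith

theorem DriftY_upd (h : a.OK) (ht : t < T1 a.q) (w : Fin a.m) {x : Fin a.m} (hx : x ∈ a.S1) :
    Real.log (a.AA (t + 1) (a.upd t g w) x) = Real.log (a.AA (t + 1) g x) +
      (∑ v ∈ a.S1, 2 * ((if v = w then 0 else cc a.q : ℕ) * Real.log (be a.q)) -
        2 * ((if x = w then 0 else cc a.q : ℕ) * Real.log (be a.q))) := by
  have hb := be_pos h.big
  have h3 := haf_scale (fun u v => be a.q ^ a.cM (t + 1) g u v)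
    (fun v => be a.q ^ (if v = w then 0 else cc a.q)) (a.S1.erase x)
  have h4 : a.AA (t + 1) (a.upd t g w) x =
      a.AA (t + 1) g x * ∏ v ∈ a.S1.erase x, (be a.q ^ (if v = w then 0 else cc a.q)) ^ 2 := by
    refine Eq.trans (haf_congr fun u hu v hv huv => ?_) h3
    have hu' := (mem_erase.1 (mem_of_mem_erase hu)).1
    have hv' := (mem_erase.1 (mem_of_mem_erase hv)).1
    rw [← pow_add, ← pow_add]
    congr 1
    simp only [Par.cM, Par.upd, huv, hu', hv', ht, or_self, if_false, true_and, ne_eq, ite_not]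
    split_ifs <;> omega
  rw [h4, Real.log_mul (Par.AA_pos h _ _ hx).ne'
    (prod_ne_zero_iff.2 fun _ _ => (pow_pos (pow_pos hb _) _).ne'),
    Real.log_prod fun _ _ => (pow_pos (pow_pos hb _) _).ne', ← add_sum_erase _ _ hx,
    add_sub_cancel_left]
  congr 1
  refine sum_congr rfl fun v _ => ?_
  rw [Real.log_pow, Real.log_pow]
  norm_num

theorem DriftY_yy (h : a.OK) (ht : t < T1 a.q) (w : Fin a.m) {x : Fin a.m} (hx : x ∈ a.S1) :
    a.yy (t + 1) (a.upd t g w) x = a.yy t g x + (a.yy (t + 1) g x - a.yy t g x) +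
      2 * (QQ a.q : ℝ) ^ 3 * -Real.log (be a.q) *
        ((if w = a.z then 1 else 0) - if w = x then 1 else 0) := by
  have hz := WtsB_z_mem h
  rw [add_sub_cancel, Par.yy, Par.yy,
    Real.log_div (Par.AA_pos h _ _ hx).ne' (Par.AA_pos h _ _ hz).ne',
    Real.log_div (Par.AA_pos h _ _ hx).ne' (Par.AA_pos h _ _ hz).ne', DriftY_upd h ht w hx,
    DriftY_upd h ht w hz]
  have e : ∀ v : Fin a.m, ((if v = w then 0 else cc a.q : ℕ) : ℝ) =
      (QQ a.q : ℝ) ^ 3 * (1 - if w = v then 1 else 0) := by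
    intro v
    by_cases hv : v = w
    · simp [hv]
    · simp [hv, Ne.symm hv, cc]
  rw [e x, e a.z]
  ring

theorem DriftY_law (h : a.OK) (ht : t < T1 a.q) (g : Fin a.m → ℕ) (φ : Fin a.m → ℝ) :
    ∑ X, a.pi t g X * φ (X.1 a.o) =
      ∑ x ∈ a.S1, a.AW t g x / (∑ v ∈ a.S1, a.AW t g v) * φ x := by
  have hb := (pow_pos (be_pos h.big) (2 * BB a.q)).ne'
  have hex : ∀ x, a.ex t x = 0 := fun x => by
    simp only [Par.ex]
    split_ifs <;> omega
  have h1 := Par.sum_root h t g φ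
  have h2 := Par.sum_root h t g fun _ => 1
  simp only [hex, add_zero, mul_one] at h1 h2
  simp only [Par.pi, Par.ZZ, h2, div_mul_eq_mul_div, ← sum_div, h1]
  simp only [mul_assoc, ← mul_sum]
  rw [mul_div_mul_left _ _ hb]

theorem DriftY_eta {Q η : ℝ} (hQ : 65536 ≤ Q) (h : -2 / Q ^ 510 ≤ -η) : 600 * Q ^ 7 * η ≤ 1 := by
  have hQ0 : 0 < Q := by linarith
  have h1 : η ≤ 2 / Q ^ 510 := by rw [neg_div] at h; linarith
  have h2 := mul_le_mul_of_nonneg_left h1 (by positivity : 0 ≤ 600 * Q ^ 7)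
  refine h2.trans ?_
  have e : 600 * Q ^ 7 * (2 / Q ^ 510) = 1200 / Q ^ 503 := by
    rw [show Q ^ 510 = Q ^ 7 * Q ^ 503 by rw [← pow_add]]
    field_simp
    norm_num
  rw [e, div_le_one (by positivity)]
  have : Q ≤ Q ^ 503 := le_self_pow₀ (by linarith) (by norm_num)
  linarith

end

theorem Par.driftY {a : Par} {t : ℕ} {g : Fin a.m → ℕ} (h : a.OK) (ht : t < TT a.q)
    (hg : ∀ x, g x ≤ cc a.q * t) (hy : ∀ x ∈ a.S1, |a.yy t g x| ≤ 2) :
    ∑ X, a.pi t g X * a.PhiY (t + 1) (a.upd t g (X.1 a.o)) ≤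
      a.PhiY t g + 6 * QQ a.q * Real.exp (-(QQ a.q : ℝ) ^ 3) := by
  have hQ : (65536 : ℝ) ≤ QQ a.q := by exact_mod_cast QQ_ge h.big
  rcases le_or_gt (T1 a.q) t with h1 | h1
  · simp only [DriftY_late h1, ← sum_mul, Par.pi_sum h, one_mul]
    exact le_add_of_nonneg_right (by positivity)
  have hz := WtsB_z_mem h
  have hAz := Par.AA_pos h t g hz
  have hW : ∀ x ∈ a.S1, Real.exp (a.yy t g x) * a.AA t g a.z ≤ a.AW t g x ∧
      a.AW t g x ≤ 17 / 16 * (Real.exp (a.yy t g x) * a.AA t g a.z) := by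
    intro x hx
    rw [← Par.AA_eq h t g hx]
    obtain ⟨h2, h3⟩ := Par.AW_bounds h ht.le hg hy hx
    refine ⟨h2, h3.trans (mul_le_mul_of_nonneg_right ?_ (Par.AA_pos h t g hx).le)⟩
    have : 1 / (16 * (QQ a.q : ℝ)) ≤ 1 / 16 :=
      one_div_le_one_div_of_le (by norm_num) (by linarith)
    linarith
  have hWz := hW _ hz
  have hyz : a.yy t g a.z = 0 := by rw [Par.yy, div_self hAz.ne', Real.log_one]
  rw [hyz, Real.exp_zero, one_mul] at hWz
  have hW0 : ∀ x ∈ a.S1, 0 < a.AW t g x := fun x hx =>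
    (mul_pos (Real.exp_pos _) hAz).trans_le (hW x hx).1
  have hT : 0 < ∑ v ∈ a.S1, a.AW t g v := sum_pos hW0 ⟨_, hz⟩
  have he1 := Real.exp_one_gt_d9
  have he2 : Real.exp 2 ≤ 8 := by
    have h2 := Real.exp_one_lt_d9
    have h3 : Real.exp 2 = Real.exp 1 * Real.exp 1 := by rw [← Real.exp_add]; norm_num
    nlinarith [Real.exp_pos 1]
  have hT2 : ∑ v ∈ a.S1, a.AW t g v ≤ 16 * QQ a.q * a.AW t g a.z := by
    calc ∑ v ∈ a.S1, a.AW t g v ≤ ∑ _v ∈ a.S1, 16 * a.AW t g a.z := by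
          refine sum_le_sum fun v hv => (hW v hv).2.trans ?_
          have h2 : Real.exp (a.yy t g v) ≤ 8 :=
            (Real.exp_le_exp.2 (abs_le.1 (hy v hv)).2).trans he2
          have h3 := mul_le_mul_of_nonneg_right h2 hAz.le
          linarith [hWz.1]
      _ = a.S1.card * (16 * a.AW t g a.z) := by rw [sum_const, nsmul_eq_mul]
      _ ≤ QQ a.q * (16 * a.AW t g a.z) :=
          mul_le_mul_of_nonneg_right (WtsB_card_le h) (by linarith [hW0 _ hz])
      _ = _ := by ring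
  rw [DriftY_law h h1 g fun w => a.PhiY (t + 1) (a.upd t g w)]
  have hL := log_be_ge h.big
  have hL0 : 0 ≤ -Real.log (be a.q) :=
    neg_nonneg.2 (Real.log_nonpos (be_pos h.big).le (be_lt _).le)
  have key : ∀ x ∈ a.S1, ∑ w ∈ a.S1, a.AW t g w / (∑ v ∈ a.S1, a.AW t g v) *
      (Real.exp ((QQ a.q : ℝ) ^ 3 * (a.yy (t + 1) (a.upd t g w) x - 2)) +
        Real.exp (-(QQ a.q : ℝ) ^ 3 * (a.yy (t + 1) (a.upd t g w) x + 2))) ≤
      Real.exp ((QQ a.q : ℝ) ^ 3 * (a.yy t g x - 2)) +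
        Real.exp (-(QQ a.q : ℝ) ^ 3 * (a.yy t g x + 2)) + 6 * Real.exp (-(QQ a.q : ℝ) ^ 3) := by
    intro x hx
    refine DriftYAux.term_step a.S1 (fun w => a.AW t g w / (∑ v ∈ a.S1, a.AW t g v))
      (fun w hw => (div_pos (hW0 w hw) hT).le) (by rw [← sum_div, div_self hT.ne']) hz hx
      (QQ a.q) (-Real.log (be a.q)) (a.yy (t + 1) g x - a.yy t g x) (a.yy t g x) (by linarith) hL0
      (DriftY_eta hQ (by rwa [neg_neg])) (DriftY_rho h t g hx) ?_ (fun h2 => ?_) (fun h2 => ?_)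
      (fun w => a.yy (t + 1) (a.upd t g w) x) fun w _ => DriftY_yy h h1 w hx
    · rw [← mul_div_assoc, le_div_iff₀ hT, one_mul]
      exact hT2
    · rw [← mul_div_assoc]
      refine div_le_div_of_nonneg_right ?_ hT.le
      have h3 := mul_le_mul_of_nonneg_right (Real.exp_le_exp.2 h2) hAz.le
      have h4 := mul_le_mul_of_nonneg_right he1.le hAz.le
      linarith [(hW x hx).1, hWz.2]
    · rw [← mul_div_assoc]
      refine div_le_div_of_nonneg_right ?_ hT.le
      have h3 : Real.exp (a.yy t g x) ≤ 2 / 5 := by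
        refine (Real.exp_le_exp.2 h2).trans ?_
        rw [Real.exp_neg, inv_le_comm₀ (Real.exp_pos 1) (by norm_num)]
        linarith
      have h4 := mul_le_mul_of_nonneg_right h3 hAz.le
      linarith [(hW x hx).2, hWz.1]
  simp only [Par.PhiY, mul_sum]
  rw [sum_comm]
  refine (sum_le_sum key).trans ?_
  rw [sum_add_distrib, sum_const, nsmul_eq_mul]
  have := mul_le_mul_of_nonneg_right (WtsB_card_le h)
    (by positivity : 0 ≤ 6 * Real.exp (-(QQ a.q : ℝ) ^ 3))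
  linarith

end Vale.Agent.P308
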