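import Vale.Agent.P308.WtsB

namespace Vale.Agent.P308

open Finset

theorem Final_round {N D c : ℕ} (hD : 0 < D) {η : ℝ} (h : |(N : ℝ) / D - c| ≤ η)
    (h0 : c = 0 → η < 1 / 2) : |(((2 * N + D) / (2 * D) : ℕ) : ℝ) - c| ≤ if c = 0 then 0 else 2 * η := by
  set o := (2 * N + D) / (2 * D) with ho
  have hD' : (0 : ℝ) < D := by exact_mod_cast hD
  have h1 : (o : ℝ) ≤ N / D + 1 / 2 := by
    have : o * (2 * D) ≤ 2 * N + D := Nat.div_mul_le_self _ _
    have : (o : ℝ) * (2 * D) ≤ 2 * N + D := by exact_mod_cast this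
    rw [div_add_div _ _ hD'.ne' (by norm_num), le_div_iff₀ (by positivity)]
    linarith
  have h2 : (N : ℝ) / D - 1 / 2 < o := by
    have : 2 * N + D < 2 * D * (o + 1) := Nat.lt_mul_div_succ _ (by omega)
    have : 2 * (N : ℝ) + D < 2 * D * (o + 1) := by exact_mod_cast this
    rw [div_sub_div _ _ hD'.ne' (by norm_num), div_lt_iff₀ (by positivity)]
    linarith
  have hη := (abs_nonneg _).trans h
  rw [abs_le] at h
  have key : η < 1 / 2 → o = c := fun hη' => by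
    have a1 : (o : ℝ) < c + 1 := by linarith
    have a2 : (c : ℝ) < o + 1 := by linarith
    have a1' : o < c + 1 := by exact_mod_cast a1
    have a2' : c < o + 1 := by exact_mod_cast a2
    omega
  split_ifs with hc
  · rw [key (h0 hc)]; simp
  · by_cases hη' : η < 1 / 2
    · rw [key hη']; simp [hη]
    · rw [abs_le]; constructor <;> linarith

theorem Final_pow_exp {Q : ℕ} (hQ : 65536 ≤ Q) :
    (Q : ℝ) ^ Q * Real.exp (-(Q : ℝ) ^ 2) ≤ 1 / (16 * Q) := by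
  have hQ' : (65536 : ℝ) ≤ Q := by exact_mod_cast hQ
  have h1 : Real.log Q ≤ Q / 2 := by
    have a1 : Real.log ((Q : ℝ) / 8) ≤ Q / 8 - 1 := Real.log_le_sub_one_of_pos (by positivity)
    have a2 : Real.log 8 ≤ 8 - 1 := Real.log_le_sub_one_of_pos (by norm_num)
    rw [Real.log_div (by positivity) (by norm_num)] at a1
    linarith
  have h2 : (Q : ℝ) ^ Q ≤ Real.exp ((Q : ℝ) ^ 2 / 2) := by
    rw [← Real.exp_log (x := (Q : ℝ) ^ Q) (by positivity), Real.log_pow]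
    gcongr
    nlinarith
  have h3 : (Q : ℝ) ^ 2 / 2 + 1 ≤ Real.exp ((Q : ℝ) ^ 2 / 2) := Real.add_one_le_exp _
  calc _ ≤ Real.exp ((Q : ℝ) ^ 2 / 2) * Real.exp (-(Q : ℝ) ^ 2) := by gcongr
    _ = 1 / Real.exp ((Q : ℝ) ^ 2 / 2) := by
      rw [← Real.exp_add, one_div, ← Real.exp_neg]; congr 1; ring
    _ ≤ 1 / (16 * Q) := one_div_le_one_div_of_le (by positivity) (by nlinarith)

theorem Final_haf {a : Par} {s : ℝ} (hs : 0 ≤ s) (hs1 : s ≤ 1) :
    (a.cnt : ℝ) ≤ haf (fun u v => if a.A u v = true then 1 else s) a.S2 ∧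
      haf (fun u v => if a.A u v = true then 1 else s) a.S2 ≤ a.cnt + s * (PMon a.S2).card := by
  have hc : (a.cnt : ℝ) = ∑ σ ∈ PMon a.S2, if ∀ v ∈ a.S2, a.A v (σ v) = true then 1 else 0 := by
    rw [Par.cnt, card_filter]; push_cast; rfl
  have h0 : ∀ u v, 0 ≤ if a.A u v = true then 1 else s := fun u v => by split_ifs <;> linarith
  have h1 : ∀ u v, (if a.A u v = true then 1 else s) ≤ 1 := fun u v => by split_ifs <;> linarith
  have h2 : ∀ σ : Fin a.m → Fin a.m, (∀ v ∈ a.S2, a.A v (σ v) = true) →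
      ∏ v ∈ a.S2, (if a.A v (σ v) = true then 1 else s) = 1 :=
    fun σ h => prod_eq_one fun v hv => if_pos (h v hv)
  rw [hc, haf]
  constructor
  · refine sum_le_sum fun σ _ => ?_
    split_ifs with h
    · exact (h2 σ h).ge
    · exact prod_nonneg fun v _ => h0 _ _
  · rw [mul_comm, ← nsmul_eq_mul, ← sum_const, ← sum_add_distrib]
    refine sum_le_sum fun σ _ => ?_
    split_ifs with h
    · rw [h2 σ h]; linarith
    · push Not at h
      obtain ⟨v, hv, h⟩ := h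
      rw [← mul_prod_erase _ _ hv, if_neg h, zero_add]
      exact mul_le_of_le_one_right hs (prod_le_one (fun v _ => h0 _ _) fun v _ => h1 _ _)

theorem Final_arith {ε e R H c : ℝ} (hε : 0 < ε) (hε1 : ε ≤ 1 / 16) (he : |e| ≤ ε) (hc : 0 ≤ c)
    (h1 : c ≤ H) (h2 : H ≤ c + ε) (h3 : H ≤ R) (h4 : R ≤ (1 + 2 * ε) * H) :
    |Real.exp e * R - c| ≤ 5 * ε * c + 2 * ε := by
  rw [abs_le] at he
  have a1 : 1 - ε ≤ Real.exp e := by linarith [Real.add_one_le_exp e]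
  have a2 : Real.exp e ≤ 1 + 2 * ε := by
    have b1 : Real.exp e ≤ Real.exp ε := Real.exp_le_exp.2 he.2
    have b2 : 1 - ε ≤ Real.exp (-ε) := by linarith [Real.add_one_le_exp (-ε)]
    have b3 : Real.exp ε * Real.exp (-ε) = 1 := by rw [← Real.exp_add]; simp
    have b4 := Real.exp_pos ε
    nlinarith
  rw [abs_le]
  constructor
  · have : (1 - ε) * c ≤ Real.exp e * R := mul_le_mul a1 (h1.trans h3) hc (Real.exp_pos e).le
    nlinarith
  · have b1 : R ≤ (1 + 2 * ε) * (c + ε) := h4.trans (by gcongr)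
    have b2 : Real.exp e * R ≤ (1 + 2 * ε) * ((1 + 2 * ε) * (c + ε)) :=
      mul_le_mul a2 b1 (hc.trans (h1.trans h3)) (by positivity)
    have b3 : (1 + 2 * ε) * (1 + 2 * ε) ≤ 1 + 5 * ε := by nlinarith
    have b4 : (1 + 2 * ε) * ((1 + 2 * ε) * (c + ε)) ≤ (1 + 5 * ε) * (c + ε) := by
      rw [← mul_assoc]; gcongr
    nlinarith

section
variable {a : Par} {g : Fin a.m → ℕ} {S : ℕ}

theorem Final_err (h : a.OK) (h2 : a.PhiE (TT a.q) g S < 1) :
    |a.err (TT a.q) g S| ≤ 1 / (16 * QQ a.q) := by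
  have hQ : (65536 : ℝ) ≤ QQ a.q := by exact_mod_cast QQ_ge h.big
  rw [Par.PhiE, sub_self, zero_div, zero_sub, add_mul, ← Real.exp_add, ← Real.exp_add] at h2
  generalize a.err (TT a.q) g S = e at h2 ⊢
  generalize (QQ a.q : ℝ) = Q at h2 hQ ⊢
  have b1 := Real.exp_pos (Q ^ 3 * e + -(Q ^ 2 / 16))
  have b2 := Real.exp_pos (-Q ^ 3 * e + -(Q ^ 2 / 16))
  have b3 : Q ^ 3 * e + -(Q ^ 2 / 16) < 0 := Real.exp_lt_one_iff.1 (by linarith)
  have b4 : -Q ^ 3 * e + -(Q ^ 2 / 16) < 0 := Real.exp_lt_one_iff.1 (by linarith)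
  have b5 : Q ^ 3 * (1 / (16 * Q)) = Q ^ 2 / 16 := by field_simp
  have b6 : (0 : ℝ) < Q ^ 3 := by positivity
  rw [abs_le]
  constructor
  · exact le_of_mul_le_mul_left (by linarith) b6
  · exact le_of_mul_le_mul_left (by linarith) b6

theorem Final_small (h : a.OK) : be a.q ^ T1 a.q * (PMon a.S2).card ≤ 1 / (16 * QQ a.q) := by
  have hQn := QQ_ge h.big
  have b1 : (PMon a.S2).card ≤ QQ a.q ^ QQ a.q := by
    refine (card_PMon_le _).trans ?_
    rw [Fintype.card_fin]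
    exact (Nat.pow_le_pow_left h.lt.le _).trans (Nat.pow_le_pow_right (by omega) h.lt.le)
  have b2 : ((PMon a.S2).card : ℝ) ≤ (QQ a.q : ℝ) ^ QQ a.q := by exact_mod_cast b1
  refine le_trans ?_ (Final_pow_exp hQn)
  rw [mul_comm]
  exact mul_le_mul b2 (be_T1_le h.big) (pow_pos (be_pos h.big) _).le (by positivity)

theorem Final_A (g : Fin a.m → ℕ) : a.AA (TT a.q) g a.z =
    haf (fun u v => if a.A u v = true then 1 else be a.q ^ T1 a.q) a.S2 * be a.q ^ a.GG g := by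
  have e : be a.q ^ a.GG g = ∏ v ∈ a.S2, (be a.q ^ g v) ^ 2 := by
    rw [prod_pow, prod_pow_eq_pow_sum, ← pow_mul, Par.GG, mul_comm]
  rw [e, ← haf_scale]
  refine haf_congr fun u hu v hv huv => ?_
  have hu' := (mem_erase.1 (mem_of_mem_erase hu)).1
  have hv' := (mem_erase.1 (mem_of_mem_erase hv)).1
  have hT : min (TT a.q) (T1 a.q) = T1 a.q := min_eq_right (Nat.le_add_right _ _)
  simp only [Par.cM, huv, hu', hv', if_false, or_self, hT, pow_add]
  split_ifs <;> ring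

theorem Final_Z (h : a.OK) (g : Fin a.m → ℕ) : a.ZZ (TT a.q) g = be a.q ^ (2 * BB a.q) *
    (a.AW (TT a.q) g a.z + be a.q ^ (2 * DD a.q) * ∑ x ∈ a.S2, a.AW (TT a.q) g x) := by
  have := Par.sum_root h (TT a.q) g fun _ => 1
  simp only [mul_one] at this
  rw [Par.ZZ, this, ← add_sum_erase _ _ (WtsB_z_mem h), mul_add (be a.q ^ (2 * BB a.q)), mul_sum,
    mul_sum]
  congr 1
  · simp [Par.ex]
  · refine sum_congr rfl fun x hx => ?_
    have : a.ex (TT a.q) x = DD a.q := by simp [Par.ex, (mem_erase.1 hx).1, TT]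
    rw [this, mul_add, pow_add, mul_assoc]

theorem Final_num {Q : ℝ} (hQ : 65536 ≤ Q) : (1 / Q ^ 3) ^ 2 * (Q * 6000) ≤ 1 / (16 * Q) := by
  have : (1 / Q ^ 3) ^ 2 * (Q * 6000) = 6000 / Q ^ 5 := by field_simp
  rw [this, div_le_div_iff₀ (by positivity) (by positivity)]
  have c1 : (65536 : ℝ) ^ 4 ≤ Q ^ 4 := by gcongr
  nlinarith

theorem Final_sum (h : a.OK) (hg : ∀ x, g x ≤ cc a.q * TT a.q)
    (hy : ∀ x ∈ a.S1, |a.yy (TT a.q) g x| ≤ 2) :
    be a.q ^ (2 * DD a.q) * ∑ x ∈ a.S2, a.AW (TT a.q) g x ≤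
      1 / (16 * QQ a.q) * a.AA (TT a.q) g a.z := by
  have hb := be_pos h.big
  have hQ : (65536 : ℝ) ≤ QQ a.q := by exact_mod_cast QQ_ge h.big
  have hAp := Par.AA_pos h (TT a.q) g (WtsB_z_mem h)
  have hε1 : 1 / (16 * (QQ a.q : ℝ)) ≤ 1 / 16 :=
    one_div_le_one_div_of_le (by norm_num) (by linarith)
  have hsum0 : 0 ≤ ∑ x ∈ a.S2, a.AW (TT a.q) g x :=
    sum_nonneg fun x _ => haf_nonneg (fun _ _ => (pow_pos hb _).le) _
  have b1 : be a.q ^ (2 * DD a.q) ≤ (1 / (QQ a.q : ℝ) ^ 3) ^ 2 := by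
    rw [mul_comm, pow_mul]
    exact pow_le_pow_left₀ (pow_pos hb _).le (be_DD_le h.big) _
  have b2 : ∀ x ∈ a.S2, a.AW (TT a.q) g x ≤ 6000 * a.AA (TT a.q) g a.z := fun x hx => by
    have hx' : x ∈ a.S1 := mem_of_mem_erase hx
    have c1 := (Par.AW_bounds h le_rfl hg hy hx').2
    rw [Par.AA_eq h _ g hx'] at c1
    have c2 : Real.exp (a.yy (TT a.q) g x) ≤ 3000 :=
      (Real.exp_le_exp.2 (by linarith [(abs_le.1 (hy x hx')).2])).trans WtsB_exp_eight
    refine c1.trans ?_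
    rw [← mul_assoc]
    refine mul_le_mul_of_nonneg_right ?_ hAp.le
    calc _ ≤ (2 : ℝ) * 3000 := mul_le_mul (by linarith) c2 (Real.exp_pos _).le (by norm_num)
      _ = 6000 := by norm_num
  have b3 : ∑ x ∈ a.S2, a.AW (TT a.q) g x ≤ QQ a.q * (6000 * a.AA (TT a.q) g a.z) := by
    refine (sum_le_card_nsmul _ _ _ b2).trans ?_
    rw [nsmul_eq_mul]
    refine mul_le_mul_of_nonneg_right (le_trans ?_ (WtsB_card_le h)) (by positivity)
    exact_mod_cast card_erase_le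
  calc _ ≤ (1 / (QQ a.q : ℝ) ^ 3) ^ 2 * (QQ a.q * (6000 * a.AA (TT a.q) g a.z)) :=
        mul_le_mul b1 b3 hsum0 (by positivity)
    _ = (1 / (QQ a.q : ℝ) ^ 3) ^ 2 * (QQ a.q * 6000) * a.AA (TT a.q) g a.z := by ring
    _ ≤ _ := mul_le_mul_of_nonneg_right (Final_num hQ) hAp.le

theorem Final_K (h : a.OK) : 2 ≤ QQ a.q ^ 510 :=
  le_trans (le_trans (by norm_num) (QQ_ge h.big)) (Nat.le_self_pow (by norm_num) (QQ a.q))

theorem Final_den (h : a.OK) : 0 < a.den g S := by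
  have h1 := Final_K h
  unfold Par.den
  generalize QQ a.q ^ 510 = K at h1
  exact Nat.mul_pos (pow_pos (by omega) _) (pow_pos (by omega) _)

theorem Final_ratio (h : a.OK) : (a.num g S : ℝ) / a.den g S =
    (a.m - 1).doubleFactorial * be a.q ^ S / be a.q ^ a.GG g := by
  have h1 := Final_K h
  have e : be a.q = 1 - 1 / ((QQ a.q ^ 510 : ℕ) : ℝ) := by rw [be, Nat.cast_pow]
  rw [e, Par.num, Par.den]
  generalize QQ a.q ^ 510 = K at h1
  have h2 : (2 : ℝ) ≤ K := by exact_mod_cast h1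
  push_cast [Nat.cast_sub (by omega : 1 ≤ K)]
  have h3 : (K : ℝ) - 1 ≠ 0 := (by linarith : (0 : ℝ) < K - 1).ne'
  have h4 : (K : ℝ) ≠ 0 := (by linarith : (0 : ℝ) < K).ne'
  have e3 : 1 - 1 / (K : ℝ) = (K - 1) / K := by field_simp
  rw [e3, div_pow, div_pow]
  field_simp

theorem Final_est (h : a.OK) : (a.num g S : ℝ) / a.den g S = Real.exp (a.err (TT a.q) g S) *
    ((a.AW (TT a.q) g a.z + be a.q ^ (2 * DD a.q) * ∑ x ∈ a.S2, a.AW (TT a.q) g x) /
      be a.q ^ a.GG g) := by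
  have hb := be_pos h.big
  have hZp := Par.ZZ_pos h (TT a.q) g
  have hZ0 := Par.ZZ_pos h 0 fun _ => 0
  rw [Par.err, Real.exp_sub, Real.exp_nat_mul, Real.exp_log hb, Real.exp_log (div_pos hZp hZ0),
    Final_ratio h, Par.ZZ_zero h]
  rw [Final_Z h] at hZp ⊢
  have h1 : be a.q ^ (2 * BB a.q) ≠ 0 := (pow_pos hb _).ne'
  have h3 : be a.q ^ a.GG g ≠ 0 := (pow_pos hb _).ne'
  have h4 := right_ne_zero_of_mul hZp.ne'
  generalize a.AW (TT a.q) g a.z + be a.q ^ (2 * DD a.q) * ∑ x ∈ a.S2, a.AW (TT a.q) g x = W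
    at h4 ⊢
  generalize be a.q ^ (2 * BB a.q) = w at h1 ⊢
  field_simp

end

theorem Par.final {a : Par} {g : Fin a.m → ℕ} {S : ℕ} (h : a.OK)
    (hg : ∀ x, g x ≤ cc a.q * TT a.q) (h1 : a.PhiY (TT a.q) g < 1) (h2 : a.PhiE (TT a.q) g S < 1) :
    a.bad g S = 0 := by
  have hb := be_pos h.big
  have hb1 := (be_lt a.q).le
  have hQ : (65536 : ℝ) ≤ QQ a.q := by exact_mod_cast QQ_ge h.big
  have hy := Par.PhiY_lt h1
  have herr := Final_err h h2
  have hH := Final_haf (a := a) (pow_pos hb (T1 a.q)).le (pow_le_one₀ hb.le hb1)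
  have hs := Final_small h
  have hA := Final_A g
  have hWz := Par.AW_bounds h le_rfl hg hy (WtsB_z_mem h)
  have hsum := Final_sum h hg hy
  have hest := Final_est (g := g) (S := S) h
  have hsum0 : 0 ≤ be a.q ^ (2 * DD a.q) * ∑ x ∈ a.S2, a.AW (TT a.q) g x :=
    mul_nonneg (pow_pos hb _).le (sum_nonneg fun x _ => haf_nonneg (fun _ _ => (pow_pos hb _).le) _)
  have hG : 0 < be a.q ^ a.GG g := pow_pos hb _
  have c2 : (a.cnt : ℝ) / QQ a.q = 16 * (1 / (16 * QQ a.q)) * a.cnt := by field_simp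
  have hε0 : (0 : ℝ) < 1 / (16 * QQ a.q) := by positivity
  have hε1 : 1 / (16 * (QQ a.q : ℝ)) ≤ 1 / 16 :=
    one_div_le_one_div_of_le (by norm_num) (by linarith)
  generalize haf (fun u v => if a.A u v = true then 1 else be a.q ^ T1 a.q) a.S2 = H at hH hA
  generalize be a.q ^ (2 * DD a.q) * ∑ x ∈ a.S2, a.AW (TT a.q) g x = W at hsum hest hsum0
  generalize 1 / (16 * (QQ a.q : ℝ)) = ε at herr hs hWz hsum c2 hε0 hε1
  have hR1 : H ≤ (a.AW (TT a.q) g a.z + W) / be a.q ^ a.GG g := by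
    rw [le_div_iff₀ hG, ← hA]
    linarith [hWz.1]
  have hR2 : (a.AW (TT a.q) g a.z + W) / be a.q ^ a.GG g ≤ (1 + 2 * ε) * H := by
    rw [div_le_iff₀ hG, mul_assoc, ← hA]
    linarith [hWz.2]
  have hfin := Final_arith hε0 hε1 herr (Nat.cast_nonneg a.cnt) hH.1 (by linarith [hH.2]) hR1 hR2
  rw [← hest] at hfin
  have hr := Final_round (Final_den h) hfin fun hc => by rw [hc]; simp; linarith
  rw [Par.bad, if_pos]
  refine hr.trans ?_
  rw [c2]
  split_ifs with hc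
  · positivity
  · have c1 : (1 : ℝ) ≤ a.cnt := by exact_mod_cast Nat.one_le_iff_ne_zero.2 hc
    nlinarith

end Vale.Agent.P308
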