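import Mathlib

/-! Dirichlet forms of Metropolis operators built from involutions. -/

namespace Vale.Agent.P308.GapAux

open Finset

variable {Z Θ : Type} [Fintype Z]

/-- the Dirichlet form of a family of involutions -/
noncomputable def dir (T : Finset Θ) (m : Θ → Z → Z) (c : Z → ℕ) (β : ℝ) (G H : Z → ℝ) : ℝ :=
  ∑ θ ∈ T, ∑ z, β ^ max (c z) (c (m θ z)) * ((G (m θ z) - G z) * (H (m θ z) - H z))

lemma pow_max (β : ℝ) (a b : ℕ) : β ^ a * β ^ (b - a) = β ^ max a b := by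
  rw [← pow_add]
  congr 1
  omega

lemma sum_inv {m : Z → Z} (hm : Function.Involutive m) (F : Z → ℝ) :
    ∑ z, F (m z) = ∑ z, F z :=
  Equiv.sum_comp hm.toPerm F

lemma half {m : Z → Z} (hm : Function.Involutive m) (c : Z → ℕ) (β : ℝ) (G H : Z → ℝ) :
    ∑ z, β ^ max (c z) (c (m z)) * ((G (m z) - G z) * (H (m z) - H z)) =
      -2 * ∑ z, β ^ max (c z) (c (m z)) * ((G (m z) - G z) * H z) := by
  have h1 := sum_inv hm (fun z => β ^ max (c z) (c (m z)) * ((G (m z) - G z) * H z))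
  have h2 : ∑ z, β ^ max (c z) (c (m z)) * ((G (m z) - G z) * (H (m z) - H z)) =
      -(∑ z, β ^ max (c (m z)) (c (m (m z))) * ((G (m (m z)) - G (m z)) * H (m z))) -
        ∑ z, β ^ max (c z) (c (m z)) * ((G (m z) - G z) * H z) := by
    rw [← sum_neg_distrib, ← sum_sub_distrib]
    refine sum_congr rfl fun z _ => ?_
    rw [hm z, max_comm (c (m z))]
    ring
  rw [h2, h1]
  ring

variable {T : Finset Θ} {m : Θ → Z → Z} {c : Z → ℕ} {β N : ℝ}

lemma dir_symm (G H : Z → ℝ) : dir T m c β G H = dir T m c β H G := by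
  unfold dir
  simp only [mul_comm (G _ - G _)]

lemma form (hm : ∀ θ, Function.Involutive (m θ)) (G H PG : Z → ℝ)
    (hP : ∀ z, PG z = G z + (∑ θ ∈ T, β ^ (c (m θ z) - c z) * (G (m θ z) - G z)) / N) :
    ∑ z, β ^ c z * (H z * (G z - PG z)) = dir T m c β G H / (2 * N) := by
  have h1 : dir T m c β G H =
      -2 * ∑ θ ∈ T, ∑ z, β ^ max (c z) (c (m θ z)) * ((G (m θ z) - G z) * H z) := by
    rw [dir, mul_sum]
    exact sum_congr rfl fun θ _ => half (hm θ) c β G H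
  have h2 : ∑ z, β ^ c z * (H z * (G z - PG z)) =
      -(∑ θ ∈ T, ∑ z, β ^ max (c z) (c (m θ z)) * ((G (m θ z) - G z) * H z)) / N := by
    rw [sum_comm, ← sum_neg_distrib, sum_div]
    refine sum_congr rfl fun z _ => ?_
    have e : ∑ θ ∈ T, β ^ max (c z) (c (m θ z)) * ((G (m θ z) - G z) * H z) =
        β ^ c z * H z * ∑ θ ∈ T, β ^ (c (m θ z) - c z) * (G (m θ z) - G z) := by
      rw [mul_sum]
      refine sum_congr rfl fun θ _ => ?_
      rw [← pow_max]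
      ring
    rw [e, hP z]
    ring
  rw [h1, h2]
  ring

lemma dir_nonneg (h0 : 0 ≤ β) (G : Z → ℝ) : 0 ≤ dir T m c β G G :=
  sum_nonneg fun _ _ => sum_nonneg fun _ _ => mul_nonneg (pow_nonneg h0 _) (mul_self_nonneg _)

lemma lazy (h0 : 0 ≤ β) (h1 : β ≤ 1) (hN : N = 2 * T.card) (G PG : Z → ℝ)
    (hP : ∀ z, PG z = G z + (∑ θ ∈ T, β ^ (c (m θ z) - c z) * (G (m θ z) - G z)) / N) :
    ∑ z, β ^ c z * (G z - PG z) ^ 2 ≤ dir T m c β G G / (2 * N) := by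
  have key : ∀ z, β ^ c z * (G z - PG z) ^ 2 ≤
      (∑ θ ∈ T, β ^ max (c z) (c (m θ z)) * ((G (m θ z) - G z) * (G (m θ z) - G z))) /
        (2 * N) := by
    intro z
    have h2 := sq_sum_le_card_mul_sum_sq (s := T)
      (f := fun θ => β ^ (c (m θ z) - c z) * (G (m θ z) - G z))
    have h3 : β ^ c z * ∑ θ ∈ T, (β ^ (c (m θ z) - c z) * (G (m θ z) - G z)) ^ 2 ≤
        ∑ θ ∈ T, β ^ max (c z) (c (m θ z)) * ((G (m θ z) - G z) * (G (m θ z) - G z)) := by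
      rw [mul_sum]
      refine sum_le_sum fun θ _ => ?_
      rw [← pow_max]
      have a0 : 0 ≤ β ^ (c (m θ z) - c z) := pow_nonneg h0 _
      have a1 : β ^ (c (m θ z) - c z) ≤ 1 := pow_le_one₀ h0 h1
      have a2 : 0 ≤ β ^ c z := pow_nonneg h0 _
      generalize β ^ (c (m θ z) - c z) = a at a0 a1
      generalize G (m θ z) - G z = d
      have a3 : 0 ≤ β ^ c z * a * (d * d) := mul_nonneg (mul_nonneg a2 a0) (mul_self_nonneg d)
      nlinarith
    have e : G z - PG z = -((∑ θ ∈ T, β ^ (c (m θ z) - c z) * (G (m θ z) - G z)) / N) := by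
      rw [hP z]; ring
    rw [e, neg_sq, div_pow]
    have h4 := mul_le_mul_of_nonneg_left h2 (pow_nonneg h0 (c z))
    generalize (∑ θ ∈ T, β ^ (c (m θ z) - c z) * (G (m θ z) - G z)) ^ 2 = S at h4 ⊢
    generalize ∑ θ ∈ T, (β ^ (c (m θ z) - c z) * (G (m θ z) - G z)) ^ 2 = S' at h3 h4
    have h5 : 0 ≤ ∑ θ ∈ T, β ^ max (c z) (c (m θ z)) *
        ((G (m θ z) - G z) * (G (m θ z) - G z)) :=
      sum_nonneg fun _ _ => mul_nonneg (pow_nonneg h0 _) (mul_self_nonneg _)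
    generalize ∑ θ ∈ T, β ^ max (c z) (c (m θ z)) *
        ((G (m θ z) - G z) * (G (m θ z) - G z)) = R at h3 h5 ⊢
    have ht : (0 : ℝ) ≤ T.card := Nat.cast_nonneg _
    rcases ht.eq_or_lt with h6 | h6
    · rw [hN, ← h6]; simp
    · have h7 := mul_le_mul_of_nonneg_left h3 ht
      rw [hN, ← mul_div_assoc, div_le_div_iff₀ (by positivity) (by positivity)]
      have h8 : β ^ c z * S ≤ T.card * R := by linarith
      have h9 := mul_le_mul_of_nonneg_right h8 (by positivity : (0 : ℝ) ≤ 4 * T.card)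
      linarith
  refine (sum_le_sum fun z _ => key z).trans (le_of_eq ?_)
  rw [← sum_div, dir, sum_comm]

lemma dir_le (hm : ∀ θ, Function.Involutive (m θ)) (h0 : 0 ≤ β) (h1 : β ≤ 1) (K : Z → ℝ) :
    dir T m c β K K ≤ 4 * T.card * ∑ z, β ^ c z * K z ^ 2 := by
  have key : ∀ θ, ∑ z, β ^ max (c z) (c (m θ z)) * ((K (m θ z) - K z) * (K (m θ z) - K z)) ≤
      4 * ∑ z, β ^ c z * K z ^ 2 := by
    intro θ
    have h2 := sum_inv (hm θ) (fun z => β ^ c z * K z ^ 2)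
    have h3 : ∑ z, β ^ max (c z) (c (m θ z)) * ((K (m θ z) - K z) * (K (m θ z) - K z)) ≤
        ∑ z, (2 * (β ^ c (m θ z) * K (m θ z) ^ 2) + 2 * (β ^ c z * K z ^ 2)) := by
      refine sum_le_sum fun z _ => ?_
      have a0 : 0 ≤ β ^ max (c z) (c (m θ z)) := pow_nonneg h0 _
      have a1 : β ^ max (c z) (c (m θ z)) ≤ β ^ c z :=
        pow_le_pow_of_le_one h0 h1 (le_max_left _ _)
      have a2 : β ^ max (c z) (c (m θ z)) ≤ β ^ c (m θ z) :=
        pow_le_pow_of_le_one h0 h1 (le_max_right _ _)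
      have a3 := mul_le_mul_of_nonneg_right a1 (sq_nonneg (K z))
      have a4 := mul_le_mul_of_nonneg_right a2 (sq_nonneg (K (m θ z)))
      have a5 := mul_nonneg a0 (sq_nonneg (K (m θ z) + K z))
      nlinarith
    rw [sum_add_distrib, ← mul_sum, ← mul_sum, h2] at h3
    linarith
  refine (sum_le_sum fun θ _ => key θ).trans (le_of_eq ?_)
  rw [sum_const, nsmul_eq_mul]
  ring

lemma dir_sub (h0 : 0 ≤ β) (A G B : Z → ℝ) (h : ∀ z, A z = G z - B z) :
    dir T m c β A A ≤ 2 * dir T m c β G G + 2 * dir T m c β B B := by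
  unfold dir
  rw [mul_sum, mul_sum, ← sum_add_distrib]
  refine sum_le_sum fun θ _ => ?_
  rw [mul_sum, mul_sum, ← sum_add_distrib]
  refine sum_le_sum fun z _ => ?_
  rw [h, h]
  have a5 := mul_nonneg (pow_nonneg h0 (max (c z) (c (m θ z))))
    (sq_nonneg ((G (m θ z) - G z) + (B (m θ z) - B z)))
  nlinarith

lemma pair_sq {Ω : Type} [Fintype Ω] (w k : Ω → ℝ) (hk : ∑ x, w x * k x = 0) :
    ∑ z : Ω × Ω, w z.1 * w z.2 * (k z.1 - k z.2) ^ 2 = 2 * (∑ x, w x) * ∑ x, w x * k x ^ 2 := by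
  have e : ∑ z : Ω × Ω, w z.1 * w z.2 * (k z.1 - k z.2) ^ 2 =
      (∑ x, w x * k x ^ 2) * (∑ x, w x) + (∑ x, w x) * (∑ x, w x * k x ^ 2) -
        2 * ((∑ x, w x * k x) * ∑ x, w x * k x) := by
    rw [sum_mul_sum, sum_mul_sum, sum_mul_sum, Fintype.sum_prod_type, mul_sum,
      ← sum_add_distrib, ← sum_sub_distrib]
    refine sum_congr rfl fun x _ => ?_
    rw [mul_sum, ← sum_add_distrib, ← sum_sub_distrib]
    refine sum_congr rfl fun y _ => ?_
    ring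
  rw [e, hk]
  ring

lemma arith {b C Q Zs nh nk dG dA dB : ℝ} (hb1 : b ≤ 1) (hC : 1 ≤ C) (hQ : 1 ≤ Q)
    (hk0 : 0 ≤ Zs * nk) (hG : 0 ≤ dG)
    (h1 : b * (2 * Zs * nh) ≤ C * dA) (h2 : dA ≤ 2 * dG + 2 * dB)
    (h3 : dB ≤ 4 * (4 * Q ^ 2) * (2 * Zs * nk)) (h4 : 4 * (2 * Zs * nk) ≤ dG) :
    b * (Zs * (2 * nh + 2 * nk)) ≤ 16 * C * Q ^ 2 * dG := by
  have hQ2 : 1 ≤ Q ^ 2 := one_le_pow₀ hQ
  have a1 : Q ^ 2 * (4 * (2 * Zs * nk)) ≤ Q ^ 2 * dG :=
    mul_le_mul_of_nonneg_left h4 (by positivity)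
  have a2 : dG ≤ Q ^ 2 * dG := le_mul_of_one_le_left hG hQ2
  have a3 : dA ≤ 10 * (Q ^ 2 * dG) := by linarith
  have a4 : C * dA ≤ C * (10 * (Q ^ 2 * dG)) := mul_le_mul_of_nonneg_left a3 (by linarith)
  have a5 : b * (Zs * nk) ≤ Zs * nk := mul_le_of_le_one_left hk0 hb1
  have a6 : Q ^ 2 * dG ≤ C * (Q ^ 2 * dG) := le_mul_of_one_le_left (by positivity) hC
  have a7 : 0 ≤ C * (Q ^ 2 * dG) := by positivity
  nlinarith

end Vale.Agent.P308.GapAux
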