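import Vale.Agent.P308.LinC

/-! The linearised Poincare inequality for the pair chain. -/

set_option linter.unusedSectionVars false

namespace Vale.Agent.P308

open Finset

variable {V : Type} [Fintype V] [DecidableEq V]

/-- edges of the union of two matchings -/
def rel (z : PM V × PM V) (a b : V) : Prop := b = z.1.1 a ∨ b = z.2.1 a

theorem rel_symm {z : PM V × PM V} {a b : V} (h : Relation.ReflTransGen (rel z) a b) :
    Relation.ReflTransGen (rel z) b a := by
  induction h with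
  | refl => exact .refl
  | tail _ h ih =>
    exact .head (h.imp (fun h => (z.1.eq_iff.1 h.symm).symm) fun h => (z.2.eq_iff.1 h.symm).symm) ih

open Classical in
/-- the alternating cycles meeting `T` -/
noncomputable def orb (z : PM V × PM V) (T : Finset V) : Finset V :=
  univ.filter fun w => ∃ v ∈ T, Relation.ReflTransGen (rel z) v w

theorem mem_orb {z : PM V × PM V} {T : Finset V} {w : V} :
    w ∈ orb z T ↔ ∃ v ∈ T, Relation.ReflTransGen (rel z) v w := by simp [orb]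

theorem orb_step {z : PM V × PM V} {T : Finset V} {a b : V} (h : a ∈ orb z T) (h' : rel z a b) :
    b ∈ orb z T := by
  obtain ⟨v, hv, h⟩ := mem_orb.1 h
  exact mem_orb.2 ⟨v, hv, h.tail h'⟩

/-- flipping the cycles meeting `T` -/
noncomputable def fl (T : Finset V) (z : PM V × PM V) : PM V × PM V :=
  (mix (orb z T) z.2 z.1, mix (orb z T) z.1 z.2)

theorem fl_fst (T : Finset V) (z : PM V × PM V) (v : V) :
    (fl T z).1.1 v = if v ∈ orb z T then z.2.1 v else z.1.1 v :=
  mix_closed (fun _ h => orb_step h (Or.inr rfl)) (fun _ h => orb_step h (Or.inl rfl)) v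

theorem fl_snd (T : Finset V) (z : PM V × PM V) (v : V) :
    (fl T z).2.1 v = if v ∈ orb z T then z.1.1 v else z.2.1 v :=
  mix_closed (fun _ h => orb_step h (Or.inl rfl)) (fun _ h => orb_step h (Or.inr rfl)) v

theorem orb_fl (T T' : Finset V) (z : PM V × PM V) : orb (fl T z) T' = orb z T' := by
  have : rel (fl T z) = rel z := by
    funext a b
    rw [rel, rel, fl_fst, fl_snd]
    split_ifs
    exacts [propext or_comm, rfl]
  ext w
  rw [mem_orb, mem_orb, this]

theorem fl_fl (T : Finset V) (z : PM V × PM V) : fl T (fl T z) = z := by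
  rw [fl, orb_fl]; simp only [fl, mix_mix]

theorem cost2_fl (W : V → V → ℕ) (T : Finset V) (z : PM V × PM V) :
    cost2 W (fl T z) = cost2 W z :=
  (cost_mix_closed W (fun _ h => orb_step h (Or.inr rfl))
    fun _ h => orb_step h (Or.inl rfl)).trans (add_comm _ _)

theorem fl_insert (v : V) (T : Finset V) (z : PM V × PM V) :
    (fl (insert v T) z).1 = (fl T z).1 ∨ (fl (insert v T) z).1 = (fl {v} (fl T z)).1 := by
  have e : ∀ w, w ∈ orb z (insert v T) ↔ w ∈ orb z {v} ∨ w ∈ orb z T := fun w => by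
    simp [mem_orb]
  by_cases h : v ∈ orb z T
  · refine Or.inl (Subtype.ext (funext fun w => ?_))
    obtain ⟨u, hu, h⟩ := mem_orb.1 h
    simp only [fl_fst, e, or_iff_right_of_imp (show w ∈ orb z {v} → w ∈ orb z T from fun h' => by
      obtain ⟨x, hx, h'⟩ := mem_orb.1 h'
      exact mem_orb.2 ⟨u, hu, h.trans (mem_singleton.1 hx ▸ h')⟩)]
  · refine Or.inr (Subtype.ext (funext fun w => ?_))
    simp only [fl_fst, fl_snd, orb_fl, e]
    by_cases h1 : w ∈ orb z {v}
    · have h2 : w ∉ orb z T := fun h2 => by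
        obtain ⟨x, hx, h1⟩ := mem_orb.1 h1
        obtain ⟨u, hu, h2⟩ := mem_orb.1 h2
        exact h (mem_orb.2 ⟨u, hu, h2.trans (rel_symm (mem_singleton.1 hx ▸ h1))⟩)
      simp [h1, h2]
    · simp [h1]

theorem Tk.End_even {d : V → V → ℕ} (hs : ∀ x y, d x y = d y x) {τ : Tk V} {q : Bool} {Z : PM V}
    (hg : τ.Good) (hk : τ.k % 2 = 0) (h : τ.Nt q Z)
    (h' : q = false → τ.diam d ≤ d (τ.l 0) (Z.1 (τ.l 0))) : τ.End d q Z := by
  refine ⟨h', fun ht => ?_⟩
  have h1 := (typ_iff _ _).1 ht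
  have h2 := hg.pos
  cases q
  · rw [Z.eq_iff.1 (h.2 hk rfl), hs, ← h.2 hk rfl]; exact h' rfl
  · simp only [Bool.toNat_true] at h1; omega

theorem walk_close (z : PM V × PM V) (p : Bool) (w : V) : ∃ k, 1 ≤ k ∧ k % 2 = 0 ∧
    (∀ i < k, ∀ j < k, walk z.1.1 z.2.1 p w i = walk z.1.1 z.2.1 p w j → i = j) ∧
    walk z.1.1 z.2.1 p w k = w := by
  classical
  set l := walk z.1.1 z.2.1 p w with hl
  have ex : ∃ k, ∃ i < k, l i = l k := by
    obtain ⟨a, b, hab, e⟩ := Finite.exists_ne_map_eq_of_infinite l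
    rcases lt_or_gt_of_ne hab with h | h
    exacts [⟨b, a, h, e⟩, ⟨a, b, h, e.symm⟩]
  obtain ⟨i, hi, e⟩ := Nat.find_spec ex
  have inj : ∀ i < Nat.find ex, ∀ j < Nat.find ex, l i = l j → i = j := fun a ha b hb e => by
    by_contra hab
    rcases lt_or_gt_of_ne hab with h | h
    exacts [Nat.find_min ex hb ⟨a, h, e⟩, Nat.find_min ex ha ⟨b, h, e.symm⟩]
  obtain ⟨k, hk⟩ : ∃ k, Nat.find ex = k + 1 := ⟨Nat.find ex - 1, by omega⟩
  rw [hk] at hi e inj
  have st : ∀ i, l (i + 1) = (if typ p i = true then z.1 else z.2).1 (l i) := fun i => by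
    rw [hl, walk]; split_ifs <;> rfl
  have e1 := PM.eq_iff _ |>.1 (e.trans (st k)).symm
  have t1 := typ_iff p i
  have t2 := typ_iff p k
  by_cases h : typ p i = typ p k
  · rw [← h, ← st] at e1
    by_cases h1 : i = k
    · rw [st, h1] at e1
      exact absurd e1 (PM.ne _ _)
    · have := inj _ (by omega) _ (by omega) e1
      rw [h, t2] at t1
      omega
  · have h2 : ¬ ((i + p.toNat) % 2 = 1 ↔ (k + p.toNat) % 2 = 1) := fun h' =>
      h (Bool.eq_iff_iff.2 (t1.trans (h'.trans t2.symm)))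
    rcases i with _ | i
    · exact ⟨k + 1, by omega, by omega, inj, e.symm⟩
    · have h3 : typ p i = typ p k := Bool.eq_iff_iff.2 (by rw [typ_iff, t2]; omega)
      rw [← h3, st, PM.inv] at e1
      have := inj _ (by omega) _ (by omega) e1
      omega

namespace Cx

variable (c : Cx V) {τ : Tk V} {z : PM V × PM V}

/-- arcs whose leaving edges are long -/
def Adm (τ : Tk V) (z : PM V × PM V) : Prop :=
  τ.Good ∧ τ.Pat τ.p z.1 ∧ τ.Pat (!τ.p) z.2 ∧ τ.End c.d τ.p z.1 ∧ τ.End c.d (!τ.p) z.2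

theorem cycle (z : PM V × PM V) (v : V) : ∃ τ, c.Adm τ z ∧ τ.Nat2 z ∧ τ.U = orb z {v} := by
  have hv : v ∈ orb z {v} := mem_orb.2 ⟨v, mem_singleton_self v, .refl⟩
  obtain ⟨⟨w, p⟩, hw, hmax⟩ := exists_max_image (orb z {v} ×ˢ (univ : Finset Bool))
    (fun s => c.d s.1 (if s.2 = true then z.2.1 s.1 else z.1.1 s.1)) ⟨(v, true), by simp [hv]⟩
  replace hw : w ∈ orb z {v} := (mem_product.1 hw).1
  obtain ⟨k, k1, k2, inj, cls⟩ := walk_close z p w
  have el : ∀ i < k, (own z p w k).l i = walk z.1.1 z.2.1 p w i := fun i hi => by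
    simp only [own]; rw [min_eq_left (by omega)]
  have e0 : (own z p w k).l 0 = w := el 0 k1
  have hg : (own z p w k).Good :=
    ⟨k1, fun i hi j hj e => inj i hi j hj (by rwa [el i hi, el j hj] at e), fun i hi => by
      simp only [own] at hi ⊢; rw [min_self, min_eq_right (by omega)]⟩
  have ek : walk z.1.1 z.2.1 p w (k - 1 + 1) = w := by rwa [Nat.sub_add_cancel k1]
  have tk := typ_iff p (k - 1)
  rw [walk, ← el _ (by omega)] at ek
  have n1 : (own z p w k).Nt p z.1 := by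
    refine ⟨fun i hi ht => ?_, fun _ hp => ?_⟩
    · rw [el i (Nat.lt_of_succ_lt hi), el _ hi, walk, if_pos ht]
    · subst hp
      rw [if_pos (tk.2 (by simp only [Bool.toNat_false]; omega))] at ek
      rw [e0]; exact z.1.eq_iff.1 ek
  have n2 : (own z p w k).Nt (!p) z.2 := by
    refine ⟨fun i hi ht => ?_, fun _ hp => ?_⟩
    · rw [el i (Nat.lt_of_succ_lt hi), el _ hi, walk, if_neg (by simpa [typ_not] using ht)]
    · obtain rfl : p = true := by simpa using hp
      rw [if_neg fun h => by have := tk.1 h; simp only [Bool.toNat_true] at this; omega] at ek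
      rw [e0]; exact z.2.eq_iff.1 ek
  have m1 : ∀ i, walk z.1.1 z.2.1 p w i ∈ orb z {v} := fun i => by
    induction i with
    | zero => exact hw
    | succ i ih =>
      refine orb_step ih ?_
      rw [walk]; split_ifs
      exacts [Or.inl rfl, Or.inr rfl]
  have dm : (own z p w k).diam c.d ≤ c.d w (if p = true then z.2.1 w else z.1.1 w) := by
    refine Tk.diam_le c.hU fun i hi => ?_
    have := hmax (_, !typ p i) (mem_product.2 ⟨m1 i, mem_univ _⟩)
    rw [el i (Nat.lt_of_succ_lt hi), el _ hi, walk]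
    cases h : typ p i <;> simpa [h] using this
  refine ⟨own z p w k, ⟨hg, n1.1, n2.1, Tk.End_even c.hU.d_symm hg k2 n1 fun hp => ?_,
    Tk.End_even c.hU.d_symm hg k2 n2 fun hp => ?_⟩, ⟨hg, n1, n2⟩, ?_⟩
  · rw [e0]; simpa [show p = false from hp] using dm
  · rw [e0]; simpa [show p = true by simpa [own] using hp] using dm
  · ext u
    refine ⟨fun hu => ?_, fun hu => ?_⟩
    · obtain ⟨i, hi, rfl⟩ := Tk.mem_U.1 hu
      rw [el i hi]; exact m1 i
    · obtain ⟨x, hx, h1⟩ := mem_orb.1 hu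
      obtain ⟨y, hy, h2⟩ := mem_orb.1 hw
      rw [mem_singleton.1 hx] at h1
      rw [mem_singleton.1 hy] at h2
      have h3 := (rel_symm h2).trans h1
      clear hu h1
      induction h3 with
      | refl => exact e0 ▸ Tk.l_mem k1
      | tail _ h ih =>
        rcases h with rfl | rfl
        exacts [n1.mem ih fun h => absurd h (by simp only [own]; omega),
          n2.mem ih fun h => absurd h (by simp only [own]; omega)]

open Classical in
/-- the defects of all admissible arcs of a pair -/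
noncomputable def sm (z : PM V × PM V) : ℝ :=
  tot (fun τ z => if c.Adm τ z then c.ee τ ^ 2 else 0) z

theorem gg_le (z : PM V × PM V) (k : ℕ) : ∀ τ : Tk V, τ.k = k → c.Adm τ z →
    |c.gg τ| ≤ ((k : ℝ) - 1) * √(c.sm z) := by
  induction k using Nat.strong_induction_on with
  | _ k ih =>
    intro τ hk h
    by_cases h2 : 2 ≤ τ.k
    · obtain ⟨hj, hd⟩ := c.sp_spec h2
      have e : |c.ee τ| ≤ √(c.sm z) := by
        classical
        refine Real.abs_le_sqrt ((if_pos h).symm.trans_le (le_tot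
          (F := fun τ z => if c.Adm τ z then c.ee τ ^ 2 else 0) (fun τ z => ?_) h.1 h.2.1 h.2.2.1))
        split_ifs
        exacts [sq_nonneg _, le_rfl]
      rw [ee, if_pos h2] at e
      generalize c.sp τ = j at hj hd e
      have a1 := ih (j + 1) (by omega) (τ.L j) rfl ⟨h.1.L hj, h.2.1.L hj, h.2.2.1.L hj,
        h.2.2.2.1.L hj hd h.2.1, h.2.2.2.2.L hj hd h.2.2.1⟩
      have a2 := ih (τ.k - (j + 1)) (by omega) (τ.R j) rfl ⟨h.1.R hj, h.2.1.R,
        by have := h.2.2.1.R (j := j); rwa [typ_not] at this,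
        h.2.2.2.1.R c.hU.d_symm hj hd h.2.1,
        by have := h.2.2.2.2.R c.hU.d_symm hj hd h.2.2.1; rwa [typ_not] at this⟩
      rw [Nat.cast_sub hj.le, hk] at a2
      rw [abs_le] at *
      constructor <;> linarith [e.1, e.2, a1.1, a1.2, a2.1, a2.2]
    · have := h.1.pos
      rw [c.gg_one (by omega), show k = 1 by omega]
      simp

theorem le_nu (h : c.Adm τ z) : c.β ^ (4 * c.D) * c.β ^ cost2 c.W z ≤
    c.nu τ (τ.cl τ.p z.1, τ.cl (!τ.p) z.2) := by
  rw [c.nu_eq ⟨h.1, Tk.cl_nt h.1 h.2.1, Tk.cl_nt h.1 h.2.2.1⟩, ← zpow_natCast _ (cost2 _ _)]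
  have a1 := Tk.cl_nat c.hU h.1 h.2.2.2.1
  have a2 := Tk.cl_nat c.hU h.1 h.2.2.2.2
  exact c.zle (by simp only [cost2]; omega)

theorem sm_le : c.β ^ (4 * c.D) * ∑ z, c.β ^ cost2 c.W z * c.sm z ≤
    2 * ((Fintype.card V : ℝ) + 1) ^ 6 * ∑ z, c.errP z := by
  classical
  have n0 : ∀ z, 0 ≤ c.errP z := tot_nonneg (c.nu_sq fun τ _ => c.ee τ)
  have key : ∀ z, c.β ^ (4 * c.D) * c.β ^ cost2 c.W z * c.sm z ≤
      2 * ((Fintype.card V : ℝ) + 1) ^ 2 * sw4 c.errP z := fun z => by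
    have n1 : 0 ≤ sw4 c.errP z := sum_nonneg fun _ _ => n0 _
    refine tot_le n1 fun τ => ?_
    split_ifs with h
    · exact (mul_le_mul_of_nonneg_right (c.le_nu h) (sq_nonneg _)).trans
        ((le_tot (c.nu_sq fun τ _ => c.ee τ) h.1 (Tk.cl_nt h.1 h.2.1).1
          (Tk.cl_nt h.1 h.2.2.1).1).trans (le_sw4 n0 (τ.cl_sw _ _) (τ.cl_sw _ _)))
    · rwa [mul_zero]
  have a1 := sum_le_sum fun z (_ : z ∈ univ) => key z
  simp only [mul_assoc, ← mul_sum] at a1
  have a2 := mul_le_mul_of_nonneg_left (sum_sw4 n0)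
    (show (0 : ℝ) ≤ ((Fintype.card V : ℝ) + 1) ^ 2 by positivity)
  linarith

/-- the energy of flipping the cycles meeting `T` -/
noncomputable def flE (T : Finset V) : ℝ :=
  ∑ z, c.β ^ cost2 c.W z * (c.f (fl T z).1 - c.f z.1) ^ 2

theorem flE_nonneg (T : Finset V) : 0 ≤ c.flE T :=
  sum_nonneg fun _ _ => mul_nonneg (pow_pos c.h0 _).le (sq_nonneg _)

theorem flE_one (v : V) : c.β ^ (4 * c.D) * c.flE {v} ≤ 2 * ∑ z, c.devA z +
    2 * ((Fintype.card V : ℝ) + 1) ^ 2 * ∑ z, c.β ^ cost2 c.W z * c.sm z := by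
  classical
  simp only [flE, mul_sum, ← sum_add_distrib]
  refine sum_le_sum fun z _ => ?_
  obtain ⟨τ, h1, h2, h3⟩ := c.cycle z v
  have a1 := c.le_nu h1
  rw [h2.2.1.cl, h2.2.2.cl] at a1
  have a2 : _ ≤ c.devA z := (mul_le_mul_of_nonneg_right a1 (sq_nonneg _)).trans
    (le_tot (c.nu_sq fun τ z => c.aa τ z - c.gg τ) h1.1 h1.2.1 h1.2.2.1)
  have n0 : 0 ≤ c.sm z := tot_nonneg (fun τ z => by
    split_ifs
    exacts [sq_nonneg _, le_rfl]) z
  have a3 : c.gg τ ^ 2 ≤ ((Fintype.card V : ℝ) + 1) ^ 2 * c.sm z := by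
    have b1 : (τ.k : ℝ) ≤ Fintype.card V := Nat.cast_le.2 h1.1.le_card
    have b2 := (c.gg_le z _ τ rfl h1).trans (mul_le_mul_of_nonneg_right
      (show (τ.k : ℝ) - 1 ≤ Fintype.card V + 1 by linarith) (Real.sqrt_nonneg _))
    rw [← sq_abs, ← Real.sq_sqrt n0, ← mul_pow]
    exact pow_le_pow_left₀ (abs_nonneg _) b2 2
  have a4 := mul_le_mul (mul_le_of_le_one_left (pow_pos c.h0 (cost2 c.W z)).le
    (pow_le_one₀ (n := 4 * c.D) c.h0.le c.h1)) a3 (sq_nonneg _) (pow_pos c.h0 _).le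
  rw [show c.f (fl {v} z).1 - c.f z.1 = c.aa τ z by rw [aa, h3]; rfl]
  nlinarith [mul_nonneg (mul_pos (pow_pos c.h0 (4 * c.D)) (pow_pos c.h0 (cost2 c.W z))).le
    (sq_nonneg (c.aa τ z - 2 * c.gg τ))]

theorem flE_le {B : ℝ} (hB : ∀ v, c.flE {v} ≤ B) (T : Finset V) :
    c.flE T ≤ (T.card : ℝ) ^ 2 * B := by
  induction T using Finset.induction_on with
  | empty =>
    have : ∀ z : PM V × PM V, (fl ∅ z).1 = z.1 := fun z =>
      Subtype.ext (funext fun v => by simp [fl_fst, mem_orb])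
    simp [flE, this]
  | insert v T hv ih =>
    rcases T.eq_empty_or_nonempty with rfl | hT
    · simpa using hB v
    have hn : (0 : ℝ) < T.card := Nat.cast_pos.2 hT.card_pos
    have e : ∑ z, c.β ^ cost2 c.W z * (c.f (fl {v} (fl T z)).1 - c.f (fl T z).1) ^ 2 = c.flE {v} := by
      rw [flE, ← Equiv.sum_comp (Function.Involutive.toPerm (fl T) (fl_fl T))
        fun z => c.β ^ cost2 c.W z * (c.f (fl {v} z).1 - c.f z.1) ^ 2]
      exact sum_congr rfl fun z _ => congrArg (c.β ^ · * _) (cost2_fl c.W T z).symm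
    have key : T.card * c.flE (insert v T) ≤
        (T.card + 1) * c.flE T + T.card * (T.card + 1) * c.flE {v} := by
      rw [← e]
      simp only [flE, mul_sum, ← sum_add_distrib]
      refine sum_le_sum fun z _ => ?_
      have b := (pow_pos c.h0 (cost2 c.W z)).le
      rcases fl_insert v T z with h | h <;> rw [h]
      · nlinarith [mul_nonneg b (sq_nonneg (c.f (fl T z).1 - c.f z.1)),
          mul_nonneg (mul_pos hn (add_pos hn one_pos)).le
            (mul_nonneg b (sq_nonneg (c.f (fl {v} (fl T z)).1 - c.f (fl T z).1)))]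
      · nlinarith [mul_nonneg b (sq_nonneg (c.f (fl T z).1 - c.f z.1 -
          T.card * (c.f (fl {v} (fl T z)).1 - c.f (fl T z).1)))]
    rw [card_insert_of_notMem hv]
    push_cast
    refine le_of_mul_le_mul_left (key.trans ?_) hn
    nlinarith [mul_le_mul_of_nonneg_left ih (add_pos hn one_pos).le,
      mul_le_mul_of_nonneg_left (hB v) (mul_pos hn (add_pos hn one_pos)).le]

theorem main : c.β ^ (30 * c.D) * ∑ z : PM V × PM V, c.β ^ cost2 c.W z * (c.f z.1 - c.f z.2) ^ 2 ≤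
    2 ^ 20 * ((Fintype.card V : ℝ) + 1) ^ 30 *
      (dirSw c.W c.β (fun z => c.f z.1 + c.f z.2) + dirXo c.W c.β fun z => c.f z.1 + c.f z.2) := by
  have a1 : _ * ∑ z, c.devA z ≤ _ := c.dev_le c.var
  have a2 := c.err_le
  have a3 := c.sm_le
  have a4 : 0 ≤ dirSw c.W c.β fun z => c.f z.1 + c.f z.2 :=
    c.sum_swE ▸ sum_nonneg fun z _ => c.swE_nonneg z
  have a5 : 0 ≤ c.β ^ (4 * c.D) * ∑ z, c.devA z :=
    mul_nonneg (pow_pos c.h0 _).le (sum_nonneg fun z _ => c.devA_nonneg z)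
  have hw := pow_pos c.h0 c.D
  have hw1 := pow_le_one₀ (n := c.D) c.h0.le c.h1
  have hM : (1 : ℝ) ≤ Fintype.card V + 1 := by linarith [Nat.cast_nonneg (α := ℝ) (Fintype.card V)]
  have a6 := c.flE_le (B := 66 * ((Fintype.card V : ℝ) + 1) ^ 14 *
    (dirSw c.W c.β (fun z => c.f z.1 + c.f z.2) + dirXo c.W c.β fun z => c.f z.1 + c.f z.2) /
      (c.β ^ c.D) ^ 18) (fun v => ?_) univ
  · have e : c.flE univ = ∑ z : PM V × PM V, c.β ^ cost2 c.W z * (c.f z.1 - c.f z.2) ^ 2 := by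
      have : ∀ z : PM V × PM V, (fl univ z).1 = z.2 := fun z => Subtype.ext (funext fun v => by
        rw [fl_fst, if_pos (mem_orb.2 ⟨v, mem_univ v, .refl⟩)])
      exact sum_congr rfl fun z _ => by rw [this]; ring
    have n0 := c.flE_nonneg univ
    rw [← mul_div_assoc, le_div_iff₀ (pow_pos hw _), card_univ] at a6
    rw [← e, pow_mul', mul_comm]
    refine (mul_le_mul_of_nonneg_left (pow_le_pow_of_le_one hw.le hw1 (by norm_num)) n0).trans
      (a6.trans ?_)
    rw [← mul_assoc]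
    refine mul_le_mul_of_nonneg_right ?_ (by linarith)
    calc _ ≤ ((Fintype.card V : ℝ) + 1) ^ 2 * (66 * ((Fintype.card V : ℝ) + 1) ^ 14) := by
          gcongr; linarith
      _ = 66 * ((Fintype.card V : ℝ) + 1) ^ 16 := by ring
      _ ≤ _ := by gcongr <;> norm_num
  · have b1 := c.flE_one v
    rw [le_div_iff₀ (pow_pos hw _)]
    simp only [pow_mul'] at a1 a2 a3 a5 b1
    have b2 : (1 : ℝ) ≤ ((Fintype.card V : ℝ) + 1) ^ 14 := one_le_pow₀ hM
    generalize c.β ^ c.D = w at *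
    generalize (Fintype.card V : ℝ) + 1 = M at *
    have c1 := mul_le_mul_of_nonneg_left b1 (pow_pos hw 14).le
    have c2 := mul_le_mul_of_nonneg_left a3 (show 0 ≤ 2 * M ^ 2 * w ^ 10 by positivity)
    have c3 := mul_le_mul_of_nonneg_left a2 (show 0 ≤ 4 * M ^ 8 by positivity)
    have c4 := mul_le_mul_of_nonneg_right (pow_le_one₀ (n := 10) hw.le hw1) a5
    have c5 := mul_le_mul_of_nonneg_right b2 (show 0 ≤ dirSw c.W c.β (fun z => c.f z.1 + c.f z.2) +
      dirXo c.W c.β fun z => c.f z.1 + c.f z.2 by linarith)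
    linarith

end Cx

theorem lin {V : Type} [Fintype V] [DecidableEq V] {W d : V → V → ℕ} {D : ℕ} (hU : Ultra W d D)
    {β : ℝ} (h0 : 0 < β) (h1 : β ≤ 1) (f : PM V → ℝ) :
    β ^ (30 * D) * ∑ z : PM V × PM V, β ^ cost2 W z * (f z.1 - f z.2) ^ 2 ≤
      2 ^ 20 * ((Fintype.card V : ℝ) + 1) ^ 30 *
        (dirSw W β (fun z => f z.1 + f z.2) + dirXo W β fun z => f z.1 + f z.2) :=
  Cx.main ⟨W, d, D, β, f, hU, h0, h1⟩

end Vale.Agent.P308
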