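import Vale.Agent.P308.Model
import Vale.Agent.P308.Lin
import Vale.Agent.P308.GapAux

namespace Vale.Agent.P308

open Finset

namespace GapAux

variable {m : ℕ}

/-- the proposals -/
def TT (Q : ℕ) : Finset (Bool × Bool × ℕ × ℕ) := univ ×ˢ univ ×ˢ range Q ×ˢ range Q

/-- the proposed move -/
noncomputable def mm (θ : Bool × Bool × ℕ × ℕ) :
    PM (Fin m) × PM (Fin m) → PM (Fin m) × PM (Fin m) := mv θ.1 θ.2.1 θ.2.2.1 θ.2.2.2

lemma TT_card (Q : ℕ) : ((TT Q).card : ℝ) = 4 * (Q : ℝ) ^ 2 := by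
  simp only [TT, card_product, card_univ, Fintype.card_bool, card_range]
  push_cast
  ring

lemma TT_sum (Q : ℕ) (F : Bool × Bool × ℕ × ℕ → ℝ) :
    ∑ θ ∈ TT Q, F θ = ∑ f, ∑ p, ∑ a ∈ range Q, ∑ b ∈ range Q, F (f, p, a, b) := by
  simp only [TT, sum_product]

lemma mm_inv (θ : Bool × Bool × ℕ × ℕ) : Function.Involutive (mm (m := m) θ) := by
  obtain ⟨f, p, a, b⟩ := θ
  intro z
  simp only [mm, mv]
  split_ifs with h1 h2 h3
  · simp
  · rfl
  · exact xo_xo _ _ _ _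
  · rfl

lemma pairL_eq (W : Fin m → Fin m → ℕ) (β : ℝ) (Q : ℕ) (G : PM (Fin m) × PM (Fin m) → ℝ)
    (z : PM (Fin m) × PM (Fin m)) :
    pairL W β Q G z = G z + (∑ θ ∈ TT Q, β ^ (cost2 W (mm θ z) - cost2 W z) *
      (G (mm θ z) - G z)) / (8 * (Q : ℝ) ^ 2) := by
  rw [TT_sum]
  rfl

lemma sum_range_ge {Q : ℕ} (hm : m ≤ Q) (F : ℕ → ℝ) (hF : ∀ a, 0 ≤ F a) :
    ∑ a : Fin m, F a ≤ ∑ a ∈ range Q, F a := by
  rw [Fin.sum_univ_eq_sum_range]
  exact sum_le_sum_of_subset_of_nonneg (range_mono hm) fun a _ _ => hF a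

lemma dir_ge {Q : ℕ} (W : Fin m → Fin m → ℕ) (hm : m < Q) {β : ℝ} (h0 : 0 ≤ β)
    (G : PM (Fin m) × PM (Fin m) → ℝ) :
    dirSw W β G + dirXo W β G ≤ dir (TT Q) mm (cost2 W) β G G := by
  obtain ⟨F, hF⟩ : ∃ F : Bool → Bool → ℕ → ℕ → ℝ, ∀ f p a b, F f p a b =
      ∑ z, β ^ max (cost2 W z) (cost2 W (mv f p a b z)) * (G (mv f p a b z) - G z) ^ 2 :=
    ⟨_, fun _ _ _ _ => rfl⟩
  have hF0 : ∀ f p a b, 0 ≤ F f p a b := fun f p a b => by
    rw [hF]
    exact sum_nonneg fun z _ => mul_nonneg (pow_nonneg h0 _) (sq_nonneg _)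
  have e : dir (TT Q) mm (cost2 W) β G G =
      ∑ p, ∑ a ∈ range Q, ∑ b ∈ range Q, F true p a b +
        ∑ p, ∑ a ∈ range Q, ∑ b ∈ range Q, F false p a b := by
    rw [dir, TT_sum, Fintype.sum_bool]
    simp only [hF, mm, sq]
  have h1 : dirSw W β G ≤ ∑ p, ∑ a ∈ range Q, ∑ b ∈ range Q, F true p a b := by
    have e1 : dirSw W β G = ∑ a : Fin m, ∑ b : Fin m, F true true a b := by
      rw [dirSw, sum_comm]
      refine sum_congr rfl fun a _ => ?_
      rw [sum_comm]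
      refine sum_congr rfl fun b _ => ?_
      rw [hF]
      refine sum_congr rfl fun z _ => ?_
      simp [mv]
    rw [e1]
    calc ∑ a : Fin m, ∑ b : Fin m, F true true a b
        ≤ ∑ a : Fin m, ∑ b ∈ range Q, F true true a b :=
          sum_le_sum fun a _ => sum_range_ge hm.le (F true true a) (hF0 _ _ _)
      _ ≤ ∑ a ∈ range Q, ∑ b ∈ range Q, F true true a b :=
          sum_range_ge hm.le (fun a => ∑ b ∈ range Q, F true true a b)
            fun a => sum_nonneg fun b _ => hF0 _ _ _ _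
      _ ≤ _ := single_le_sum (f := fun p => ∑ a ∈ range Q, ∑ b ∈ range Q, F true p a b)
            (fun p _ => sum_nonneg fun a _ => sum_nonneg fun b _ => hF0 _ _ _ _) (mem_univ true)
  have h2 : dirXo W β G ≤ ∑ p, ∑ a ∈ range Q, ∑ b ∈ range Q, F false p a b := by
    have e1 : dirXo W β G = ∑ p, ∑ a : Fin m, ∑ b ∈ range (m + 1), F false p a b := by
      rw [dirXo, sum_comm, Fintype.card_fin]
      refine sum_congr rfl fun p _ => ?_
      rw [sum_comm]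
      refine sum_congr rfl fun a _ => ?_
      rw [sum_comm]
      refine sum_congr rfl fun b hb => ?_
      rw [hF]
      have hb' : min b m = b := min_eq_left (Nat.lt_succ_iff.1 (mem_range.1 hb))
      refine sum_congr rfl fun z _ => ?_
      simp [mv, hb']
    rw [e1]
    refine sum_le_sum fun p _ => ?_
    calc ∑ a : Fin m, ∑ b ∈ range (m + 1), F false p a b
        ≤ ∑ a : Fin m, ∑ b ∈ range Q, F false p a b :=
          sum_le_sum fun a _ => sum_le_sum_of_subset_of_nonneg (range_mono hm)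
            fun b _ _ => hF0 _ _ _ _
      _ ≤ _ := sum_range_ge hm.le (fun a => ∑ b ∈ range Q, F false p a b)
            fun a => sum_nonneg fun b _ => hF0 _ _ _ _
  rw [e]
  linarith

lemma dirSw_nonneg (W : Fin m → Fin m → ℕ) {β : ℝ} (h0 : 0 ≤ β)
    (G : PM (Fin m) × PM (Fin m) → ℝ) : 0 ≤ dirSw W β G :=
  sum_nonneg fun _ _ => sum_nonneg fun _ _ => sum_nonneg fun _ _ =>
    mul_nonneg (pow_nonneg h0 _) (sq_nonneg _)

lemma dirXo_ge (W : Fin m → Fin m → ℕ) (hm0 : 0 < m) {β : ℝ} (h0 : 0 ≤ β)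
    (G : PM (Fin m) × PM (Fin m) → ℝ) :
    ∑ z, β ^ cost2 W z * (G (z.2, z.1) - G z) ^ 2 ≤ dirXo W β G := by
  refine sum_le_sum fun z _ => ?_
  obtain ⟨F, hF⟩ : ∃ F : Bool → Fin m → ℕ → ℝ, ∀ p v k, F p v k =
      β ^ max (cost2 W z) (cost2 W (xo p v k z)) * (G (xo p v k z) - G z) ^ 2 :=
    ⟨_, fun _ _ _ => rfl⟩
  have hF0 : ∀ p v k, 0 ≤ F p v k := fun p v k => by
    rw [hF]
    exact mul_nonneg (pow_nonneg h0 _) (sq_nonneg _)
  simp only [← hF]
  calc β ^ cost2 W z * (G (z.2, z.1) - G z) ^ 2 = F true ⟨0, hm0⟩ 0 := by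
        rw [hF, xo_zero]
        have : cost2 W (z.2, z.1) = cost2 W z := by simp only [cost2]; omega
        rw [this, max_self]
    _ ≤ ∑ k ∈ range (Fintype.card (Fin m) + 1), F true ⟨0, hm0⟩ k :=
        single_le_sum (f := F true ⟨0, hm0⟩) (fun k _ => hF0 _ _ _) (by simp)
    _ ≤ ∑ v, ∑ k ∈ range (Fintype.card (Fin m) + 1), F true v k :=
        single_le_sum (f := fun v => ∑ k ∈ range (Fintype.card (Fin m) + 1), F true v k)
          (fun v _ => sum_nonneg fun k _ => hF0 _ _ _) (mem_univ _)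
    _ ≤ _ := single_le_sum
          (f := fun p => ∑ v, ∑ k ∈ range (Fintype.card (Fin m) + 1), F p v k)
          (fun p _ => sum_nonneg fun v _ => sum_nonneg fun k _ => hF0 _ _ _) (mem_univ true)

lemma gap_raw {Q D : ℕ} {W d : Fin m → Fin m → ℕ} (hU : Ultra W d D) (hm0 : 0 < m)
    (hm : m < Q) {β : ℝ} (h0 : 0 < β) (h1 : β ≤ 1) (f g : PM (Fin m) → ℝ)
    (hf : ∑ X : PM (Fin m), β ^ cost W X.1 * f X = 0)
    (hg : ∑ X : PM (Fin m), β ^ cost W X.1 * g X = 0) :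
    β ^ (30 * D) * ((∑ X : PM (Fin m), β ^ cost W X.1) *
      (∑ X : PM (Fin m), β ^ cost W X.1 * f X ^ 2 + ∑ X : PM (Fin m), β ^ cost W X.1 * g X ^ 2)) ≤
      16 * (2 ^ 20 * ((m : ℝ) + 1) ^ 30) * (Q : ℝ) ^ 2 *
        dir (TT Q) mm (cost2 W) β (fun z => f z.1 + g z.2) (fun z => f z.1 + g z.2) := by
  obtain ⟨h, hh⟩ : ∃ h : PM (Fin m) → ℝ, ∀ X, h X = (f X + g X) / 2 := ⟨_, fun _ => rfl⟩
  obtain ⟨k, hk⟩ : ∃ k : PM (Fin m) → ℝ, ∀ X, k X = (f X - g X) / 2 := ⟨_, fun _ => rfl⟩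
  have hh0 : ∑ X : PM (Fin m), β ^ cost W X.1 * h X = 0 := by
    have e : ∑ X : PM (Fin m), β ^ cost W X.1 * h X =
        (∑ X : PM (Fin m), β ^ cost W X.1 * f X + ∑ X : PM (Fin m), β ^ cost W X.1 * g X) / 2 := by
      rw [← sum_add_distrib, sum_div]
      exact sum_congr rfl fun X _ => by rw [hh]; ring
    rw [e, hf, hg]; simp
  have hk0 : ∑ X : PM (Fin m), β ^ cost W X.1 * k X = 0 := by
    have e : ∑ X : PM (Fin m), β ^ cost W X.1 * k X =
        (∑ X : PM (Fin m), β ^ cost W X.1 * f X - ∑ X : PM (Fin m), β ^ cost W X.1 * g X) / 2 := by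
      rw [← sum_sub_distrib, sum_div]
      exact sum_congr rfl fun X _ => by rw [hk]; ring
    rw [e, hf, hg]; simp
  have e1 : ∑ X : PM (Fin m), β ^ cost W X.1 * f X ^ 2 + ∑ X : PM (Fin m), β ^ cost W X.1 * g X ^ 2 =
      2 * ∑ X : PM (Fin m), β ^ cost W X.1 * h X ^ 2 +
        2 * ∑ X : PM (Fin m), β ^ cost W X.1 * k X ^ 2 := by
    rw [mul_sum, mul_sum, ← sum_add_distrib, ← sum_add_distrib]
    exact sum_congr rfl fun X _ => by rw [hh, hk]; ring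
  have ph := pair_sq (fun X : PM (Fin m) => β ^ cost W X.1) h hh0
  have pk := pair_sq (fun X : PM (Fin m) => β ^ cost W X.1) k hk0
  simp only [← pow_add] at ph pk
  have l1 := lin hU h0 h1 h
  rw [Fintype.card_fin] at l1
  have l2 := l1.trans (mul_le_mul_of_nonneg_left (dir_ge W hm h0.le _) (by positivity))
  have l3 := dir_sub (T := TT Q) (m := mm) (c := cost2 W) h0.le (fun z => h z.1 + h z.2)
    (fun z => f z.1 + g z.2) (fun z => k z.1 - k z.2) (fun z => by simp only [hh, hk]; ring)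
  have l4 := dir_le (T := TT Q) (c := cost2 W) mm_inv h0.le h1 (fun z => k z.1 - k z.2)
  have l5 := dirXo_ge W hm0 h0.le (fun z => f z.1 + g z.2)
  have l6 := dir_ge W hm h0.le (fun z => f z.1 + g z.2)
  have l7 := dirSw_nonneg W h0.le (fun z => f z.1 + g z.2)
  have e2 : ∑ z : PM (Fin m) × PM (Fin m), β ^ cost2 W z * (f z.2 + g z.1 - (f z.1 + g z.2)) ^ 2 =
      4 * ∑ z : PM (Fin m) × PM (Fin m), β ^ cost2 W z * (k z.1 - k z.2) ^ 2 := by
    rw [mul_sum]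
    exact sum_congr rfl fun z _ => by rw [hk, hk]; ring
  simp only [e2] at l5
  rw [TT_card] at l4
  unfold cost2 at l2 l4 l5
  rw [ph] at l2
  rw [pk] at l4 l5
  rw [e1]
  have hQ : (1 : ℝ) ≤ Q := by exact_mod_cast (by omega : 1 ≤ Q)
  have hC : (1 : ℝ) ≤ 2 ^ 20 * ((m : ℝ) + 1) ^ 30 := by
    have : (1 : ℝ) ≤ ((m : ℝ) + 1) ^ 30 := one_le_pow₀ (by simp)
    linarith
  exact arith (pow_le_one₀ h0.le h1) hC hQ
    (mul_nonneg (sum_nonneg fun X _ => by positivity) (sum_nonneg fun X _ => by positivity))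
    (dir_nonneg h0.le _) l2 l3 l4 (l5.trans (by linarith))

lemma final_arith {b C Q Zs n dG : ℝ} (hC : 0 < C) (hQ : 0 < Q) (hZ : 0 < Zs)
    (h : b * (Zs * n) ≤ 16 * (2 ^ 20 * C) * Q ^ 2 * dG) :
    b / (2 ^ 28 * C * Q ^ 4) * (n / Zs) ≤ dG / (2 * (8 * Q ^ 2)) / Zs ^ 2 := by
  have e1 : b / (2 ^ 28 * C * Q ^ 4) * (n / Zs) =
      b * (Zs * n) / (2 ^ 28 * C * Q ^ 4 * Zs ^ 2) := by
    field_simp
  have e2 : dG / (2 * (8 * Q ^ 2)) / Zs ^ 2 =
      16 * (2 ^ 20 * C) * Q ^ 2 * dG / (2 ^ 28 * C * Q ^ 4 * Zs ^ 2) := by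
    field_simp
    ring
  rw [e1, e2]
  exact div_le_div_of_nonneg_right h (by positivity)

end GapAux

theorem PairGap.mono {Ω : Type} [Fintype Ω] {π : Ω → ℝ} {P : (Ω × Ω → ℝ) →ₗ[ℝ] (Ω × Ω → ℝ)}
    {γ γ' : ℝ} (h : PairGap π P γ) (hγ : γ' ≤ γ) : PairGap π P γ' :=
  ⟨h.pos, h.sum, h.one, h.symm, h.lazy, fun f g hf hg => le_trans
    (mul_le_mul_of_nonneg_right hγ (add_nonneg
      (sum_nonneg fun x _ => mul_nonneg (h.pos x).le (sq_nonneg _))
      (sum_nonneg fun x _ => mul_nonneg (h.pos x).le (sq_nonneg _)))) (h.gap f g hf hg)⟩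

theorem pair_gap {m Q D : ℕ} {W d : Fin m → Fin m → ℕ} (hU : Ultra W d D) (hm0 : 0 < m)
    (hm : m < Q) [Nonempty (PM (Fin m))] {β : ℝ} (h0 : 0 < β) (h1 : β ≤ 1) :
    PairGap (fun X : PM (Fin m) => β ^ cost W X.1 / ∑ Y : PM (Fin m), β ^ cost W Y.1)
      (pairL W β Q) (β ^ (30 * D) / (2 ^ 28 * ((m : ℝ) + 1) ^ 30 * (Q : ℝ) ^ 4)) := by
  have hZ : 0 < ∑ Y : PM (Fin m), β ^ cost W Y.1 :=
    sum_pos (fun Y _ => pow_pos h0 _) univ_nonempty
  have hraw := GapAux.gap_raw hU hm0 hm h0 h1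
  have h2 : ∀ F : PM (Fin m) × PM (Fin m) → ℝ,
      ∑ z : PM (Fin m) × PM (Fin m), β ^ cost W z.1.1 / (∑ Y : PM (Fin m), β ^ cost W Y.1) *
        (β ^ cost W z.2.1 / ∑ Y : PM (Fin m), β ^ cost W Y.1) * F z =
      (∑ z, β ^ cost2 W z * F z) / (∑ Y : PM (Fin m), β ^ cost W Y.1) ^ 2 := by
    intro F
    rw [sum_div]
    refine sum_congr rfl fun z _ => ?_
    rw [cost2, pow_add]
    ring
  have h3 : ∀ F : PM (Fin m) → ℝ,
      ∑ X : PM (Fin m), β ^ cost W X.1 / (∑ Y : PM (Fin m), β ^ cost W Y.1) * F X =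
      (∑ X : PM (Fin m), β ^ cost W X.1 * F X) / ∑ Y : PM (Fin m), β ^ cost W Y.1 := by
    intro F
    rw [sum_div]
    refine sum_congr rfl fun z _ => ?_
    ring
  have hform := fun G H => GapAux.form (T := GapAux.TT Q) (c := cost2 W) (β := β)
    GapAux.mm_inv G H (pairL W β Q G) (GapAux.pairL_eq W β Q G)
  refine ⟨fun X => div_pos (pow_pos h0 _) hZ, by rw [← sum_div, div_self hZ.ne'], fun z => ?_,
    fun G H => ?_, fun G => ?_, fun f g hf hg => ?_⟩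
  · rw [GapAux.pairL_eq]; simp
  · rw [h2, h2]
    have a1 := hform G H
    have a2 := hform H G
    rw [GapAux.dir_symm, ← a2] at a1
    have e : ∑ z, β ^ cost2 W z * (pairL W β Q G z * H z) -
        ∑ z, β ^ cost2 W z * (G z * pairL W β Q H z) =
        ∑ z, β ^ cost2 W z * (G z * (H z - pairL W β Q H z)) -
          ∑ z, β ^ cost2 W z * (H z * (G z - pairL W β Q G z)) := by
      rw [← sum_sub_distrib, ← sum_sub_distrib]
      exact sum_congr rfl fun z _ => by ring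
    rw [a1, sub_self, sub_eq_zero] at e
    rw [e]
  · rw [h2, h2, hform]
    refine div_le_div_of_nonneg_right ?_ (by positivity)
    exact GapAux.lazy h0.le h1 (by rw [GapAux.TT_card]; ring) G _ (GapAux.pairL_eq W β Q G)
  · rw [h3] at hf hg
    rw [h2, h3, h3, ← add_div, hform (fun z => f z.1 + g z.2) (fun z => f z.1 + g z.2)]
    have hQ : (0 : ℝ) < Q := by exact_mod_cast (by omega : 0 < Q)
    exact GapAux.final_arith (by positivity) hQ hZ
      (hraw f g ((div_eq_zero_iff.1 hf).resolve_right hZ.ne')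
        ((div_eq_zero_iff.1 hg).resolve_right hZ.ne'))

end Vale.Agent.P308
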