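import Vale.Agent.P308.Model

namespace Vale.Agent.P308

open Finset

section
variable {V : Type} [Fintype V] [DecidableEq V] {b b' : V → V → ℝ} {U : Finset V}

theorem haf_mem_PMon {σ : V → V} : σ ∈ PMon U ↔ ∀ v, σ (σ v) = v ∧ (σ v = v ↔ v ∉ U) := by
  simp [PMon]

theorem haf_map_mem {σ : V → V} (h : σ ∈ PMon U) {v : V} (hv : v ∈ U) : σ v ∈ U ∧ σ v ≠ v := by
  rw [haf_mem_PMon] at h
  have h1 : σ v ≠ v := fun e => (h v).2.1 e hv
  refine ⟨?_, h1⟩
  by_contra hc
  have h2 := (h (σ v)).2.2 hc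
  rw [(h v).1] at h2
  exact h1 h2.symm

theorem haf_fibre (b : V → V → ℝ) {x y : V} (hx : x ∈ U) (hy : y ∈ U.erase x) :
    ∑ σ ∈ (PMon U).filter (fun σ => σ x = y), ∏ v ∈ U, b v (σ v)
      = b x y * b y x * haf b ((U.erase x).erase y) := by
  have hyx : y ≠ x := (mem_erase.1 hy).1
  have hyU : y ∈ U := (mem_erase.1 hy).2
  rw [haf, Finset.mul_sum]
  refine Finset.sum_nbij' (fun σ => Function.update (Function.update σ x x) y y)
    (fun τ => Function.update (Function.update τ x y) y x) ?_ ?_ ?_ ?_ ?_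
  · intro σ hσ
    obtain ⟨h1, h2⟩ := mem_filter.1 hσ
    rw [haf_mem_PMon] at h1 ⊢
    have h3 : σ y = x := by rw [← h2, (h1 x).1]
    intro v
    by_cases hvy : v = y
    · subst hvy; simp
    by_cases hvx : v = x
    · subst hvx; simp [hvy]
    have h4 : σ v ≠ y := fun e => hvx (by rw [← (h1 v).1, e, h3])
    have h5 : σ v ≠ x := fun e => hvy (by rw [← (h1 v).1, e, h2])
    simp [hvy, hvx, h4, h5, (h1 v).1, (h1 v).2]
  · intro τ hτ
    rw [haf_mem_PMon] at hτ
    have h2 : τ x = x := (hτ x).2.2 (by simp)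
    have h3 : τ y = y := (hτ y).2.2 (by simp)
    refine mem_filter.2 ⟨haf_mem_PMon.2 (fun v => ?_), by simp [hyx.symm]⟩
    by_cases hvy : v = y
    · subst hvy; simp [hyx.symm, hyU]
    by_cases hvx : v = x
    · subst hvx; simp [hvy, hyx, hx]
    have h4 : τ v ≠ y := fun e => hvy (by rw [← (hτ v).1, e, h3])
    have h5 : τ v ≠ x := fun e => hvx (by rw [← (hτ v).1, e, h2])
    simp [hvy, hvx, h4, h5, (hτ v).1, (hτ v).2]
  · intro σ hσ
    obtain ⟨h1, h2⟩ := mem_filter.1 hσ
    rw [haf_mem_PMon] at h1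
    have h3 : σ y = x := by rw [← h2, (h1 x).1]
    funext v
    by_cases hvy : v = y
    · subst hvy; simp [h3]
    by_cases hvx : v = x
    · subst hvx; simp [hvy, h2]
    simp [hvy, hvx]
  · intro τ hτ
    rw [haf_mem_PMon] at hτ
    have h2 : τ x = x := (hτ x).2.2 (by simp)
    have h3 : τ y = y := (hτ y).2.2 (by simp)
    funext v
    by_cases hvy : v = y
    · subst hvy; simp [h3]
    by_cases hvx : v = x
    · subst hvx; simp [hvy, h2]
    simp [hvy, hvx]
  · intro σ hσ
    obtain ⟨h1, h2⟩ := mem_filter.1 hσ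
    rw [haf_mem_PMon] at h1
    have h3 : σ y = x := by rw [← h2, (h1 x).1]
    rw [← Finset.mul_prod_erase U _ hx, ← Finset.mul_prod_erase (U.erase x) _ hy, h2, h3, mul_assoc]
    congr 2
    refine Finset.prod_congr rfl (fun v hv => ?_)
    have hvy : v ≠ y := (mem_erase.1 hv).1
    have hvx : v ≠ x := (mem_erase.1 (mem_erase.1 hv).2).1
    simp [hvy, hvx]

theorem haf_root (b : V → V → ℝ) {x : V} (hx : x ∈ U) (φ : V → ℝ) :
    ∑ σ ∈ PMon U, (∏ v ∈ U, b v (σ v)) * φ (σ x)
      = ∑ y ∈ U.erase x, b x y * b y x * haf b ((U.erase x).erase y) * φ y := by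
  rw [← Finset.sum_fiberwise_of_maps_to (t := U.erase x) (g := fun σ : V → V => σ x)
    (fun σ hσ => mem_erase.2 ⟨(haf_map_mem hσ hx).2, (haf_map_mem hσ hx).1⟩)]
  refine Finset.sum_congr rfl (fun y hy => ?_)
  rw [← haf_fibre b hx hy, Finset.sum_mul]
  exact Finset.sum_congr rfl (fun σ hσ => by rw [(mem_filter.1 hσ).2])

theorem haf_empty (b : V → V → ℝ) : haf b ∅ = 1 := by
  have : PMon (∅ : Finset V) = {id} := by
    ext σ
    rw [haf_mem_PMon, mem_singleton]
    constructor
    · intro h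
      funext v
      exact (h v).2.2 (by simp)
    · rintro rfl v
      simp
  simp [haf, this]

theorem haf_expand (b : V → V → ℝ) {x : V} (hx : x ∈ U) :
    haf b U = ∑ y ∈ U.erase x, b x y * b y x * haf b ((U.erase x).erase y) := by
  have := haf_root b hx (fun _ => 1)
  simp only [mul_one] at this
  exact this

theorem haf_nonneg (hb : ∀ x y, 0 ≤ b x y) (U : Finset V) : 0 ≤ haf b U :=
  Finset.sum_nonneg (fun _ _ => Finset.prod_nonneg (fun _ _ => hb _ _))

omit [Fintype V] in
theorem haf_card_erase {x y : V} (hx : x ∈ U) (hy : y ∈ U.erase x) :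
    ((U.erase x).erase y).card + 2 = U.card := by
  have h1 := Finset.card_erase_add_one hx
  have h2 := Finset.card_erase_add_one hy
  omega

theorem haf_pos (hb : ∀ x y, 0 < b x y) (hU : Even U.card) : 0 < haf b U := by
  obtain ⟨k, hk⟩ := hU
  induction k generalizing U with
  | zero =>
    rw [Finset.card_eq_zero.1 hk, haf_empty]
    exact one_pos
  | succ k ih =>
    obtain ⟨x, hx⟩ : U.Nonempty := Finset.card_pos.1 (by omega)
    rw [haf_expand b hx]
    have h1 := Finset.card_erase_add_one hx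
    refine Finset.sum_pos (fun y hy => mul_pos (mul_pos (hb _ _) (hb _ _)) (ih ?_))
      (Finset.card_pos.1 (by omega))
    have := haf_card_erase hx hy
    omega

theorem haf_odd (b : V → V → ℝ) (hU : Odd U.card) : haf b U = 0 := by
  obtain ⟨k, hk⟩ := hU
  induction k generalizing U with
  | zero =>
    obtain ⟨x, hx⟩ : U.Nonempty := Finset.card_pos.1 (by omega)
    rw [haf_expand b hx]
    have h1 := Finset.card_erase_add_one hx
    rw [Finset.card_eq_zero.1 (show (U.erase x).card = 0 by omega), Finset.sum_empty]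
  | succ k ih =>
    obtain ⟨x, hx⟩ : U.Nonempty := Finset.card_pos.1 (by omega)
    rw [haf_expand b hx]
    refine Finset.sum_eq_zero (fun y hy => ?_)
    have := haf_card_erase hx hy
    rw [ih (by omega), mul_zero]

theorem haf_mono (hb : ∀ x y, 0 ≤ b x y) (h : ∀ x ∈ U, ∀ y ∈ U, x ≠ y → b x y ≤ b' x y) :
    haf b U ≤ haf b' U :=
  Finset.sum_le_sum (fun _ hσ => Finset.prod_le_prod (fun _ _ => hb _ _)
    (fun v hv => h v hv _ (haf_map_mem hσ hv).1 (haf_map_mem hσ hv).2.symm))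

theorem haf_congr (h : ∀ x ∈ U, ∀ y ∈ U, x ≠ y → b x y = b' x y) : haf b U = haf b' U :=
  Finset.sum_congr rfl (fun _ hσ => Finset.prod_congr rfl
    (fun v hv => h v hv _ (haf_map_mem hσ hv).1 (haf_map_mem hσ hv).2.symm))

theorem haf_scale (b : V → V → ℝ) (r : V → ℝ) (U : Finset V) :
    haf (fun x y => b x y * (r x * r y)) U = haf b U * ∏ v ∈ U, r v ^ 2 := by
  rw [haf, haf, Finset.sum_mul]
  refine Finset.sum_congr rfl (fun σ hσ => ?_)
  have h1 : ∏ v ∈ U, r (σ v) = ∏ v ∈ U, r v :=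
    Finset.prod_nbij' σ σ (fun v hv => (haf_map_mem hσ hv).1) (fun v hv => (haf_map_mem hσ hv).1)
      (fun v _ => (haf_mem_PMon.1 hσ v).1) (fun v _ => (haf_mem_PMon.1 hσ v).1) (fun _ _ => rfl)
  rw [Finset.prod_mul_distrib, Finset.prod_mul_distrib, h1, Finset.prod_pow, sq]

theorem haf_one (hU : Even U.card) :
    haf (fun _ _ => 1) U = ((U.card - 1).doubleFactorial : ℝ) := by
  obtain ⟨k, hk⟩ := hU
  induction k generalizing U with
  | zero =>
    rw [Finset.card_eq_zero.1 hk, haf_empty]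
    simp
  | succ k ih =>
    obtain ⟨x, hx⟩ : U.Nonempty := Finset.card_pos.1 (by omega)
    rw [haf_expand _ hx]
    have h1 := Finset.card_erase_add_one hx
    have h2 : ∀ y ∈ U.erase x, (1 : ℝ) * 1 * haf (fun _ _ => 1) ((U.erase x).erase y)
        = ((k + k - 1).doubleFactorial : ℝ) := by
      intro y hy
      have h3 := haf_card_erase hx hy
      have h4 : ((U.erase x).erase y).card = k + k := by omega
      rw [ih h4, h4, one_mul, one_mul]
    rw [Finset.sum_congr rfl h2, Finset.sum_const, nsmul_eq_mul,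
      show (U.erase x).card = k + k + 1 by omega, show U.card - 1 = k + k + 1 by omega,
      Nat.doubleFactorial_add_one]
    push_cast
    rfl

theorem card_PMon_le (U : Finset V) : (PMon U).card ≤ Fintype.card V ^ Fintype.card V := by
  rw [← Fintype.card_fun]
  exact Finset.card_le_univ _

theorem haf_sum_PM (f : (V → V) → ℝ) : ∑ X : PM V, f X.1 = ∑ σ ∈ PMon (univ : Finset V), f σ := by
  symm
  refine Finset.sum_subtype _ (fun σ => ?_) f
  rw [haf_mem_PMon]
  simp only [mem_univ, not_true_eq_false, iff_false, IsPM]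
  exact ⟨fun h => ⟨fun v => (h v).1, fun v => (h v).2⟩, fun h v => ⟨h.1 v, h.2 v⟩⟩

theorem sum_PM (b : V → V → ℝ) : ∑ X : PM V, ∏ v, b v (X.1 v) = haf b univ :=
  haf_sum_PM (fun σ => ∏ v, b v (σ v))

theorem sum_PM_root (b : V → V → ℝ) (o : V) (φ : V → ℝ) :
    ∑ X : PM V, (∏ v, b v (X.1 v)) * φ (X.1 o) =
      ∑ x ∈ univ.erase o, b o x * b x o * haf b ((univ.erase o).erase x) * φ x := by
  rw [← haf_root b (mem_univ o) φ]
  exact haf_sum_PM (fun σ => (∏ v, b v (σ v)) * φ (σ o))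

end

end Vale.Agent.P308
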