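import Vale.Agent.P308.Basic

/-! Costs of switches and crossovers; a uniqueness principle. -/

set_option linter.unusedSectionVars false

namespace Vale.Agent.P308

open Finset

variable {V : Type} [Fintype V] [DecidableEq V] {W d : V → V → ℕ} {D : ℕ}

theorem sum_exc (s : Finset V) {f g : V → ℕ} (h : ∀ v ∉ s, f v = g v) :
    ∑ v, f v + ∑ v ∈ s, g v = ∑ v, g v + ∑ v ∈ s, f v := by
  rw [← sum_add_sum_compl s f, ← sum_add_sum_compl s g,
    sum_congr rfl fun v (hv : v ∈ sᶜ) => h v (mem_compl.1 hv)]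
  ring

/-- joining `x` to `c` by a switch -/
def jn (x c : V) (X : PM V) : PM V := sw (X.1 x) c X

theorem jn_self {x c : V} (h : x ≠ c) (X : PM V) : (jn x c X).1 x = c := by
  rw [jn, sw_apply, Equiv.swap_apply_of_ne_of_ne (X.ne x).symm h, Equiv.swap_apply_left]

theorem jn_other {x c : V} (h : x ≠ c) (X : PM V) : (jn x c X).1 (X.1 c) = X.1 x := by
  rw [jn, sw_apply, Equiv.swap_apply_of_ne_of_ne (fun h' => h (X.inj h').symm) (X.ne c), X.inv,
    Equiv.swap_apply_right]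

theorem jn_of_ne {x c v : V} (X : PM V) (h1 : v ≠ x) (h2 : v ≠ c) (h3 : v ≠ X.1 x)
    (h4 : v ≠ X.1 c) : (jn x c X).1 v = X.1 v := by
  rw [jn, sw_apply, Equiv.swap_apply_of_ne_of_ne h3 h2, Equiv.swap_apply_of_ne_of_ne
    (fun h => h1 (X.inj h)) fun h => h4 (X.eq_iff.1 h).symm]

theorem jn_eq {x c : V} {X : PM V} (h : X.1 x = c) : jn x c X = X := by rw [jn, h, sw_self]

theorem cost_jn (hW : ∀ x y, W x y = W y x) {x c : V} (h : x ≠ c) (X : PM V) :
    cost W (jn x c X).1 + 2 * W x (X.1 x) + 2 * W c (X.1 c) =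
      cost W X.1 + 2 * W x c + 2 * W (X.1 x) (X.1 c) := by
  by_cases h0 : X.1 x = c
  · rw [jn_eq h0, X.eq_iff.1 h0, h0]
  have h1 : X.1 c ≠ x := fun h' => h0 (X.eq_iff.1 h')
  have h2 : X.1 x ≠ X.1 c := fun h' => h (X.inj h')
  have key := sum_exc {x, c, X.1 x, X.1 c} (f := fun v => W v ((jn x c X).1 v))
    (g := fun v => W v (X.1 v)) fun v hv => by
      simp only [mem_insert, mem_singleton, not_or] at hv
      rw [jn_of_ne X hv.1 hv.2.1 hv.2.2.1 hv.2.2.2]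
  have a1 : x ∉ ({c, X.1 x, X.1 c} : Finset V) := by simp [h, (X.ne x).symm, h1.symm]
  have a2 : c ∉ ({X.1 x, X.1 c} : Finset V) := by simp [(X.ne c).symm, Ne.symm h0]
  simp only [sum_insert a1, sum_insert a2, sum_pair h2] at key
  rw [jn_self h, (jn x c X).eq_iff.1 (jn_self h X), jn_other h,
    (jn x c X).eq_iff.1 (jn_other h X), X.inv, X.inv, hW c x, hW (X.1 x) x, hW (X.1 c) c,
    hW (X.1 c) (X.1 x)] at key
  unfold cost
  omega

theorem mix_in {U : Finset V} (X Y : PM V) {v : V} (hv : v ∈ U) (h : X.1 v ∈ U) :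
    (mix U X Y).1 v = X.1 v := (sameIn_mix U X Y v hv).2 h

theorem mix_out {U : Finset V} {X Y : PM V} (h : Ok2 U X.1 Y.1) {v : V} (hv : v ∉ U)
    (h' : Y.1 v ∉ U) : (mix U X Y).1 v = Y.1 v := (sameOut_mix h v hv).2 h'

theorem mix_port {U : Finset V} {X Y : PM V} (h : Ok2 U X.1 Y.1) {x y : V} (hx : x ∈ U)
    (hx' : X.1 x ∉ U) (hy : y ∈ U) (hy' : Y.1 y ∉ U) : (mix U X Y).1 x = Y.1 y := by
  rw [mix_val h, mixF, if_pos hx, if_neg hx', port_eq h.2.1 hy hy']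

theorem sum_mix (W : V → V → ℕ) (U : Finset V) (A B : V → V) :
    cost W A + cost W B = ∑ v, W v (if v ∈ U then A v else B v) +
      ∑ v, W v (if v ∈ U then B v else A v) := by
  unfold cost
  rw [← sum_add_distrib, ← sum_add_distrib]
  exact sum_congr rfl fun v _ => by split_ifs <;> ring

theorem mix_closed {U : Finset V} {X Y : PM V} (hX : ∀ v ∈ U, X.1 v ∈ U)
    (hY : ∀ v ∈ U, Y.1 v ∈ U) (v : V) : (mix U X Y).1 v = if v ∈ U then X.1 v else Y.1 v := by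
  have h : Ok2 U X.1 Y.1 := ⟨fun a ha _ _ h _ => absurd (hX a ha) h,
    fun a ha _ _ h _ => absurd (hY a ha) h,
    ⟨fun ⟨a, ha, h⟩ => absurd (hX a ha) h, fun ⟨a, ha, h⟩ => absurd (hY a ha) h⟩⟩
  split_ifs with hv
  · exact mix_in X Y hv (hX v hv)
  · exact mix_out h hv fun h' => hv (by simpa [Y.inv] using hY _ h')

theorem cost_mix_closed (W : V → V → ℕ) {U : Finset V} {X Y : PM V} (hX : ∀ v ∈ U, X.1 v ∈ U)
    (hY : ∀ v ∈ U, Y.1 v ∈ U) :
    cost W (mix U X Y).1 + cost W (mix U Y X).1 = cost W X.1 + cost W Y.1 := by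
  rw [sum_mix W U X.1 Y.1]
  simp only [cost, mix_closed hX hY, mix_closed hY hX]

theorem cost_mix_half (W : V → V → ℕ) {U : Finset V} {X Y : PM V} (h : Ok2 U X.1 Y.1) {x y : V}
    (hx : x ∈ U) (hx' : X.1 x ∉ U) (hy : y ∈ U) (hy' : Y.1 y ∉ U) :
    ∑ v, W v (if v ∈ U then (mix U X Y).1 v else (mix U Y X).1 v) + (W x (X.1 x) + W (X.1 x) x) =
      cost W X.1 + (W x (Y.1 y) + W (X.1 x) y) := by
  have key := sum_exc {x, X.1 x}
    (f := fun v => W v (if v ∈ U then (mix U X Y).1 v else (mix U Y X).1 v))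
    (g := fun v => W v (X.1 v)) fun v hv => by
      simp only [mem_insert, mem_singleton, not_or] at hv
      split_ifs with hU
      · rw [mix_in X Y hU (by_contra fun h' => hv.1 (h.1 v hU x hx h' hx'))]
      · rw [mix_out h.symm hU fun h' => hv.2
          (X.eq_iff.1 (h.1 _ h' x hx (by rwa [X.inv]) hx')).symm]
  rw [sum_pair (X.ne x).symm, sum_pair (X.ne x).symm, if_pos hx, if_neg hx', X.inv,
    mix_port h hx hx' hy hy', (mix U Y X).eq_iff.1 (mix_port h.symm hy hy' hx hx')] at key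
  exact key

theorem cost_mix (hW : ∀ x y, W x y = W y x) {U : Finset V} {X Y : PM V} (h : Ok2 U X.1 Y.1)
    {x y : V} (hx : x ∈ U) (hx' : X.1 x ∉ U) (hy : y ∈ U) (hy' : Y.1 y ∉ U) :
    cost W (mix U X Y).1 + cost W (mix U Y X).1 + 2 * W x (X.1 x) + 2 * W y (Y.1 y) =
      cost W X.1 + cost W Y.1 + 2 * W x (Y.1 y) + 2 * W y (X.1 x) := by
  have h1 := cost_mix_half W h hx hx' hy hy'
  have h2 := cost_mix_half W h.symm hy hy' hx hx'
  rw [sum_mix W U (mix U X Y).1 (mix U Y X).1]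
  rw [hW (X.1 x) x, hW (X.1 x) y] at h1
  rw [hW (Y.1 y) y, hW (Y.1 y) x] at h2
  omega

/-- matchings that differ at most at three vertices are equal -/
theorem PM.ext_three {X Y : PM V} {A B C : V → Prop} (hA : ∀ u v, A u → A v → u = v)
    (hB : ∀ u v, B u → B v → u = v) (hC : ∀ u v, C u → C v → u = v)
    (h : ∀ v, X.1 v ≠ Y.1 v → A v ∨ B v ∨ C v) : X = Y := by
  by_contra hne
  obtain ⟨v, hv⟩ : ∃ v, X.1 v ≠ Y.1 v := by
    by_contra h'
    exact hne (Subtype.ext (funext fun v => by_contra fun h'' => h' ⟨v, h''⟩))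
  have e1 : ∀ u, X.1 u ≠ Y.1 u → X.1 (X.1 u) ≠ Y.1 (X.1 u) := fun u hu h' =>
    hu (by rw [X.inv] at h'; exact (Y.eq_iff.1 h'.symm).symm)
  have e2 : X.1 (Y.1 v) ≠ Y.1 (Y.1 v) := fun h' => hv (by rw [Y.inv] at h'; exact X.eq_iff.1 h')
  have n1 := X.ne v
  have n2 := Y.ne v
  have n3 := X.ne (Y.1 v)
  have n4 : X.1 (Y.1 v) ≠ v := fun h' => hv (X.eq_iff.1 h')
  have n5 : X.1 (Y.1 v) ≠ X.1 v := fun h' => n2 (X.inj h')
  have a1 := h _ hv
  have a2 := h _ (e1 _ hv)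
  have a3 := h _ e2
  have a4 := h _ (e1 _ e2)
  grind

end Vale.Agent.P308
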