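import Vale.Agent.P308.LinA

/-! Alternating arcs and their natural contexts. -/

set_option linter.unusedSectionVars false

namespace Vale.Agent.P308

open Finset

theorem typ_iff (q : Bool) (i : ℕ) : typ q i = true ↔ (i + q.toNat) % 2 = 1 := by
  induction i with
  | zero => cases q <;> simp [typ]
  | succ i ih =>
    rw [typ]
    cases h : typ q i <;> simp only [h, Bool.not_false, Bool.not_true, Bool.false_eq_true,
      false_iff, true_iff] at ih ⊢ <;> omega

theorem typ_not (q : Bool) (i : ℕ) : typ (!q) i = !typ q i := by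
  induction i with
  | zero => rfl
  | succ i ih => rw [typ, typ, ih]

theorem typ_typ (q : Bool) (i j : ℕ) : typ (typ q j) i = typ q (i + j) := by
  induction i with
  | zero => simp [typ]
  | succ i ih => rw [typ, ih, Nat.add_right_comm, typ]

/-- an alternating arc: vertices, length, type of the first edge -/
structure Tk (V : Type) where
  l : ℕ → V
  k : ℕ
  p : Bool

namespace Tk

variable {V : Type} [Fintype V] [DecidableEq V] {W d : V → V → ℕ} {D : ℕ} {τ : Tk V} {q : Bool}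
  {Z Z' : PM V} {j : ℕ}

/-- the vertex set -/
def U (τ : Tk V) : Finset V := (range τ.k).image τ.l

/-- distinct vertices, normalised beyond the end -/
structure Good (τ : Tk V) : Prop where
  pos : 1 ≤ τ.k
  inj : ∀ i < τ.k, ∀ j < τ.k, τ.l i = τ.l j → i = j
  clamp : ∀ i, τ.k ≤ i → τ.l i = τ.l (τ.k - 1)

/-- `Z` contains every second edge -/
def Pat (τ : Tk V) (q : Bool) (Z : PM V) : Prop :=
  ∀ i, i + 1 < τ.k → typ q i = true → Z.1 (τ.l i) = τ.l (i + 1)

/-- `Z` is a natural context -/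
def Nt (τ : Tk V) (q : Bool) (Z : PM V) : Prop :=
  τ.Pat q Z ∧ (τ.k % 2 = 0 → q = false → Z.1 (τ.l 0) = τ.l (τ.k - 1))

/-- the open end -/
def en (τ : Tk V) (q : Bool) : V := if q = true then τ.l (τ.k - 1) else τ.l 0

/-- the diameter -/
def diam (d : V → V → ℕ) (τ : Tk V) : ℕ := τ.U.sup fun x => τ.U.sup fun y => d x y

/-- the natural cost -/
def nat (W d : V → V → ℕ) (τ : Tk V) (q : Bool) (Z : PM V) : ℤ :=
  cost W Z.1 + if τ.k % 2 = 0 ∧ q = true then 0 else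
    2 * ((max (τ.diam d) (d (τ.en q) (Z.1 (τ.en q))) : ℕ) - (W (τ.en q) (Z.1 (τ.en q)) : ℤ))

/-- the edges leaving the arc are long -/
def End (d : V → V → ℕ) (τ : Tk V) (q : Bool) (Z : PM V) : Prop :=
  (q = false → τ.diam d ≤ d (τ.l 0) (Z.1 (τ.l 0))) ∧
    (typ q (τ.k - 1) = true → τ.diam d ≤ d (τ.l (τ.k - 1)) (Z.1 (τ.l (τ.k - 1))))

/-- the left part -/
def L (τ : Tk V) (j : ℕ) : Tk V := ⟨fun i => τ.l (min i j), j + 1, τ.p⟩

/-- the right part -/
def R (τ : Tk V) (j : ℕ) : Tk V := ⟨fun i => τ.l (i + (j + 1)), τ.k - (j + 1), typ τ.p (j + 1)⟩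

/-- making a context natural for both parts -/
def fix (τ : Tk V) (j : ℕ) (q : Bool) (Z : PM V) : PM V :=
  if typ q j = true then
    (if q = false then jn (τ.l 0) (τ.l j) Z
    else if (τ.k - (j + 1)) % 2 = 0 then jn (τ.l (τ.k - 1)) (τ.l (j + 1)) Z else Z)
  else Z

/-- closing an even arc -/
def cl (τ : Tk V) (q : Bool) (Z : PM V) : PM V :=
  if τ.k % 2 = 0 ∧ q = false then jn (τ.l 0) (τ.l (τ.k - 1)) Z else Z

theorem mem_U {v : V} : v ∈ τ.U ↔ ∃ i < τ.k, τ.l i = v := by simp [U]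

theorem l_mem {i : ℕ} (h : i < τ.k) : τ.l i ∈ τ.U := mem_U.2 ⟨i, h, rfl⟩

theorem Good.ne (h : τ.Good) {a b : ℕ} (ha : a < τ.k) (hb : b < τ.k) (hab : a ≠ b) :
    τ.l a ≠ τ.l b := fun e => hab (h.inj a ha b hb e)

theorem Good.le_card (h : τ.Good) : τ.k ≤ Fintype.card V := by
  have := card_le_univ τ.U
  rwa [U, card_image_of_injOn fun i hi j hj e => h.inj i (mem_range.1 hi) j (mem_range.1 hj) e,
    card_range] at this

theorem en_mem (h : τ.Good) (q : Bool) : τ.en q ∈ τ.U := by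
  have := h.pos
  unfold en; split_ifs <;> exact l_mem (by omega)

theorem le_diam {x y : V} (hx : x ∈ τ.U) (hy : y ∈ τ.U) : d x y ≤ τ.diam d :=
  (le_sup (f := fun y => d x y) hy).trans (le_sup (f := fun x => τ.U.sup fun y => d x y) hx)

theorem diam_mono {σ : Tk V} (h : σ.U ⊆ τ.U) : σ.diam d ≤ τ.diam d :=
  Finset.sup_le fun _ hx => Finset.sup_le fun _ hy => le_diam (h hx) (h hy)

/-- the index of the partner -/
def nb (q : Bool) (k i : ℕ) : ℕ :=
  if (i + q.toNat) % 2 = 1 then (if i + 1 < k then i + 1 else 0) else if 1 ≤ i then i - 1 else k - 1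

theorem Nt.apply (h : τ.Nt q Z) {i : ℕ} (hi : i < τ.k)
    (he : τ.k % 2 = 1 → i ≠ if q = true then τ.k - 1 else 0) :
    Z.1 (τ.l i) = τ.l (nb q τ.k i) := by
  unfold nb
  split_ifs with h1 h2 h3
  · exact h.1 i h2 ((typ_iff q i).2 h1)
  · rw [show i = τ.k - 1 by omega]
    cases q <;> simp only [Bool.toNat_false, Bool.toNat_true, Bool.false_eq_true, if_false,
      if_true] at h1 he
    · exact Z.eq_iff.1 (h.2 (by omega) rfl)
    · omega
  · have := h.1 (i - 1) (by omega) ((typ_iff q _).2 (by omega))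
    rw [show i - 1 + 1 = i by omega] at this
    exact Z.eq_iff.1 this
  · rw [show i = 0 by omega]
    cases q <;> simp only [Bool.toNat_false, Bool.toNat_true, Bool.false_eq_true, if_false,
      if_true] at h1 he
    · exact h.2 (by omega) rfl
    · omega

theorem Nt.port (hg : τ.Good) (h : τ.Nt q Z) (hk : τ.k % 2 = 1) : Z.1 (τ.en q) ∉ τ.U := by
  intro hm
  obtain ⟨i, hi, e⟩ := mem_U.1 hm
  have e0 : τ.en q = τ.l (if q = true then τ.k - 1 else 0) := by unfold en; split_ifs <;> rfl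
  by_cases hi' : i = if q = true then τ.k - 1 else 0
  · rw [hi', ← e0] at e
    exact Z.ne _ e.symm
  · have e1 := h.apply hi fun _ => hi'
    rw [Z.eq_iff.1 e.symm, e0] at e1
    have := hg.inj _ (by split_ifs <;> omega) _ (by unfold nb; split_ifs <;> omega) e1
    unfold nb at this
    cases q <;> simp only [Bool.toNat_false, Bool.toNat_true, Bool.false_eq_true, if_false,
      if_true] at this hi' <;> split_ifs at this <;> omega

theorem Nt.mem (h : τ.Nt q Z) {v : V} (hv : v ∈ τ.U) (he : τ.k % 2 = 1 → v ≠ τ.en q) :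
    Z.1 v ∈ τ.U := by
  obtain ⟨i, hi, rfl⟩ := mem_U.1 hv
  rw [h.apply hi fun hk e => he hk (by rw [e]; unfold en; split_ifs <;> rfl)]
  exact l_mem (by unfold nb; split_ifs <;> omega)

theorem Nt.out (h : τ.Nt q Z) {v : V} (hv : v ∈ τ.U) (h' : Z.1 v ∉ τ.U) :
    τ.k % 2 = 1 ∧ v = τ.en q := by
  by_contra hc
  exact h' (h.mem hv fun hk e => hc ⟨hk, e⟩)

theorem Nt.val (h : τ.Nt q Z) : Val τ.U Z.1 := fun _ ha _ hb h1 h2 =>
  (h.out ha h1).2.trans (h.out hb h2).2.symm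

theorem Nt.crs (hg : τ.Good) (h : τ.Nt q Z) : Crs τ.U Z.1 ↔ τ.k % 2 = 1 :=
  ⟨fun ⟨_, ha, h1⟩ => (h.out ha h1).1, fun hk => ⟨_, en_mem hg q, h.port hg hk⟩⟩

theorem Nt.ok2 {q' : Bool} (hg : τ.Good) (h : τ.Nt q Z) (h' : τ.Nt q' Z') : Ok2 τ.U Z.1 Z'.1 :=
  ⟨h.val, h'.val, (h.crs hg).trans (h'.crs hg).symm⟩

theorem Nt.sameIn (hg : τ.Good) (h : τ.Nt q Z) (h' : τ.Nt q Z') : SameIn τ.U Z.1 Z'.1 := by
  intro v hv
  by_cases he : τ.k % 2 = 1 ∧ v = τ.en q
  · rw [he.2]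
    exact ⟨iff_of_false (h.port hg he.1) (h'.port hg he.1), fun h1 => absurd h1 (h.port hg he.1)⟩
  · obtain ⟨i, hi, rfl⟩ := mem_U.1 hv
    have e : τ.k % 2 = 1 → i ≠ if q = true then τ.k - 1 else 0 := fun hk e =>
      he ⟨hk, by rw [e]; unfold en; split_ifs <;> rfl⟩
    rw [h.apply hi e, h'.apply hi e]
    exact ⟨Iff.rfl, fun _ => rfl⟩

theorem Nt.of_sameIn (hg : τ.Good) (h : τ.Nt q Z) (hs : SameIn τ.U Z.1 Z'.1) : τ.Nt q Z' := by
  have := hg.pos
  refine ⟨fun i hi ht => ?_, fun hk hq => ?_⟩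
  · rw [(hs _ (l_mem (by omega))).2 (by rw [h.1 i hi ht]; exact l_mem hi), h.1 i hi ht]
  · rw [(hs _ (l_mem (by omega))).2 (by rw [h.2 hk hq]; exact l_mem (by omega)), h.2 hk hq]

theorem le_nat (hU : Ultra W d D) (τ : Tk V) (q : Bool) (Z : PM V) :
    (cost W Z.1 : ℤ) ≤ τ.nat W d q Z + 2 * D := by
  have := hU.ge (τ.en q) (Z.1 (τ.en q))
  unfold nat; split_ifs <;> omega

theorem nat_mix (hU : Ultra W d D) (hg : τ.Good) (h : τ.Nt q Z) (h' : τ.Nt (!q) Z') :
    τ.nat W d q (mix τ.U Z Z') + τ.nat W d (!q) (mix τ.U Z' Z) =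
      τ.nat W d q Z + τ.nat W d (!q) Z' := by
  by_cases hk : τ.k % 2 = 1
  · have ok := h.ok2 hg h'
    have a1 := en_mem hg q
    have a2 := en_mem hg (!q)
    have e := cost_mix hU.W_symm ok a1 (h.port hg hk) a2 (h'.port hg hk)
    have b1 := hU.ultra (τ.en q) (τ.en !q) (Z.1 (τ.en q))
    have b2 := hU.ultra (τ.en q) (τ.en !q) (Z'.1 (τ.en !q))
    have b3 := hU.ultra (τ.en !q) (τ.en q) (Z.1 (τ.en q))
    have b4 := hU.ultra (τ.en !q) (τ.en q) (Z'.1 (τ.en !q))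
    have b5 := le_diam (d := d) a1 a2
    have b6 := le_diam (d := d) a2 a1
    unfold nat
    rw [mix_port ok a1 (h.port hg hk) a2 (h'.port hg hk),
      mix_port ok.symm a2 (h'.port hg hk) a1 (h.port hg hk)]
    simp only [show ¬ τ.k % 2 = 0 by omega, false_and, if_false]
    omega
  · have c1 : ∀ v ∈ τ.U, Z.1 v ∈ τ.U := fun v hv => h.mem hv fun h => absurd h hk
    have c2 : ∀ v ∈ τ.U, Z'.1 v ∈ τ.U := fun v hv => h'.mem hv fun h => absurd h hk
    have e := cost_mix_closed W c1 c2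
    unfold nat
    rw [mix_in _ _ (en_mem hg q) (c1 _ (en_mem hg q)),
      mix_in _ _ (en_mem hg !q) (c2 _ (en_mem hg !q))]
    omega

theorem Good.L (hg : τ.Good) (hj : j + 1 < τ.k) : (τ.L j).Good := by
  refine ⟨by simp [Tk.L], fun a ha b hb e => ?_, fun i hi => ?_⟩
  · simp only [Tk.L] at ha hb e
    have := hg.inj _ (by omega) _ (by omega) e
    omega
  · simp only [Tk.L] at hi ⊢
    congr 1; omega

theorem Good.R (hg : τ.Good) (hj : j + 1 < τ.k) : (τ.R j).Good := by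
  refine ⟨by simp only [Tk.R]; omega, fun a ha b hb e => ?_, fun i hi => ?_⟩
  · simp only [Tk.R] at ha hb e
    have := hg.inj _ (by omega) _ (by omega) e
    omega
  · simp only [Tk.R] at hi ⊢
    rw [hg.clamp _ (by omega)]
    congr 1; omega

theorem mem_L {v : V} : v ∈ (τ.L j).U ↔ ∃ i ≤ j, τ.l i = v := by
  rw [mem_U]
  simp only [Tk.L]
  exact ⟨fun ⟨i, _, e⟩ => ⟨_, min_le_right _ _, e⟩,
    fun ⟨i, hi, e⟩ => ⟨i, by omega, by rwa [min_eq_left hi]⟩⟩

theorem mem_R {v : V} : v ∈ (τ.R j).U ↔ ∃ i, j < i ∧ i < τ.k ∧ τ.l i = v := by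
  rw [mem_U]
  simp only [Tk.R]
  exact ⟨fun ⟨i, _, e⟩ => ⟨_, by omega, by omega, e⟩,
    fun ⟨i, h1, h2, e⟩ => ⟨i - (j + 1), by omega, by rwa [show i - (j + 1) + (j + 1) = i by omega]⟩⟩

theorem L_sub (hj : j + 1 < τ.k) : (τ.L j).U ⊆ τ.U := fun _ hv => by
  obtain ⟨i, hi, rfl⟩ := mem_L.1 hv
  exact l_mem (by omega)

theorem R_sub : (τ.R j).U ⊆ τ.U := fun _ hv => by
  obtain ⟨i, -, hi, rfl⟩ := mem_R.1 hv
  exact l_mem hi

theorem L_or_R {v : V} (hv : v ∈ τ.U) : v ∈ (τ.L j).U ∨ v ∈ (τ.R j).U := by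
  obtain ⟨i, hi, rfl⟩ := mem_U.1 hv
  by_cases h : i ≤ j
  · exact Or.inl (mem_L.2 ⟨i, h, rfl⟩)
  · exact Or.inr (mem_R.2 ⟨i, by omega, hi, rfl⟩)

theorem Good.disj (hg : τ.Good) {v : V} (h1 : v ∈ (τ.L j).U) (h2 : v ∈ (τ.R j).U) : False := by
  obtain ⟨a, ha, rfl⟩ := mem_L.1 h1
  obtain ⟨b, hb, hb', e⟩ := mem_R.1 h2
  have := hg.inj _ hb' _ (by omega) e
  omega

theorem Pat.L (h : τ.Pat q Z) (hj : j + 1 < τ.k) : (τ.L j).Pat q Z := fun i hi ht => by
  simp only [Tk.L] at hi ⊢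
  rw [min_eq_left (by omega), min_eq_left (by omega)]
  exact h i (by omega) ht

theorem Pat.R (h : τ.Pat q Z) : (τ.R j).Pat (typ q (j + 1)) Z := fun i hi ht => by
  simp only [Tk.R] at hi ⊢
  rw [typ_typ] at ht
  rw [h _ (by omega) ht]
  congr 1; omega

theorem jn_pat (hg : τ.Good) (h : τ.Pat q Z) {a b i : ℕ} (ha : a < τ.k) (hb : b < τ.k)
    (hi : i + 1 < τ.k) (ht : typ q i = true) (h1 : i ≠ a) (h2 : i ≠ b) (h3 : i + 1 ≠ a)
    (h4 : i + 1 ≠ b) : (jn (τ.l a) (τ.l b) Z).1 (τ.l i) = τ.l (i + 1) := by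
  have e := h i hi ht
  rw [jn_of_ne Z (hg.ne (by omega) ha h1) (hg.ne (by omega) hb h2)
    (fun h' => hg.ne hi ha h3 (e.symm.trans (Z.eq_iff.1 h'.symm)))
    (fun h' => hg.ne hi hb h4 (e.symm.trans (Z.eq_iff.1 h'.symm))), e]

theorem fix_sw (τ : Tk V) (j : ℕ) (q : Bool) (Z : PM V) : ∃ a b, τ.fix j q Z = sw a b Z := by
  unfold fix jn
  split_ifs
  exacts [⟨_, _, rfl⟩, ⟨_, _, rfl⟩, ⟨τ.l 0, _, (sw_self _ _).symm⟩, ⟨τ.l 0, _, (sw_self _ _).symm⟩]

theorem cl_sw (τ : Tk V) (q : Bool) (Z : PM V) : ∃ a b, τ.cl q Z = sw a b Z := by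
  unfold cl jn
  split_ifs
  exacts [⟨_, _, rfl⟩, ⟨τ.l 0, _, (sw_self _ _).symm⟩]

theorem fix_out (hj : j + 1 < τ.k) (q : Bool) {v : V} (hv : v ∉ τ.U) (hv' : Z.1 v ∉ τ.U) :
    (τ.fix j q Z).1 v = Z.1 v := by
  have key : ∀ a < τ.k, ∀ b < τ.k, (jn (τ.l a) (τ.l b) Z).1 v = Z.1 v := fun a ha b hb =>
    jn_of_ne Z (fun e => hv (e ▸ l_mem ha)) (fun e => hv (e ▸ l_mem hb))
      (fun e => hv' (Z.eq_iff.1 e.symm ▸ l_mem ha)) fun e => hv' (Z.eq_iff.1 e.symm ▸ l_mem hb)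
  unfold fix
  split_ifs
  exacts [key _ (by omega) _ (by omega), key _ (by omega) _ (by omega), rfl, rfl]

theorem fix_L (hg : τ.Good) (hj : j + 1 < τ.k) (h : τ.Nt q Z) :
    (τ.L j).Nt q (τ.fix j q Z) := by
  have ht := typ_iff q j
  unfold fix
  split_ifs with h1 h2 h3
  · subst h2
    simp only [h1, Bool.toNat_false, true_iff] at ht
    refine ⟨fun i hi hi' => ?_, fun _ _ => ?_⟩
    · have := (typ_iff _ _).1 hi'
      simp only [Tk.L, Bool.toNat_false] at hi this ⊢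
      rw [min_eq_left (by omega), min_eq_left (by omega)]
      exact jn_pat hg h.1 (by omega) (by omega) (by omega) hi' (by omega) (by omega) (by omega)
        (by omega)
    · simp only [Tk.L, Nat.zero_min, Nat.add_sub_cancel, min_self]
      exact jn_self (hg.ne (by omega) (by omega) (by omega)) Z
  · refine ⟨fun i hi hi' => ?_, fun _ hq => absurd hq h2⟩
    simp only [Tk.L] at hi ⊢
    rw [min_eq_left (by omega), min_eq_left (by omega)]
    exact jn_pat hg h.1 (by omega) (by omega) (by omega) hi' (by omega) (by omega) (by omega)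
      (by omega)
  · exact ⟨h.1.L hj, fun _ hq => absurd hq h2⟩
  · refine ⟨h.1.L hj, fun hk hq => ?_⟩
    subst hq
    simp only [Bool.toNat_false, Tk.L] at ht hk
    exact absurd (ht.2 (by omega)) h1

theorem fix_R (hg : τ.Good) (hj : j + 1 < τ.k) (h : τ.Nt q Z) :
    (τ.R j).Nt (typ q (j + 1)) (τ.fix j q Z) := by
  have ht := typ_iff q j
  unfold fix
  split_ifs with h1 h2 h3
  · subst h2
    simp only [h1, Bool.toNat_false, true_iff] at ht
    refine ⟨fun i hi hi' => ?_, fun hk _ => ?_⟩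
    · rw [typ_typ] at hi'
      have := (typ_iff _ _).1 hi'
      simp only [Tk.R, Bool.toNat_false] at hi this ⊢
      rw [Nat.add_right_comm i 1]
      exact jn_pat hg h.1 (by omega) (by omega) (by omega) hi' (by omega) (by omega) (by omega)
        (by omega)
    · simp only [Tk.R, zero_add] at hk ⊢
      rw [← h.1 j hj h1, jn_other (hg.ne (by omega) (by omega) (by omega)) Z, h.2 (by omega) rfl]
      congr 1; omega
  · obtain rfl : q = true := by simpa using h2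
    simp only [h1, Bool.toNat_true, true_iff] at ht
    refine ⟨fun i hi hi' => ?_, fun hk _ => ?_⟩
    · rw [typ_typ] at hi'
      have := (typ_iff _ _).1 hi'
      simp only [Tk.R, Bool.toNat_true] at hi this ⊢
      rw [Nat.add_right_comm i 1]
      exact jn_pat hg h.1 (by omega) (by omega) (by omega) hi' (by omega) (by omega) (by omega)
        (by omega)
    · simp only [Tk.R, zero_add] at hk ⊢
      rw [show τ.k - (j + 1) - 1 + (j + 1) = τ.k - 1 by omega]
      exact (jn _ _ Z).eq_iff.1 (jn_self (hg.ne (by omega) (by omega) (by omega)) Z)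
  · exact ⟨h.1.R, fun hk _ => absurd hk h3⟩
  · refine ⟨h.1.R, fun _ hq => ?_⟩
    simp [typ, h1] at hq

theorem fix_cost (hU : Ultra W d D) (hg : τ.Good) (hj : j + 1 < τ.k)
    (hd : d (τ.l j) (τ.l (j + 1)) = τ.diam d) (h : τ.Nt q Z) :
    (cost W (τ.fix j q Z).1 : ℤ) ≤ τ.nat W d q Z + 4 * D ∧
      (τ.L j).nat W d q (τ.fix j q Z) ≤ τ.nat W d q Z + 2 * D ∧
      (τ.R j).nat W d (typ q (j + 1)) (τ.fix j q Z) ≤ τ.nat W d q Z + 2 * D := by
  have ht := typ_iff q j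
  have dL : (τ.L j).diam d ≤ τ.diam d := diam_mono (L_sub hj)
  have dR : (τ.R j).diam d ≤ τ.diam d := diam_mono R_sub
  have eL : ∀ q, (τ.L j).en q = if q = true then τ.l j else τ.l 0 := fun q => by simp [en, L]
  have eR : ∀ q, (τ.R j).en q = if q = true then τ.l (τ.k - 1) else τ.l (j + 1) := fun q => by
    simp only [en, R, zero_add, show τ.k - (j + 1) - 1 + (j + 1) = τ.k - 1 by omega]
  have eT : ∀ q, τ.en q = if q = true then τ.l (τ.k - 1) else τ.l 0 := fun _ => rfl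
  have kL : (τ.L j).k = j + 1 := rfl
  have kR : (τ.R j).k = τ.k - (j + 1) := rfl
  have w0 := hU.le (τ.l j) (τ.l (j + 1))
  unfold fix
  split_ifs with h1 h2 h3
  · subst h2
    have e := h.1 j hj h1
    have n : τ.l 0 ≠ τ.l j := hg.ne (by omega) (by omega) (by have := ht.1 h1; simp at this; omega)
    have c1 := cost_jn hU.W_symm n Z
    have c2 := jn_self n Z
    have c3 := jn_other n Z
    rw [e] at c1 c3
    have u1 := hU.ultra (Z.1 (τ.l 0)) (τ.l 0) (τ.l (j + 1))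
    have u2 := le_diam (d := d) (l_mem (τ := τ) (i := 0) (by omega)) (l_mem hj)
    have u3 := le_diam (d := d) (l_mem (τ := τ) (i := 0) (by omega)) (l_mem (i := j) (by omega))
    have u4 := hU.ge (τ.l 0) (τ.l j)
    have u5 := hU.ge (Z.1 (τ.l 0)) (τ.l (j + 1))
    have u6 := hU.d_symm (Z.1 (τ.l 0)) (τ.l 0)
    have u7 := hU.d_symm (Z.1 (τ.l 0)) (τ.l (j + 1))
    have u8 := hU.W_symm (Z.1 (τ.l 0)) (τ.l (j + 1))
    simp only [nat, typ, h1, eL, eR, eT, Bool.not_true, Bool.false_eq_true, and_false, if_false,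
      c2, c3]
    omega
  · obtain rfl : q = true := by simpa using h2
    have e := Z.eq_iff.1 (h.1 j hj h1)
    have hp := ht.1 h1
    simp only [Bool.toNat_true] at hp
    have n : τ.l (τ.k - 1) ≠ τ.l (j + 1) := hg.ne (by omega) (by omega) (by omega)
    have c1 := cost_jn hU.W_symm n Z
    have c2 := (jn _ _ Z).eq_iff.1 (jn_self n Z)
    have c3 := jn_other n Z
    rw [e] at c1 c3
    have u1 := hU.ultra (Z.1 (τ.l (τ.k - 1))) (τ.l (τ.k - 1)) (τ.l j)
    have u2 := le_diam (d := d) (l_mem (τ := τ) (i := τ.k - 1) (by omega)) (l_mem hj)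
    have u3 := le_diam (d := d) (l_mem (τ := τ) (i := τ.k - 1) (by omega))
      (l_mem (i := j) (by omega))
    have u4 := hU.ge (τ.l (τ.k - 1)) (τ.l (j + 1))
    have u5 := hU.ge (Z.1 (τ.l (τ.k - 1))) (τ.l j)
    have u6 := hU.d_symm (Z.1 (τ.l (τ.k - 1))) (τ.l (τ.k - 1))
    have u7 := hU.d_symm (Z.1 (τ.l (τ.k - 1))) (τ.l j)
    have u8 := hU.W_symm (Z.1 (τ.l (τ.k - 1))) (τ.l j)
    have u9 := hU.W_symm (τ.l j) (τ.l (j + 1))
    have v1 := hU.W_symm (τ.l (τ.k - 1)) (τ.l (j + 1))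
    have v2 := hU.d_symm (τ.l (τ.k - 1)) (τ.l (j + 1))
    simp only [nat, typ, h1, eL, eR, eT, kL, Bool.not_true, Bool.false_eq_true, and_false,
      if_false, if_true, and_true, c2, c3, show ¬ (j + 1) % 2 = 0 by omega,
      show ¬ τ.k % 2 = 0 by omega]
    omega
  · obtain rfl : q = true := by simpa using h2
    have e := h.1 j hj h1
    have hp := ht.1 h1
    simp only [Bool.toNat_true] at hp
    have u1 := hU.W_symm (τ.l j) (τ.l (j + 1))
    have u2 := hU.d_symm (τ.l j) (τ.l (j + 1))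
    simp only [nat, typ, h1, eL, eR, eT, kL, Bool.not_true, Bool.false_eq_true, and_false,
      if_false, if_true, and_true, e, Z.eq_iff.1 e, show ¬ (j + 1) % 2 = 0 by omega,
      show τ.k % 2 = 0 by omega]
    omega
  · refine ⟨(le_nat hU τ q Z).trans (by omega), ?_⟩
    have h2 : typ q (j + 1) = true := by simpa [typ] using h1
    cases q
    · have hp : j % 2 = 0 := by have := mt ht.2 h1; simp at this; omega
      have u1 := hU.ge (τ.l 0) (Z.1 (τ.l 0))
      simp only [nat, h2, eL, eR, eT, kR, Bool.false_eq_true, and_false, if_false, if_true,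
        and_true]
      split_ifs with h3
      · omega
      · have e := h.2 (by omega) rfl
        have u2 := hU.W_symm (τ.l 0) (τ.l (τ.k - 1))
        have u3 := hU.d_symm (τ.l 0) (τ.l (τ.k - 1))
        rw [Z.eq_iff.1 e, e]
        omega
    · have hp : j % 2 = 1 := by have := mt ht.2 h1; simp at this; omega
      have u1 := hU.ge (τ.l (τ.k - 1)) (Z.1 (τ.l (τ.k - 1)))
      simp only [nat, h2, eL, eR, eT, kL, kR, if_true, and_true, show (j + 1) % 2 = 0 by omega]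
      split_ifs <;> omega

theorem cl_nt (hg : τ.Good) (h : τ.Pat q Z) : τ.Nt q (τ.cl q Z) := by
  have := hg.pos
  unfold cl
  split_ifs with h1
  · obtain ⟨h1, rfl⟩ := h1
    refine ⟨fun i hi ht => ?_, fun _ _ => jn_self (hg.ne (by omega) (by omega) (by omega)) Z⟩
    have := (typ_iff _ _).1 ht
    simp only [Bool.toNat_false] at this
    exact jn_pat hg h (by omega) (by omega) hi ht (by omega) (by omega) (by omega) (by omega)
  · exact ⟨h, fun hk hq => absurd ⟨hk, hq⟩ h1⟩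

theorem Nt.cl (h : τ.Nt q Z) : τ.cl q Z = Z := by
  unfold Tk.cl
  split_ifs with h1
  exacts [jn_eq (h.2 h1.1 h1.2), rfl]

theorem cl_nat (hU : Ultra W d D) (hg : τ.Good) (h : τ.End d q Z) :
    τ.nat W d q (τ.cl q Z) ≤ cost W Z.1 + 2 * D := by
  have := hg.pos
  have ht := typ_iff q (τ.k - 1)
  have w1 := hU.le (τ.l 0) (Z.1 (τ.l 0))
  have w2 := hU.le (τ.l (τ.k - 1)) (Z.1 (τ.l (τ.k - 1)))
  unfold cl
  split_ifs with h1
  · obtain ⟨h1, rfl⟩ := h1
    have n : τ.l 0 ≠ τ.l (τ.k - 1) := hg.ne (by omega) (by omega) (by omega)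
    have c1 := cost_jn hU.W_symm n Z
    have a1 := h.1 rfl
    have a2 := h.2 (ht.2 (by simp only [Bool.toNat_false]; omega))
    have u1 := hU.ultra (Z.1 (τ.l 0)) (τ.l 0) (Z.1 (τ.l (τ.k - 1)))
    have u2 := hU.ultra (τ.l 0) (τ.l (τ.k - 1)) (Z.1 (τ.l (τ.k - 1)))
    have u3 := le_diam (d := d) (l_mem (τ := τ) (i := 0) (by omega))
      (l_mem (i := τ.k - 1) (by omega))
    have u4 := hU.ge (Z.1 (τ.l 0)) (Z.1 (τ.l (τ.k - 1)))
    have u5 := hU.d_symm (Z.1 (τ.l 0)) (τ.l 0)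
    simp only [nat, en, Bool.false_eq_true, and_false, if_false, jn_self n]
    omega
  · cases q
    · have a1 := h.1 rfl
      simp only [nat, en, Bool.false_eq_true, and_false, if_false]
      omega
    · simp only [nat, en, if_true, and_true]
      split_ifs with h2
      · omega
      · have a2 := h.2 (ht.2 (by simp only [Bool.toNat_true]; omega))
        omega

theorem End.L (hj : j + 1 < τ.k) (hd : d (τ.l j) (τ.l (j + 1)) = τ.diam d)
    (hp : τ.Pat q Z) (h : τ.End d q Z) : (τ.L j).End d q Z := by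
  have dL : (τ.L j).diam d ≤ τ.diam d := diam_mono (L_sub hj)
  refine ⟨fun hq => dL.trans ?_, fun ht => dL.trans ?_⟩
  · simpa [Tk.L] using h.1 hq
  · simp only [Tk.L, Nat.add_sub_cancel, min_self] at ht ⊢
    rw [hp j hj ht, hd]

theorem End.R (hs : ∀ x y, d x y = d y x) (hj : j + 1 < τ.k)
    (hd : d (τ.l j) (τ.l (j + 1)) = τ.diam d) (hp : τ.Pat q Z) (h : τ.End d q Z) :
    (τ.R j).End d (typ q (j + 1)) Z := by
  have dR : (τ.R j).diam d ≤ τ.diam d := diam_mono R_sub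
  refine ⟨fun hq => dR.trans ?_, fun ht => dR.trans ?_⟩
  · simp only [Tk.R, zero_add]
    rw [Z.eq_iff.1 (hp j hj (by simpa [typ] using hq)), hs, hd]
  · simp only [Tk.R, typ_typ, show τ.k - (j + 1) - 1 + (j + 1) = τ.k - 1 by omega] at ht ⊢
    exact h.2 ht

theorem diam_le (hU : Ultra W d D) {M : ℕ} (h : ∀ i, i + 1 < τ.k → d (τ.l i) (τ.l (i + 1)) ≤ M) :
    τ.diam d ≤ M := by
  have key : ∀ a b, a + b < τ.k → d (τ.l a) (τ.l (a + b)) ≤ M := by
    intro a b
    induction b with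
    | zero => intro _; simp [hU.d_self]
    | succ b ih =>
      intro hb
      exact (hU.ultra _ (τ.l (a + b)) _).trans (max_le (ih (by omega)) (h (a + b) hb))
  refine Finset.sup_le fun x hx => Finset.sup_le fun y hy => ?_
  obtain ⟨a, ha, rfl⟩ := mem_U.1 hx
  obtain ⟨b, hb, rfl⟩ := mem_U.1 hy
  rcases le_total a b with hab | hab
  · obtain ⟨c, rfl⟩ := Nat.exists_eq_add_of_le hab
    exact key a c hb
  · obtain ⟨c, rfl⟩ := Nat.exists_eq_add_of_le hab
    rw [hU.d_symm]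
    exact key b c ha

theorem exists_split (hU : Ultra W d D) (hk : 2 ≤ τ.k) :
    ∃ j, j + 1 < τ.k ∧ d (τ.l j) (τ.l (j + 1)) = τ.diam d := by
  obtain ⟨j, hj, h⟩ := exists_max_image (range (τ.k - 1)) (fun i => d (τ.l i) (τ.l (i + 1)))
    ⟨0, mem_range.2 (by omega)⟩
  have hj' : j + 1 < τ.k := by have := mem_range.1 hj; omega
  exact ⟨j, hj', le_antisymm (le_diam (l_mem (by omega)) (l_mem hj'))
    (diam_le hU fun i hi => h i (mem_range.2 (by omega)))⟩

theorem mix_split (hg : τ.Good) (hj : j + 1 < τ.k) (h : τ.Nt q Z) (h' : τ.Nt (!q) Z') :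
    mix (τ.L j).U (τ.fix j (!q) Z') (τ.fix j q Z) =
      mix (τ.R j).U (τ.fix j q (mix τ.U Z Z')) (τ.fix j (!q) (mix τ.U Z' Z)) := by
  have ok := h.ok2 hg h'
  have a1 := h.of_sameIn hg (sameIn_mix τ.U Z Z')
  have a2 := h'.of_sameIn hg (sameIn_mix τ.U Z' Z)
  have okL := (fix_L hg hj h').ok2 (hg.L hj) (fix_L hg hj h)
  have okR := (fix_R hg hj a1).ok2 (hg.R hj) (fix_R hg hj a2)
  refine PM.ext_three (A := fun v => v ∈ (τ.L j).U ∧ (τ.fix j (!q) Z').1 v ∉ (τ.L j).U)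
    (B := fun v => v ∈ (τ.R j).U ∧ (τ.fix j q Z).1 v ∉ (τ.R j).U)
    (C := fun v => v ∉ τ.U ∧ Z.1 v ∈ τ.U)
    (fun u v hu hv => (fix_L hg hj h').val u hu.1 v hv.1 hu.2 hv.2)
    (fun u v hu hv => (fix_R hg hj h).val u hu.1 v hv.1 hu.2 hv.2)
    (fun u v hu hv => Z.inj (h.val _ hu.2 _ hv.2 (by rw [Z.inv]; exact hu.1)
      (by rw [Z.inv]; exact hv.1))) fun v hv => ?_
  by_contra hc
  simp only [not_or, not_and, not_not] at hc
  apply hv
  by_cases hU : v ∈ τ.U
  · rcases L_or_R (j := j) hU with hL | hR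
    · have b1 := hc.1 hL
      have b2 := ((fix_L hg hj h').sameIn (hg.L hj) (fix_L hg hj a2) v hL).2 b1
      rw [mix_in _ _ hL b1, mix_out okR (fun h => hg.disj hL h) fun h => hg.disj b1 (b2 ▸ h), b2]
    · have b1 := hc.2.1 hR
      have b2 := ((fix_R hg hj h).sameIn (hg.R hj) (fix_R hg hj a1) v hR).2 b1
      rw [mix_out okL (fun h => hg.disj h hR) fun h => hg.disj h b1, mix_in _ _ hR (b2 ▸ b1), b2]
  · have b1 := hc.2.2 hU
    have b2 := fix_out hj q hU b1
    have b3 := mix_out ok.symm hU b1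
    have b4 := fix_out hj (!q) hU (b3 ▸ b1)
    rw [mix_out okL (fun h => hU (L_sub hj h)) fun h => b1 (b2 ▸ L_sub hj h),
      mix_out okR (fun h => hU (R_sub h)) fun h => b1 (b3 ▸ b4 ▸ R_sub h), b2, b4, b3]

end Tk

end Vale.Agent.P308
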