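import Vale.Agent.P308.LinB

/-! Mean effects of flipping an arc, and their almost additivity. -/

set_option linter.unusedSectionVars false

namespace Vale.Agent.P308

open Finset

theorem var_prod {α β : Type} [Fintype α] [Fintype β] {u : α → ℝ} {w : β → ℝ} (hu : ∀ x, 0 ≤ u x)
    (hw : ∀ y, 0 ≤ w y) (A : α → ℝ) (B : β → ℝ) {g : ℝ}
    (h : ∑ z : α × β, u z.1 * w z.2 * (A z.1 - g) = 0) :
    ∑ z : α × β, u z.1 * w z.2 * (A z.1 - g) ^ 2 ≤
      ∑ z : α × β, u z.1 * w z.2 * (A z.1 - B z.2) ^ 2 := by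
  have e1 : (∑ x, u x * (A x - g)) * ∑ y, w y = 0 := by
    rw [← h, sum_mul_sum, Fintype.sum_prod_type]
    exact sum_congr rfl fun x _ => sum_congr rfl fun y _ => by ring
  have e2 : (∑ x, u x * (A x - g)) * ∑ y, w y * (B y - g) = 0 := by
    rcases mul_eq_zero.1 e1 with h1 | h1
    · rw [h1, zero_mul]
    · have := (sum_eq_zero_iff_of_nonneg fun y _ => hw y).1 h1
      rw [sum_eq_zero (f := fun y => w y * (B y - g)) fun y hy => by rw [this y hy, zero_mul],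
        mul_zero]
  rw [sum_mul_sum, ← Fintype.sum_prod_type'] at e2
  have e3 : ∑ z : α × β, u z.1 * w z.2 * (A z.1 - g) ^ 2 -
      2 * ∑ z : α × β, u z.1 * (A z.1 - g) * (w z.2 * (B z.2 - g)) ≤
      ∑ z : α × β, u z.1 * w z.2 * (A z.1 - B z.2) ^ 2 := by
    rw [mul_sum, ← sum_sub_distrib]
    refine sum_le_sum fun z _ => ?_
    nlinarith [mul_nonneg (mul_nonneg (hu z.1) (hw z.2)) (sq_nonneg (B z.2 - g))]
  rwa [e2, mul_zero, sub_zero] at e3

/-- the data of the inequality -/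
structure Cx (V : Type) [Fintype V] [DecidableEq V] where
  W : V → V → ℕ
  d : V → V → ℕ
  D : ℕ
  β : ℝ
  f : PM V → ℝ
  hU : Ultra W d D
  h0 : 0 < β
  h1 : β ≤ 1

variable {V : Type} [Fintype V] [DecidableEq V]

/-- both matchings are natural contexts -/
def Tk.Nat2 (τ : Tk V) (z : PM V × PM V) : Prop := τ.Good ∧ τ.Nt τ.p z.1 ∧ τ.Nt (!τ.p) z.2

/-- the crossover along the arc -/
noncomputable def Tk.io (τ : Tk V) (z : PM V × PM V) : PM V × PM V :=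
  (mix τ.U z.1 z.2, mix τ.U z.2 z.1)

/-- fixing both matchings -/
def Tk.fx (τ : Tk V) (j : ℕ) (z : PM V × PM V) : PM V × PM V :=
  (τ.fix j τ.p z.1, τ.fix j (!τ.p) z.2)

theorem Tk.io_io (τ : Tk V) (z : PM V × PM V) : τ.io (τ.io z) = z := by
  simp only [Tk.io, mix_mix]

theorem Tk.Nat2.io {τ : Tk V} {z : PM V × PM V} (h : τ.Nat2 z) : τ.Nat2 (τ.io z) :=
  ⟨h.1, h.2.1.of_sameIn h.1 (sameIn_mix _ _ _), h.2.2.of_sameIn h.1 (sameIn_mix _ _ _)⟩

theorem Tk.Nat2.L {τ : Tk V} {z : PM V × PM V} {j : ℕ} (h : τ.Nat2 z) (hj : j + 1 < τ.k) :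
    (τ.L j).Nat2 (τ.fx j z) := ⟨h.1.L hj, Tk.fix_L h.1 hj h.2.1, Tk.fix_L h.1 hj h.2.2⟩

theorem Tk.Nat2.R {τ : Tk V} {z : PM V × PM V} {j : ℕ} (h : τ.Nat2 z) (hj : j + 1 < τ.k) :
    (τ.R j).Nat2 (τ.fx j z) :=
  ⟨h.1.R hj, Tk.fix_R h.1 hj h.2.1, by have := Tk.fix_R h.1 hj h.2.2; rwa [typ_not] at this⟩

/-- the arc read off from a pair -/
def own (z : PM V × PM V) (p : Bool) (v : V) (k : ℕ) : Tk V :=
  ⟨fun i => walk z.1.1 z.2.1 p v (min i (k - 1)), k, p⟩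

theorem own_U (z : PM V × PM V) (p : Bool) (v : V) (k : ℕ) :
    (own z p v k).U = arc z.1.1 z.2.1 p v k :=
  image_congr fun i hi => by
    have : i < k := mem_range.1 hi
    simp only [own]; rw [min_eq_left (by omega)]

theorem own_eq {τ : Tk V} {z : PM V × PM V} (hg : τ.Good) (h1 : τ.Pat τ.p z.1)
    (h2 : τ.Pat (!τ.p) z.2) : own z τ.p (τ.l 0) τ.k = τ := by
  have key : ∀ i < τ.k, walk z.1.1 z.2.1 τ.p (τ.l 0) i = τ.l i := by
    intro i
    induction i with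
    | zero => intro _; rfl
    | succ i ih =>
      intro hi
      rw [walk, ih (by omega)]
      split_ifs with h
      · exact h1 i hi h
      · exact h2 i hi (by simpa [typ_not] using h)
  have := hg.pos
  obtain ⟨l, k, p⟩ := τ
  simp only [own, Tk.mk.injEq, and_true]
  funext i
  by_cases hi : i < k
  · rw [min_eq_left (by omega)]; exact key i hi
  · rw [min_eq_right (by omega)]
    exact (key (k - 1) (by simp only at this ⊢; omega)).trans (hg.clamp i (not_lt.1 hi)).symm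

/-- summing over all arcs of a pair -/
noncomputable def tot (F : Tk V → PM V × PM V → ℝ) (z : PM V × PM V) : ℝ :=
  ∑ p, ∑ v, ∑ k ∈ range (Fintype.card V + 1), F (own z p v k) z

theorem tot_nonneg {F : Tk V → PM V × PM V → ℝ} (hF : ∀ τ z, 0 ≤ F τ z) (z : PM V × PM V) :
    0 ≤ tot F z :=
  sum_nonneg fun _ _ => sum_nonneg fun _ _ => sum_nonneg fun _ _ => hF _ _

theorem le_tot {F : Tk V → PM V × PM V → ℝ} (hF : ∀ τ z, 0 ≤ F τ z) {τ : Tk V}
    {z : PM V × PM V} (hg : τ.Good) (h1 : τ.Pat τ.p z.1) (h2 : τ.Pat (!τ.p) z.2) :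
    F τ z ≤ tot F z := by
  conv_lhs => rw [← own_eq hg h1 h2]
  exact ((single_le_sum (f := fun k => F (own z τ.p (τ.l 0) k) z) (fun _ _ => hF _ _)
    (mem_range.2 (Nat.lt_succ_of_le hg.le_card))).trans
    (single_le_sum (f := fun v => ∑ k ∈ range (Fintype.card V + 1), F (own z τ.p v k) z)
      (fun _ _ => sum_nonneg fun _ _ => hF _ _) (mem_univ _))).trans
    (single_le_sum (f := fun p => ∑ v, ∑ k ∈ range (Fintype.card V + 1), F (own z p v k) z)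
      (fun _ _ => sum_nonneg fun _ _ => sum_nonneg fun _ _ => hF _ _) (mem_univ _))

theorem tot_le {F : Tk V → PM V × PM V → ℝ} {z : PM V × PM V} {r M : ℝ} (hM : 0 ≤ M)
    (h : ∀ τ, r * F τ z ≤ M) : r * tot F z ≤ 2 * ((Fintype.card V : ℝ) + 1) ^ 2 * M := by
  have : r * tot F z ≤ ∑ _p : Bool, ∑ _v : V, ∑ _k ∈ range (Fintype.card V + 1), M := by
    simp only [tot, mul_sum]
    exact sum_le_sum fun _ _ => sum_le_sum fun _ _ => sum_le_sum fun _ _ => h _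
  simp only [sum_const, card_range, card_univ, Fintype.card_bool, nsmul_eq_mul] at this
  push_cast at this
  nlinarith [mul_nonneg (Nat.cast_nonneg (α := ℝ) (Fintype.card V)) hM]

/-- summing over switches of both matchings -/
noncomputable def sw4 (H : PM V × PM V → ℝ) (z : PM V × PM V) : ℝ :=
  ∑ s : (V × V) × V × V, H (sw s.1.1 s.1.2 z.1, sw s.2.1 s.2.2 z.2)

theorem le_sw4 {H : PM V × PM V → ℝ} (hH : ∀ z, 0 ≤ H z) {z : PM V × PM V} {X Y : PM V}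
    (hX : ∃ a b, X = sw a b z.1) (hY : ∃ a b, Y = sw a b z.2) : H (X, Y) ≤ sw4 H z := by
  obtain ⟨a, b, rfl⟩ := hX
  obtain ⟨a', b', rfl⟩ := hY
  exact single_le_sum (f := fun s : (V × V) × V × V => H (sw s.1.1 s.1.2 z.1, sw s.2.1 s.2.2 z.2))
    (fun _ _ => hH _) (mem_univ ((a, b), a', b'))

theorem sum_sw4 {H : PM V × PM V → ℝ} (hH : ∀ z, 0 ≤ H z) :
    ∑ z, sw4 H z ≤ ((Fintype.card V : ℝ) + 1) ^ 4 * ∑ z, H z := by
  have key : ∀ s : (V × V) × V × V,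
      ∑ z : PM V × PM V, H (sw s.1.1 s.1.2 z.1, sw s.2.1 s.2.2 z.2) = ∑ z, H z := fun s =>
    Equiv.sum_comp (Function.Involutive.toPerm
      (fun z : PM V × PM V => (sw s.1.1 s.1.2 z.1, sw s.2.1 s.2.2 z.2)) fun z => by simp) H
  simp only [sw4]
  rw [sum_comm]
  simp only [key, sum_const, card_univ, Fintype.card_prod, nsmul_eq_mul]
  push_cast
  refine mul_le_mul_of_nonneg_right ?_ (sum_nonneg fun z _ => hH z)
  rw [show ∀ x : ℝ, x * x * (x * x) = x ^ 4 from fun x => by ring]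
  gcongr
  linarith

namespace Cx

variable (c : Cx V) {τ : Tk V} {z : PM V × PM V}

open Classical in
/-- the natural weight of one matching -/
noncomputable def n1 (τ : Tk V) (q : Bool) (Z : PM V) : ℝ :=
  if τ.Good ∧ τ.Nt q Z then c.β ^ τ.nat c.W c.d q Z else 0

/-- the natural weight of a pair -/
noncomputable def nu (τ : Tk V) (z : PM V × PM V) : ℝ := c.n1 τ τ.p z.1 * c.n1 τ (!τ.p) z.2

/-- the effect of a flip on the first matching -/
noncomputable def aa (τ : Tk V) (z : PM V × PM V) : ℝ := c.f (mix τ.U z.2 z.1) - c.f z.1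

/-- the effect of a flip in the context of the second matching -/
noncomputable def bb (τ : Tk V) (z : PM V × PM V) : ℝ := c.f z.2 - c.f (mix τ.U z.1 z.2)

/-- the mean effect -/
noncomputable def gg (τ : Tk V) : ℝ := (∑ z, c.nu τ z * c.aa τ z) / ∑ z, c.nu τ z

open Classical in
/-- the position of a longest edge -/
noncomputable def sp (τ : Tk V) : ℕ :=
  if h : ∃ j, j + 1 < τ.k ∧ c.d (τ.l j) (τ.l (j + 1)) = τ.diam c.d then h.choose else 0

/-- the defect of additivity -/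
noncomputable def ee (τ : Tk V) : ℝ :=
  if 2 ≤ τ.k then c.gg τ - c.gg (τ.L (c.sp τ)) - c.gg (τ.R (c.sp τ)) else 0

theorem sp_spec (hk : 2 ≤ τ.k) :
    c.sp τ + 1 < τ.k ∧ c.d (τ.l (c.sp τ)) (τ.l (c.sp τ + 1)) = τ.diam c.d := by
  have h := Tk.exists_split c.hU hk
  rw [sp, dif_pos h]
  exact h.choose_spec

theorem zle {n n' : ℤ} {k : ℕ} (h : n' ≤ n + k) : c.β ^ k * c.β ^ n ≤ c.β ^ n' := by
  rw [← zpow_natCast, ← zpow_add₀ c.h0.ne', add_comm]
  exact zpow_le_zpow_right_of_le_one₀ c.h0 c.h1 h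

theorem n1_nonneg (τ : Tk V) (q : Bool) (Z : PM V) : 0 ≤ c.n1 τ q Z := by
  unfold n1; split_ifs
  exacts [(zpow_pos c.h0 _).le, le_rfl]

theorem nu_nonneg (τ : Tk V) (z : PM V × PM V) : 0 ≤ c.nu τ z :=
  mul_nonneg (c.n1_nonneg _ _ _) (c.n1_nonneg _ _ _)

theorem nu_eq (h : τ.Nat2 z) :
    c.nu τ z = c.β ^ (τ.nat c.W c.d τ.p z.1 + τ.nat c.W c.d (!τ.p) z.2) := by
  rw [nu, n1, n1, if_pos ⟨h.1, h.2.1⟩, if_pos ⟨h.1, h.2.2⟩, zpow_add₀ c.h0.ne']

theorem nu_not (h : ¬ τ.Nat2 z) : c.nu τ z = 0 := by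
  unfold nu n1
  split_ifs with h1 h2
  exacts [absurd ⟨h1.1, h1.2, h2.2⟩ h, mul_zero _, zero_mul _, zero_mul _]

theorem nu_io (τ : Tk V) (z : PM V × PM V) : c.nu τ (τ.io z) = c.nu τ z := by
  by_cases h : τ.Nat2 z
  · rw [c.nu_eq h, c.nu_eq h.io]
    exact congrArg _ (Tk.nat_mix c.hU h.1 h.2.1 h.2.2)
  · rw [c.nu_not h, c.nu_not fun h' => h (τ.io_io z ▸ h'.io)]

theorem sum_io (τ : Tk V) (F : PM V × PM V → ℝ) :
    ∑ z, c.nu τ z * F (τ.io z) = ∑ z, c.nu τ z * F z := by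
  rw [← Equiv.sum_comp (Function.Involutive.toPerm τ.io τ.io_io) fun z => c.nu τ z * F z]
  exact sum_congr rfl fun z _ => congrArg (· * _) (c.nu_io τ z).symm

theorem aa_io (τ : Tk V) (z : PM V × PM V) : c.aa τ (τ.io z) = c.bb τ z := by
  simp only [aa, bb, Tk.io, mix_mix]

theorem sum_nu_le {F G : PM V × PM V → ℝ} (h : ∀ z, τ.Nat2 z → F z ≤ G z) :
    ∑ z, c.nu τ z * F z ≤ ∑ z, c.nu τ z * G z := by
  refine sum_le_sum fun z _ => ?_
  by_cases hz : τ.Nat2 z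
  · exact mul_le_mul_of_nonneg_left (h z hz) (c.nu_nonneg _ _)
  · rw [c.nu_not hz, zero_mul, zero_mul]

theorem sum_nu_congr {F G : PM V × PM V → ℝ} (h : ∀ z, τ.Nat2 z → F z = G z) :
    ∑ z, c.nu τ z * F z = ∑ z, c.nu τ z * G z :=
  le_antisymm (c.sum_nu_le fun z hz => (h z hz).le) (c.sum_nu_le fun z hz => (h z hz).ge)

theorem mean (τ : Tk V) : ∑ z, c.nu τ z * (c.aa τ z - c.gg τ) = 0 := by
  by_cases h : ∑ z, c.nu τ z = 0
  · have := (sum_eq_zero_iff_of_nonneg fun z _ => c.nu_nonneg τ z).1 h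
    exact sum_eq_zero fun z hz => by rw [this z hz, zero_mul]
  · simp only [mul_sub, sum_sub_distrib, ← sum_mul, gg]
    field_simp
    ring

theorem var (τ : Tk V) :
    ∑ z, c.nu τ z * (c.aa τ z - c.gg τ) ^ 2 ≤ ∑ z, c.nu τ z * (c.aa τ z - c.bb τ z) ^ 2 := by
  by_cases h : ∃ z, τ.Nat2 z
  · obtain ⟨y, hy⟩ := h
    have key : ∀ {q q' : Bool} {A A' B : PM V}, τ.Nt q A → τ.Nt q A' → τ.Nt q' B →
        mix τ.U A B = mix τ.U A' B := fun h1 h2 h3 =>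
      PM.ext_same ((sameIn_mix _ _ _).val h1.val)
        ((sameIn_mix _ _ _).symm.trans ((h1.sameIn hy.1 h2).trans (sameIn_mix _ _ _)))
        ((sameOut_mix (h1.ok2 hy.1 h3)).symm.trans (sameOut_mix (h2.ok2 hy.1 h3)))
    have e1 : ∀ z, τ.Nat2 z → c.aa τ z = c.aa τ (z.1, y.2) := fun z hz => by
      simp only [aa, key hz.2.2 hy.2.2 hz.2.1]
    have e2 : ∀ z, τ.Nat2 z → c.bb τ z = c.bb τ (y.1, z.2) := fun z hz => by
      simp only [bb, key hz.2.1 hy.2.1 hz.2.2]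
    have e3 := c.mean τ
    rw [c.sum_nu_congr (G := fun z => c.aa τ (z.1, y.2) - c.gg τ) fun z hz => by rw [e1 z hz]] at e3
    rw [c.sum_nu_congr (G := fun z => (c.aa τ (z.1, y.2) - c.gg τ) ^ 2) fun z hz => by rw [e1 z hz],
      c.sum_nu_congr (F := fun z => (c.aa τ z - c.bb τ z) ^ 2)
        (G := fun z => (c.aa τ (z.1, y.2) - c.bb τ (y.1, z.2)) ^ 2)
        fun z hz => by rw [e1 z hz, e2 z hz]]
    exact var_prod (c.n1_nonneg τ τ.p) (c.n1_nonneg τ !τ.p) (fun X => c.aa τ (X, y.2))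
      (fun Y => c.bb τ (y.1, Y)) e3
  · exact c.sum_nu_le fun z hz => absurd ⟨z, hz⟩ h

theorem var' (τ : Tk V) :
    ∑ z, c.nu τ z * (c.bb τ z - c.gg τ) ^ 2 ≤ ∑ z, c.nu τ z * (c.aa τ z - c.bb τ z) ^ 2 := by
  refine le_of_eq_of_le ?_ (c.var τ)
  rw [← c.sum_io τ fun z => (c.aa τ z - c.gg τ) ^ 2]
  simp only [aa_io]

theorem jensen (τ : Tk V) (r : ℝ) :
    ∑ z, c.nu τ z * (c.gg τ - r) ^ 2 ≤ ∑ z, c.nu τ z * (c.aa τ z - r) ^ 2 := by
  have e : ∑ z, c.nu τ z * (c.gg τ - r) ^ 2 +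
      2 * (c.gg τ - r) * ∑ z, c.nu τ z * (c.aa τ z - c.gg τ) ≤
      ∑ z, c.nu τ z * (c.aa τ z - r) ^ 2 := by
    rw [mul_sum, ← sum_add_distrib]
    refine sum_le_sum fun z _ => ?_
    nlinarith [mul_nonneg (c.nu_nonneg τ z) (sq_nonneg (c.aa τ z - c.gg τ))]
  rwa [c.mean, mul_zero, add_zero] at e

theorem gg_one (hk : τ.k = 1) : c.gg τ = 0 := by
  rw [gg, c.sum_nu_congr (G := fun _ => 0) fun z hz => ?_]
  · simp
  have key : ∀ (Z : PM V), ∀ v ∈ τ.U, Z.1 v ∉ τ.U := fun Z v hv h => by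
    obtain ⟨i, hi, rfl⟩ := Tk.mem_U.1 hv
    obtain ⟨j, hj, e⟩ := Tk.mem_U.1 h
    rw [show j = i by omega] at e
    exact Z.ne _ e.symm
  rw [aa, ← PM.ext_same hz.2.1.val (fun v hv => ⟨iff_of_false (key _ v hv) (key _ v hv),
    fun h => absurd h (key _ v hv)⟩) (sameOut_mix (hz.2.2.ok2 hz.1 hz.2.1)), sub_self]

theorem regroup {F G : Tk V → PM V × PM V → ℝ}
    (h : ∀ τ, ∑ z, c.nu τ z * F τ z ≤ ∑ z, c.nu τ z * G τ z) :
    ∑ z, tot (fun τ z => c.nu τ z * F τ z) z ≤ ∑ z, tot (fun τ z => c.nu τ z * G τ z) z := by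
  classical
  have key : ∀ (H : Tk V → PM V × PM V → ℝ) p v k,
      ∑ z, c.nu (own z p v k) z * H (own z p v k) z =
        ∑ τ ∈ univ.image fun z => own z p v k, ∑ z, c.nu τ z * H τ z := by
    intro H p v k
    rw [sum_comm]
    refine sum_congr rfl fun z _ => (sum_eq_single_of_mem (f := fun τ => c.nu τ z * H τ z) _
      (mem_image_of_mem (fun z => own z p v k) (mem_univ z)) fun τ hτ hne => ?_).symm
    obtain ⟨y, -, rfl⟩ := mem_image.1 hτ
    rw [c.nu_not fun h' => hne ?_, zero_mul]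
    simpa [own, walk] using (own_eq h'.1 h'.2.1.1 h'.2.2.1).symm
  have sw3 : ∀ H : Tk V → PM V × PM V → ℝ, ∑ z, tot H z =
      ∑ p, ∑ v, ∑ k ∈ range (Fintype.card V + 1), ∑ z, H (own z p v k) z := fun H => by
    simp only [tot]
    rw [sum_comm]
    refine sum_congr rfl fun p _ => ?_
    rw [sum_comm]
    exact sum_congr rfl fun v _ => sum_comm
  rw [sw3, sw3]
  refine sum_le_sum fun p _ => sum_le_sum fun v _ => sum_le_sum fun k _ => ?_
  rw [key, key]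
  exact sum_le_sum fun τ _ => h τ

theorem dev_le {F : Tk V → PM V × PM V → ℝ}
    (h : ∀ τ, ∑ z, c.nu τ z * F τ z ≤ ∑ z, c.nu τ z * (c.aa τ z - c.bb τ z) ^ 2) :
    c.β ^ (4 * c.D) * ∑ z, tot (fun τ z => c.nu τ z * F τ z) z ≤
      dirXo c.W c.β fun z => c.f z.1 + c.f z.2 := by
  refine (mul_le_mul_of_nonneg_left (c.regroup h) (pow_pos c.h0 _).le).trans ?_
  simp only [dirXo, tot, mul_sum]
  refine sum_le_sum fun z _ => sum_le_sum fun p _ => sum_le_sum fun v _ => sum_le_sum fun k _ => ?_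
  have e : xo p v k z = (own z p v k).io z := by rw [Tk.io, own_U]; rfl
  rw [e]
  generalize own z p v k = τ
  by_cases hz : τ.Nat2 z
  · rw [← mul_assoc, show c.aa τ z - c.bb τ z = c.f (τ.io z).1 + c.f (τ.io z).2 - (c.f z.1 + c.f z.2)
      by simp only [aa, bb, Tk.io]; ring, c.nu_eq hz, ← zpow_natCast _ (max _ _)]
    refine mul_le_mul_of_nonneg_right (c.zle ?_) (sq_nonneg _)
    have a1 := Tk.le_nat c.hU τ τ.p z.1
    have a2 := Tk.le_nat c.hU τ (!τ.p) z.2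
    have a3 := Tk.le_nat c.hU τ τ.p (mix τ.U z.1 z.2)
    have a4 := Tk.le_nat c.hU τ (!τ.p) (mix τ.U z.2 z.1)
    have a5 := Tk.nat_mix c.hU hz.1 hz.2.1 hz.2.2
    simp only [cost2, Tk.io]
    omega
  · rw [c.nu_not hz, zero_mul, mul_zero]
    exact mul_nonneg (pow_pos c.h0 _).le (sq_nonneg _)

/-- switch energy at a pair -/
noncomputable def swE (z : PM V × PM V) : ℝ :=
  ∑ a, ∑ b, c.β ^ max (cost2 c.W z) (cost2 c.W (sw a b z.1, z.2)) * (c.f (sw a b z.1) - c.f z.1) ^ 2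

theorem swE_term (z : PM V × PM V) (a b : V) :
    0 ≤ c.β ^ max (cost2 c.W z) (cost2 c.W (sw a b z.1, z.2)) * (c.f (sw a b z.1) - c.f z.1) ^ 2 :=
  mul_nonneg (pow_pos c.h0 _).le (sq_nonneg _)

theorem swE_nonneg (z : PM V × PM V) : 0 ≤ c.swE z :=
  sum_nonneg fun a _ => sum_nonneg fun b _ => c.swE_term z a b

theorem sum_swE : ∑ z, c.swE z = dirSw c.W c.β fun z => c.f z.1 + c.f z.2 := by
  simp only [swE, dirSw, add_sub_add_right_eq_sub]

theorem le_swE {X Y X' : PM V} (hX : ∃ a b, X' = sw a b X) {n : ℤ} {k : ℕ}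
    (h1 : (cost c.W X.1 : ℤ) + cost c.W Y.1 ≤ n + k) (h2 : (cost c.W X'.1 : ℤ) + cost c.W Y.1 ≤ n + k) :
    c.β ^ k * (c.β ^ n * (c.f X' - c.f X) ^ 2) ≤ c.swE (X, Y) := by
  obtain ⟨a, b, rfl⟩ := hX
  refine le_trans ?_ ((single_le_sum (fun b _ => c.swE_term (X, Y) a b) (mem_univ b)).trans
    (single_le_sum (fun a _ => sum_nonneg fun b _ => c.swE_term (X, Y) a b) (mem_univ a)))
  rw [← mul_assoc, ← zpow_natCast _ (max _ _)]
  refine mul_le_mul_of_nonneg_right (c.zle ?_) (sq_nonneg _)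
  simp only [cost2]
  omega

/-- deviations from the mean effect -/
noncomputable def devA (z : PM V × PM V) : ℝ :=
  tot (fun τ z => c.nu τ z * (c.aa τ z - c.gg τ) ^ 2) z

/-- deviations from the mean effect, second context -/
noncomputable def devB (z : PM V × PM V) : ℝ :=
  tot (fun τ z => c.nu τ z * (c.bb τ z - c.gg τ) ^ 2) z

/-- weighted defects -/
noncomputable def errP (z : PM V × PM V) : ℝ := tot (fun τ z => c.nu τ z * c.ee τ ^ 2) z

theorem nu_sq (F : Tk V → PM V × PM V → ℝ) (τ : Tk V) (z : PM V × PM V) :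
    0 ≤ c.nu τ z * F τ z ^ 2 := mul_nonneg (c.nu_nonneg _ _) (sq_nonneg _)

/-- the four local terms -/
noncomputable def loc (τ : Tk V) (j : ℕ) (z : PM V × PM V) : ℝ :=
  4 * ((c.f (τ.fx j z).2 - c.f z.2) ^ 2 + (c.bb (τ.R j) (τ.fx j z) - c.gg (τ.R j)) ^ 2 +
    ((c.aa (τ.L j) (τ.fx j z) - c.gg (τ.L j)) ^ 2 + (c.f (τ.fx j z).1 - c.f z.1) ^ 2))

theorem ee_le (τ : Tk V) : ∑ z, c.nu τ z * c.ee τ ^ 2 ≤
    ∑ z, c.nu τ z * if 2 ≤ τ.k then c.loc τ (c.sp τ) z else 0 := by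
  unfold ee
  split_ifs with hk
  · obtain ⟨hj, -⟩ := c.sp_spec hk
    generalize c.sp τ = j at hj
    rw [sub_sub]
    refine (c.jensen τ _).trans ?_
    have e := c.sum_io τ fun z =>
      4 * ((c.f (τ.fx j z).2 - c.f z.2) ^ 2 + (c.bb (τ.R j) (τ.fx j z) - c.gg (τ.R j)) ^ 2)
    simp only [loc, mul_add (4 : ℝ) (_ + _), mul_add (c.nu τ _), sum_add_distrib]
    rw [← e, ← sum_add_distrib]
    simp only [← mul_add]
    refine c.sum_nu_le fun z hz => ?_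
    have e1 := Tk.mix_split hz.1 hj hz.2.1 hz.2.2
    simp only [aa, bb, Tk.fx, Tk.io, e1]
    generalize c.f (mix τ.U z.2 z.1) = x1
    generalize c.f (τ.fix j (!τ.p) (mix τ.U z.2 z.1)) = x2
    generalize c.f (mix (τ.R j).U _ _) = x3
    generalize c.f (τ.fix j τ.p z.1) = x4
    generalize c.f z.1 = x5
    generalize c.gg (τ.L j) = gl
    generalize c.gg (τ.R j) = gr
    nlinarith [sq_nonneg (x1 - x2 - (x2 - x3 - gr)), sq_nonneg (x1 - x2 - (x3 - x4 - gl)),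
      sq_nonneg (x1 - x2 - (x4 - x5)), sq_nonneg (x2 - x3 - gr - (x3 - x4 - gl)),
      sq_nonneg (x2 - x3 - gr - (x4 - x5)), sq_nonneg (x3 - x4 - gl - (x4 - x5))]
  · simp

theorem devA_nonneg (z : PM V × PM V) : 0 ≤ c.devA z :=
  tot_nonneg (c.nu_sq fun τ z => c.aa τ z - c.gg τ) z

theorem devB_nonneg (z : PM V × PM V) : 0 ≤ c.devB z :=
  tot_nonneg (c.nu_sq fun τ z => c.bb τ z - c.gg τ) z

theorem big_nonneg (z : PM V × PM V) :
    0 ≤ 4 * (c.swE z.swap + sw4 c.devB z + (sw4 c.devA z + c.swE z)) := by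
  have h1 : 0 ≤ sw4 c.devA z := sum_nonneg fun _ _ => c.devA_nonneg _
  have h2 : 0 ≤ sw4 c.devB z := sum_nonneg fun _ _ => c.devB_nonneg _
  linarith [c.swE_nonneg z, c.swE_nonneg z.swap]

theorem loc_le (τ : Tk V) (z : PM V × PM V) :
    c.β ^ (6 * c.D) * (c.nu τ z * if 2 ≤ τ.k then c.loc τ (c.sp τ) z else 0) ≤
      4 * (c.swE z.swap + sw4 c.devB z + (sw4 c.devA z + c.swE z)) := by
  have nA := c.devA_nonneg
  have nB := c.devB_nonneg
  have n0 := c.big_nonneg z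
  by_cases hz : τ.Nat2 z
  swap
  · rwa [c.nu_not hz, zero_mul, mul_zero]
  split_ifs with hk
  swap
  · rwa [mul_zero, mul_zero]
  obtain ⟨hj, hd⟩ := c.sp_spec hk
  generalize c.sp τ = j at hj hd
  obtain ⟨a1, a2, a3⟩ := Tk.fix_cost c.hU hz.1 hj hd hz.2.1
  obtain ⟨b1, b2, b3⟩ := Tk.fix_cost c.hU hz.1 hj hd hz.2.2
  have c1 := Tk.le_nat c.hU τ τ.p z.1
  have c2 := Tk.le_nat c.hU τ (!τ.p) z.2
  rw [typ_not] at b3
  have hL := hz.L hj
  have hR := hz.R hj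
  have t1 := c.le_swE (Y := z.1) (τ.fix_sw j (!τ.p) z.2)
    (n := τ.nat c.W c.d τ.p z.1 + τ.nat c.W c.d (!τ.p) z.2) (k := 6 * c.D) (by omega) (by omega)
  have t4 := c.le_swE (Y := z.2) (τ.fix_sw j τ.p z.1)
    (n := τ.nat c.W c.d τ.p z.1 + τ.nat c.W c.d (!τ.p) z.2) (k := 6 * c.D) (by omega) (by omega)
  have t2 := (le_tot (c.nu_sq fun τ z => c.bb τ z - c.gg τ) hR.1 hR.2.1.1 hR.2.2.1).trans
    (le_sw4 nB (τ.fix_sw j τ.p z.1) (τ.fix_sw j (!τ.p) z.2))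
  have t3 := (le_tot (c.nu_sq fun τ z => c.aa τ z - c.gg τ) hL.1 hL.2.1.1 hL.2.2.1).trans
    (le_sw4 nA (τ.fix_sw j τ.p z.1) (τ.fix_sw j (!τ.p) z.2))
  have s2 : c.β ^ (6 * c.D) * c.nu τ z ≤ c.nu (τ.R j) (τ.fx j z) := by
    rw [c.nu_eq hz, c.nu_eq hR]
    exact c.zle (by simp only [Tk.fx, show (τ.R j).p = typ τ.p (j + 1) from rfl]; omega)
  have s3 : c.β ^ (6 * c.D) * c.nu τ z ≤ c.nu (τ.L j) (τ.fx j z) := by
    rw [c.nu_eq hz, c.nu_eq hL]
    exact c.zle (by simp only [Tk.fx, show (τ.L j).p = τ.p from rfl]; omega)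
  have u2 := (mul_le_mul_of_nonneg_right s2 (sq_nonneg _)).trans t2
  have u3 := (mul_le_mul_of_nonneg_right s3 (sq_nonneg _)).trans t3
  rw [← c.nu_eq hz] at t1 t4
  simp only [loc, Tk.fx] at *
  change _ ≤ c.swE z.swap at t1
  nlinarith

theorem err_le : c.β ^ (10 * c.D) * ∑ z, c.errP z ≤ 16 * ((Fintype.card V : ℝ) + 1) ^ 6 *
    (dirSw c.W c.β (fun z => c.f z.1 + c.f z.2) + dirXo c.W c.β fun z => c.f z.1 + c.f z.2) := by
  have a1 : _ * ∑ z, c.devA z ≤ _ := c.dev_le c.var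
  have a2 : _ * ∑ z, c.devB z ≤ _ := c.dev_le c.var'
  have a3 := sum_sw4 c.devA_nonneg
  have a4 := sum_sw4 c.devB_nonneg
  have a5 : _ * ∑ z, c.errP z ≤ _ :=
    mul_le_mul_of_nonneg_left (c.regroup c.ee_le) (pow_pos c.h0 (6 * c.D)).le
  have a6 := sum_le_sum fun z (_ : z ∈ univ) =>
    tot_le (F := fun τ z => c.nu τ z * if 2 ≤ τ.k then c.loc τ (c.sp τ) z else 0)
      (c.big_nonneg z) fun τ => c.loc_le τ z
  have a7 : ∑ z : PM V × PM V, c.swE z.swap = ∑ z, c.swE z :=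
    Equiv.sum_comp (Equiv.prodComm _ _) c.swE
  have a8 : 0 ≤ ∑ z, c.swE z := sum_nonneg fun z _ => c.swE_nonneg z
  simp only [← mul_sum, sum_add_distrib, a7] at a6
  rw [← c.sum_swE, show 10 * c.D = 4 * c.D + 6 * c.D by ring, pow_add, mul_assoc]
  have b0 := (pow_pos c.h0 (4 * c.D)).le
  have b1 := pow_le_one₀ (n := 4 * c.D) c.h0.le c.h1
  have b2 : (1 : ℝ) ≤ ((Fintype.card V : ℝ) + 1) ^ 4 :=
    one_le_pow₀ (by linarith [Nat.cast_nonneg (α := ℝ) (Fintype.card V)])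
  rw [show ((Fintype.card V : ℝ) + 1) ^ 6 = ((Fintype.card V : ℝ) + 1) ^ 2 *
    ((Fintype.card V : ℝ) + 1) ^ 4 by ring]
  have b3 : (0 : ℝ) ≤ ((Fintype.card V : ℝ) + 1) ^ 2 := by positivity
  generalize ((Fintype.card V : ℝ) + 1) ^ 4 = M at *
  generalize ((Fintype.card V : ℝ) + 1) ^ 2 = N at *
  generalize c.β ^ (4 * c.D) = w at *
  have c1 := mul_le_mul_of_nonneg_left (a5.trans a6) b0
  have c2 := mul_le_mul_of_nonneg_left a3 b0
  have c3 := mul_le_mul_of_nonneg_left a4 b0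
  have c4 := mul_le_mul_of_nonneg_left a1 (zero_le_one.trans b2)
  have c5 := mul_le_mul_of_nonneg_left a2 (zero_le_one.trans b2)
  have c6 := mul_le_mul_of_nonneg_right (b1.trans b2) a8
  refine c1.trans ?_
  rw [show ∀ x : ℝ, w * (2 * N * x) = N * (2 * w * x) from fun _ => by ring,
    show ∀ x : ℝ, 16 * (N * M) * x = N * (16 * M * x) from fun _ => by ring]
  exact mul_le_mul_of_nonneg_left (by linarith) b3

end Cx

end Vale.Agent.P308
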