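import Vale.Agent.P308.Proc
import Vale.Agent.P308.Count
import Vale.Agent.P308.AlgoPT
import Vale.Agent.P308.Bridge2
import Vale.Agent.Lib.PolyTime.Machine

namespace Vale.Agent.P308

open Finset

namespace MainAux

open Vale.Agent.Lib.PolyTime

theorem poly_bound (C : ℕ) (p : Polynomial ℕ) : ∃ k : ℕ, ∀ (x : ℕ) (y : ℝ), 1 ≤ y → x ≤ C * y →
    ((p.eval x : ℕ) : ℝ) ≤ k * y ^ k := by
  induction p using Polynomial.induction_on' with
  | add p q hp hq =>
    obtain ⟨a, ha⟩ := hp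
    obtain ⟨b, hb⟩ := hq
    refine ⟨a + b, fun x y hy hx => ?_⟩
    have h1 := mul_le_mul_of_nonneg_left (pow_le_pow_right₀ hy (Nat.le_add_right a b))
      (Nat.cast_nonneg (α := ℝ) a)
    have h2 := mul_le_mul_of_nonneg_left (pow_le_pow_right₀ hy (Nat.le_add_left b a))
      (Nat.cast_nonneg (α := ℝ) b)
    rw [Polynomial.eval_add]
    push_cast
    linarith [ha x y hy hx, hb x y hy hx]
  | monomial d a =>
    refine ⟨a * C ^ d + d, fun x y hy hx => ?_⟩
    rw [Polynomial.eval_monomial]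
    push_cast
    calc _ ≤ (a : ℝ) * (C * y) ^ d := by gcongr
      _ = a * C ^ d * y ^ d := by ring
      _ ≤ _ := mul_le_mul (le_add_of_nonneg_right (Nat.cast_nonneg _))
          (pow_le_pow_right₀ hy (Nat.le_add_left _ _)) (by positivity) (by positivity)

theorem size_ceil {ε : ℝ} (h0 : 0 < ε) (h1 : ε < 1) :
    (Nat.size ⌈1 / ε⌉₊ : ℝ) ≤ 2 + 2 * Real.log (1 / ε) := by
  have a1 : 1 < 1 / ε := one_lt_one_div h0 h1
  have a2 : (2 : ℝ) ^ Nat.size ⌈1 / ε⌉₊ ≤ 2 * ⌈1 / ε⌉₊ := by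
    exact_mod_cast two_pow_size_le (Nat.ceil_pos.2 (by linarith))
  have a3 := Nat.ceil_lt_add_one (by linarith : 0 ≤ 1 / ε)
  have a4 := Real.log_le_log (by positivity)
    (by linarith : (2 : ℝ) ^ Nat.size ⌈1 / ε⌉₊ ≤ 2 ^ 2 * (1 / ε))
  rw [Real.log_mul (by positivity) (by positivity), Real.log_pow, Real.log_pow] at a4
  have a5 := Real.log_pos a1
  have a6 := Real.log_two_gt_d9
  push_cast at a4
  nlinarith

theorem code_length (l : List ℕ) : (code l).length = (l.map fun a => 2 * Nat.size a + 1).sum := by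
  simp [code, List.length_flatMap, ← Nat.size_eq_bits_len, mul_comm]

theorem input_length {n T : ℕ} (G : SimpleGraph (Fin n)) (ε δ : ℝ) (ω : Fin T → Bool)
    (hT : 65536 + n + ⌈1 / ε⌉₊ + Nat.size ⌈1 / δ⌉₊ ≤ T) :
    (code (input G ε δ ω)).length ≤ 15 * T ^ 3 := by
  classical
  have h1 : (input G ε δ ω).length = 3 + n * n + T := by
    simp [input, List.length_flatten, List.map_ofFn, List.sum_ofFn, Function.comp]
    omega
  have h2 : ∀ a ∈ input G ε δ ω, Nat.size a ≤ T := by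
    have h3 : ∀ a ≤ T, Nat.size a ≤ T := fun a ha => (sz_nat_le a).trans ha
    intro a ha
    simp only [input, List.mem_append, List.mem_cons, List.not_mem_nil, or_false,
      List.mem_flatten, List.mem_ofFn] at ha
    rcases ha with ((rfl | rfl | rfl) | ⟨_, ⟨u, rfl⟩, h4⟩) | ⟨t, rfl⟩
    · exact h3 _ (by omega)
    · exact h3 _ (by omega)
    · omega
    · obtain ⟨v, rfl⟩ := List.mem_ofFn.1 h4
      exact h3 _ (by split_ifs <;> omega)
    · exact h3 _ ((Bool.toNat_le _).trans (by omega))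
  rw [code_length]
  refine (List.sum_le_card_nsmul _ (2 * T + 1) fun x hx => ?_).trans ?_
  · obtain ⟨a, ha, rfl⟩ := List.mem_map.1 hx
    have := h2 a ha
    omega
  · rw [List.length_map, h1, smul_eq_mul]
    have h4 : n * n ≤ T * T := Nat.mul_le_mul (by omega) (by omega)
    have h5 : T ≤ T * T := Nat.le_mul_self T
    calc _ ≤ (5 * (T * T)) * (3 * T) := Nat.mul_le_mul (by omega) (by omega)
      _ = _ := by ring

theorem coins_le : ∃ P : Polynomial ℕ, ∀ a : Par, a.m < QQ a.q →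
    a.CC + QQ a.q ≤ P.eval (QQ a.q) := by
  refine ⟨Polynomial.X ^ 1000 * (Polynomial.X * Polynomial.X ^ 2) +
    (Polynomial.X ^ 512 + 3 * Polynomial.X * Polynomial.X ^ 510) * (Polynomial.X ^ 1303 *
      (2 * (1000 * Polynomial.X) + (3 + 2 * Polynomial.X + Polynomial.X ^ 522 *
        (510 * Polynomial.X)))) + Polynomial.X, fun a h => ?_⟩
  have h1 : a.q ≤ QQ a.q := Nat.lt_two_pow_self.le
  simp only [Polynomial.eval_add, Polynomial.eval_mul, Polynomial.eval_pow, Polynomial.eval_X,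
    Polynomial.eval_ofNat, Par.CC, Par.C0, TT, T1, DD, JJ, Bs, Bp]
  gcongr

theorem machine {f : List ℕ → List ℕ} (hf : PT f) :
    ∃ M : Turing.TM2ComputableInPolyTime code code f, ∀ s, Finite (M.tm.Γ s) :=
  PT.machine hf id id f fun _ => rfl

theorem count_good {T : ℕ} (bad : List Bool → ℝ) (good : (Fin T → Bool) → Prop) {δ : ℝ}
    (h0 : ∀ w, 0 ≤ bad w) (h1 : ∀ ω, ¬ good ω → 1 ≤ bad (List.ofFn ω)) (h2 : Ex T bad ≤ δ) :
    (1 - δ) * 2 ^ T ≤ ({ω | good ω}.ncard : ℝ) := by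
  classical
  rw [Ex_ofFn, div_le_iff₀ (by positivity)] at h2
  have h3 : ∑ _ω : Fin T → Bool, (1 : ℝ) ≤
      ∑ ω : Fin T → Bool, ((if good ω then 1 else 0) + bad (List.ofFn ω)) :=
    Finset.sum_le_sum fun ω _ => by
      split_ifs with h
      · linarith [h0 (List.ofFn ω)]
      · linarith [h1 ω h]
  have h4 : {ω | good ω}.ncard = (univ.filter good).card := by
    rw [← Set.ncard_coe_finset]
    congr 1
    ext ω
    simp
  rw [Finset.sum_add_distrib, Finset.sum_boole] at h3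
  simp only [sum_const, card_univ, Fintype.card_pi, Fintype.card_bool, prod_const,
    Fintype.card_fin, nsmul_eq_mul, mul_one] at h3
  push_cast at h3
  rw [h4]
  linarith

end MainAux

open MainAux Vale.Agent.Lib.PolyTime in
theorem main : ∃ (F : List ℕ → List ℕ) (M : Turing.TM2ComputableInPolyTime code code F) (k : ℕ),
    (∀ s, Finite (M.tm.Γ s)) ∧
    ∀ (n : ℕ) (G : SimpleGraph (Fin n)) (ε δ : ℝ), 0 < ε → ε < 1 → 0 < δ → δ < 1 / 2 →
      ∀ T : ℕ, (k : ℝ) * (n + 1 / ε + Real.log (1 / δ)) ^ k ≤ T →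
        (∀ ω : Fin T → Bool, ((M.time.eval (code (input G ε δ ω)).length : ℕ) : ℝ) ≤
          k * (n + 1 / ε + Real.log (1 / δ) + T) ^ k) ∧
        (1 - δ) * 2 ^ T ≤ ({ω : Fin T → Bool | ∃ z : ℕ, F (input G ε δ ω) = [z] ∧
          (1 - ε) * numPM G ≤ z ∧ (z : ℝ) ≤ (1 + ε) * numPM G}.ncard : ℝ) := by
  obtain ⟨M, hM⟩ := machine pt_algo
  obtain ⟨P, hP⟩ := coins_le
  obtain ⟨k₁, h₁⟩ := poly_bound 131082 P
  obtain ⟨k₂, h₂⟩ := poly_bound 15 M.time
  refine ⟨algo, M, k₁ + 3 * k₂, hM, fun n G ε δ e0 e1 d0 d1 T hT => ?_⟩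
  have mono : ∀ (a b : ℕ) (y : ℝ), 1 ≤ y → a ≤ b → a * y ^ a ≤ b * y ^ b := fun a b y hy hab =>
    mul_le_mul (Nat.cast_le.2 hab) (pow_le_pow_right₀ hy hab) (by positivity) (by positivity)
  have d2 : δ < 1 := by linarith
  have a1 := one_lt_one_div e0 e1
  have a2 := Real.log_pos (one_lt_one_div d0 d2)
  have a3 := size_ceil d0 d2
  have a4 := Nat.ceil_lt_add_one (by linarith : 0 ≤ 1 / ε)
  have a5 : (0 : ℝ) ≤ n := Nat.cast_nonneg _
  have a6 : (0 : ℝ) ≤ T := Nat.cast_nonneg _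
  obtain ⟨q, hq⟩ : ∃ q, q = Nat.size (65536 + n + ⌈1 / ε⌉₊ + Nat.size ⌈1 / δ⌉₊) := ⟨_, rfl⟩
  have c1 : QQ q ≤ 2 * (65536 + n + ⌈1 / ε⌉₊ + Nat.size ⌈1 / δ⌉₊) :=
    hq ▸ two_pow_size_le (by omega)
  have c2 : 65536 + n + ⌈1 / ε⌉₊ + Nat.size ⌈1 / δ⌉₊ < QQ q := hq ▸ Nat.lt_size_self _
  have c3 : 16 ≤ q := hq ▸ (Nat.lt_size.2 (by omega)).le
  have hok := par_ok G c3 (by omega)
  have hS : 1 ≤ n + 1 / ε + Real.log (1 / δ) := by linarith
  have c4 : (QQ q : ℝ) ≤ (131082 : ℕ) * (n + 1 / ε + Real.log (1 / δ)) := by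
    have := (Nat.cast_le (α := ℝ)).2 c1
    push_cast at this ⊢
    linarith
  have hT' : (par G q).CC + QQ q ≤ T := (hP (par G q) hok.lt).trans (Nat.cast_le.1
    ((h₁ _ _ hS c4).trans ((mono _ _ _ hS (Nat.le_add_right _ _)).trans hT)))
  have hT'' : 65536 + n + ⌈1 / ε⌉₊ + Nat.size ⌈1 / δ⌉₊ ≤ T := by omega
  refine ⟨fun ω => ?_, ?_⟩
  · have hS' : 1 ≤ n + 1 / ε + Real.log (1 / δ) + T := by linarith
    have b1 : ((code (input G ε δ ω)).length : ℝ) ≤
        (15 : ℕ) * (n + 1 / ε + Real.log (1 / δ) + T) ^ 3 := by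
      refine le_trans (Nat.cast_le.2 (input_length G ε δ ω hT'')) ?_
      push_cast
      gcongr
      linarith
    refine (h₂ _ _ (one_le_pow₀ hS') b1).trans (le_trans ?_ (mono _ _ _ hS' (Nat.le_add_left _ _)))
    rw [← pow_mul]
    gcongr
    omega
  · refine count_good _ _ (fun w => ?_) (fun ω hω => ?_)
      ((Par.proc hok (pm0 (par_even G q)) (T := T) (by omega)).trans ?_)
    · unfold Par.bad
      split_ifs <;> norm_num
    · unfold Par.bad
      rw [if_neg]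
      intro h
      rw [par_cnt] at h
      have b1 : (numPM G : ℝ) / QQ (par G q).q ≤ ε * numPM G := by
        have b2 : 1 / ε ≤ QQ q := (Nat.le_ceil _).trans (Nat.cast_le.2 (by omega))
        have b3 : (0 : ℝ) < QQ q := by linarith
        change (numPM G : ℝ) / QQ q ≤ _
        rw [div_eq_inv_mul, ← one_div]
        exact mul_le_mul_of_nonneg_right ((one_div_le b3 e0).2 b2) (Nat.cast_nonneg _)
      have b4 := abs_le.1 (h.trans b1)
      exact hω ⟨_, algo_input G ε δ ω hq hT'', by linarith [b4.1], by linarith [b4.2]⟩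
    · change (1 / 2 : ℝ) ^ QQ q ≤ δ
      rw [one_div_pow, one_div_le (by positivity) d0]
      refine (Nat.le_ceil _).trans ?_
      exact_mod_cast (Nat.size_le.1 (by omega)).le

end Vale.Agent.P308
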