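import Mathlib
import Vale.Agent.P308.Model

/-! Orthonormal coordinates for weighted finite spaces and their products. -/

namespace Vale.Agent.P308.PopAux

open Finset

section ONB

variable {T : Type} [Fintype T] [DecidableEq T]

/-- `E` is an orthonormal basis of the functions on `T` for the weight `W` -/
structure ONB (W : T → ℝ) (E : T → T → ℝ) : Prop where
  orth : ∀ a b, ∑ x, W x * (E a x * E b x) = if a = b then 1 else 0
  compl : ∀ x y, W y * ∑ a, E a x * E a y = if x = y then 1 else 0

/-- synthesis -/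
def syn (E : T → T → ℝ) : (T → ℝ) →ₗ[ℝ] (T → ℝ) where
  toFun G := fun x => ∑ a, G a * E a x
  map_add' G H := by funext x; simp [add_mul, sum_add_distrib]
  map_smul' c G := by funext x; simp [mul_sum, mul_assoc]

/-- coefficients -/
def coef (W : T → ℝ) (E : T → T → ℝ) : (T → ℝ) →ₗ[ℝ] (T → ℝ) where
  toFun F := fun a => ∑ x, W x * (F x * E a x)
  map_add' G H := by funext x; simp [add_mul, mul_add, sum_add_distrib]
  map_smul' c G := by
    funext x
    simp only [Pi.smul_apply, smul_eq_mul, RingHom.id_apply, mul_sum]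
    exact sum_congr rfl fun _ _ => by ring

omit [DecidableEq T] in
theorem syn_apply (E : T → T → ℝ) (G : T → ℝ) (x : T) : syn E G x = ∑ a, G a * E a x := rfl

omit [DecidableEq T] in
theorem coef_apply (W : T → ℝ) (E : T → T → ℝ) (F : T → ℝ) (a : T) :
    coef W E F a = ∑ x, W x * (F x * E a x) := rfl

variable {W : T → ℝ} {E : T → T → ℝ}

theorem syn_single (b : T) : syn E (Pi.single b 1) = E b := by
  funext x
  rw [syn_apply, sum_eq_single b]
  · simp
  · intro a _ ha; simp [ha]
  · simp

theorem ONB.coef_syn (h : ONB W E) (G : T → ℝ) : coef W E (syn E G) = G := by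
  funext a
  rw [coef_apply]
  simp only [syn_apply, sum_mul, mul_sum]
  rw [sum_comm]
  have : ∀ b, ∑ x, W x * (G b * E b x * E a x) = G b * if b = a then 1 else 0 := by
    intro b
    rw [← h.orth, mul_sum]
    exact sum_congr rfl fun _ _ => by ring
  simp [this]

theorem ONB.syn_coef (h : ONB W E) (F : T → ℝ) : syn E (coef W E F) = F := by
  funext x
  rw [syn_apply]
  simp only [coef_apply, sum_mul]
  rw [sum_comm]
  have : ∀ y, ∑ a, W y * (F y * E a y) * E a x = F y * if x = y then 1 else 0 := by
    intro y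
    rw [← h.compl, mul_sum, mul_sum]
    exact sum_congr rfl fun _ _ => by ring
  simp [this]

omit [DecidableEq T] in
theorem sum_syn_mul (G F : T → ℝ) : ∑ x, W x * (syn E G x * F x) = ∑ a, G a * coef W E F a := by
  simp only [syn_apply, coef_apply, sum_mul, mul_sum]
  rw [sum_comm]
  exact sum_congr rfl fun _ _ => sum_congr rfl fun _ _ => by ring

theorem ONB.parseval (h : ONB W E) (G H : T → ℝ) :
    ∑ x, W x * (syn E G x * syn E H x) = ∑ a, G a * H a := by
  rw [sum_syn_mul, h.coef_syn]

theorem ONB.syn_inj (h : ONB W E) {G H : T → ℝ} (e : syn E G = syn E H) : G = H := by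
  rw [← h.coef_syn G, e, h.coef_syn]

theorem ONB.pair (h : ONB W E) :
    ONB (fun z : T × T => W z.1 * W z.2) (fun a z => E a.1 z.1 * E a.2 z.2) := by
  constructor
  · intro a b
    have : ∀ z : T × T, W z.1 * W z.2 * (E a.1 z.1 * E a.2 z.2 * (E b.1 z.1 * E b.2 z.2)) =
        (W z.1 * (E a.1 z.1 * E b.1 z.1)) * (W z.2 * (E a.2 z.2 * E b.2 z.2)) := fun z => by ring
    simp only [this]
    rw [Fintype.sum_prod_type]
    dsimp only
    rw [← sum_mul_sum, h.orth, h.orth]
    by_cases h1 : a.1 = b.1 <;> by_cases h2 : a.2 = b.2 <;> simp [h1, h2, Prod.ext_iff]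
  · intro x y
    have : ∀ a : T × T, E a.1 x.1 * E a.2 x.2 * (E a.1 y.1 * E a.2 y.2) =
        (E a.1 x.1 * E a.1 y.1) * (E a.2 x.2 * E a.2 y.2) := fun z => by ring
    simp only [this]
    rw [Fintype.sum_prod_type]
    dsimp only
    rw [← sum_mul_sum, mul_mul_mul_comm, h.compl, h.compl]
    by_cases h1 : x.1 = y.1 <;> by_cases h2 : x.2 = y.2 <;> simp [h1, h2, Prod.ext_iff]

omit [DecidableEq T] in
theorem sum_prod_eq {N : ℕ} (f : Fin N → T → ℝ) :
    ∑ x : Fin N → T, ∏ i, f i (x i) = ∏ i, ∑ a, f i a := by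
  classical
  rw [Finset.prod_univ_sum, Fintype.piFinset_univ]

omit [Fintype T] in
theorem prod_ite_eq_fun {N : ℕ} (x y : Fin N → T) :
    (∏ i, if x i = y i then (1 : ℝ) else 0) = if x = y then 1 else 0 := by
  by_cases h : x = y
  · simp [h]
  · rw [if_neg h]
    obtain ⟨i, hi⟩ := Function.ne_iff.1 h
    exact prod_eq_zero (mem_univ i) (if_neg hi)

theorem ONB.pi (h : ONB W E) (N : ℕ) :
    ONB (fun x : Fin N → T => ∏ i, W (x i)) (fun a x => ∏ i, E (a i) (x i)) := by
  constructor
  · intro a b
    simp only [← prod_mul_distrib]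
    rw [sum_prod_eq (fun i t => W t * (E (a i) t * E (b i) t))]
    simp only [h.orth]
    exact prod_ite_eq_fun a b
  · intro x y
    simp only [← prod_mul_distrib]
    rw [sum_prod_eq (fun i t => E t (x i) * E t (y i)), ← prod_mul_distrib]
    simp only [h.compl]
    exact prod_ite_eq_fun x y

theorem exists_onb {π : T → ℝ} (hpos : ∀ x, 0 < π x) (hsum : ∑ x, π x = 1) :
    ∃ (o : T) (e : T → T → ℝ), ONB π e ∧ ∀ x, e o x = 1 := by
  have hne : Nonempty T := by
    by_contra hc
    rw [not_nonempty_iff] at hc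
    simp at hsum
  obtain ⟨o⟩ := hne
  let v : EuclideanSpace ℝ T := WithLp.toLp 2 (fun x => √(π x))
  have hv : Orthonormal ℝ (({o} : Set T).domRestrict (fun _ : T => v)) := by
    rw [orthonormal_subsingleton_iff]
    intro i
    simp only [Set.domRestrict_apply]
    rw [EuclideanSpace.norm_eq]
    simp only [v, Real.norm_eq_abs, sq_abs, Real.sq_sqrt (hpos _).le, hsum, Real.sqrt_one]
  obtain ⟨b, hb⟩ := hv.exists_orthonormalBasis_extension_of_card_eq (by simp)
  have hbo : b o = v := hb o (Set.mem_singleton o)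
  let M : Matrix T T ℝ := Matrix.of fun a x => b a x
  have hM : M * M.transpose = 1 := by
    ext a a'
    have := orthonormal_iff_ite.1 b.orthonormal a' a
    rw [PiLp.inner_apply] at this
    simp only [RCLike.inner_apply, conj_trivial] at this
    rw [Matrix.mul_apply, Matrix.one_apply]
    simp only [M, Matrix.of_apply, Matrix.transpose_apply]
    rw [this]
    exact if_congr eq_comm rfl rfl
  have hM' : M.transpose * M = 1 := mul_eq_one_comm.1 hM
  have hs : ∀ x, √(π x) ≠ 0 := fun x => (Real.sqrt_pos.2 (hpos x)).ne'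
  refine ⟨o, fun a x => b a x / √(π x), ⟨fun a a' => ?_, fun x y => ?_⟩, fun x => ?_⟩
  · have := congrFun (congrFun hM a) a'
    rw [Matrix.mul_apply, Matrix.one_apply] at this
    rw [← this]
    apply sum_congr rfl
    intro x _
    simp only [M, Matrix.of_apply, Matrix.transpose_apply]
    have h1 := Real.mul_self_sqrt (hpos x).le
    have h2 := hs x
    field_simp
    rw [sq, h1]
    ring
  · have := congrFun (congrFun hM' x) y
    rw [Matrix.mul_apply, Matrix.one_apply] at this
    simp only [M, Matrix.of_apply, Matrix.transpose_apply] at this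
    have e : ∑ a, b a x / √(π x) * (b a y / √(π y)) = (∑ a, b a x * b a y) / (√(π x) * √(π y)) := by
      rw [sum_div]
      exact sum_congr rfl fun a _ => by rw [div_mul_div_comm]
    rw [e, this]
    split_ifs with hxy
    · rw [hxy, Real.mul_self_sqrt (hpos y).le]
      exact mul_one_div_cancel (hpos y).ne'
    · simp
  · simp only [hbo, v]
    exact div_self (hs x)

end ONB

end Vale.Agent.P308.PopAux
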