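import Mathlib
import Vale.Agent.P308.PopAux

/-! The pair operator and the population operator in orthonormal coordinates. -/

namespace Vale.Agent.P308.PopAux

open Finset

variable {T : Type} [Fintype T] [DecidableEq T]

/-- product weight on pairs -/
def W2 (π : T → ℝ) : T × T → ℝ := fun z => π z.1 * π z.2

/-- product basis on pairs -/
def E2 (e : T → T → ℝ) : T × T → T × T → ℝ := fun a z => e a.1 z.1 * e a.2 z.2

/-- product basis on populations -/
def EN (e : T → T → ℝ) (N : ℕ) : (Fin N → T) → (Fin N → T) → ℝ := fun a x => ∏ i, e (a i) (x i)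

/-- the pair operator in coordinates -/
def P0 (π : T → ℝ) (e : T → T → ℝ) (P : (T × T → ℝ) →ₗ[ℝ] (T × T → ℝ)) :
    (T × T → ℝ) →ₗ[ℝ] (T × T → ℝ) := coef (W2 π) (E2 e) ∘ₗ P ∘ₗ syn (E2 e)

variable {π : T → ℝ} {e : T → T → ℝ} {P : (T × T → ℝ) →ₗ[ℝ] (T × T → ℝ)} {γ : ℝ} {o : T}

theorem syn_P0 (he : ONB π e) (G : T × T → ℝ) :
    syn (E2 e) (P0 π e P G) = P (syn (E2 e) G) := he.pair.syn_coef _

theorem sum_pi_e (he : ONB π e) (ho : ∀ x, e o x = 1) (a : T) :
    ∑ x, π x * e a x = if a = o then 1 else 0 := by
  rw [← he.orth]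
  exact sum_congr rfl fun x _ => by rw [ho, mul_one]

theorem pairGap0 (h : PairGap π P γ) (he : ONB π e) (ho : ∀ x, e o x = 1) :
    PairGap0 o (P0 π e P) γ := by
  have hp : ONB (W2 π) (E2 e) := he.pair
  refine ⟨?_, fun G H => ?_, fun G => ?_, fun G hG => ?_⟩
  · apply hp.syn_inj
    rw [syn_P0 he, syn_single]
    have : E2 e (o, o) = fun _ => 1 := by funext z; simp [E2, ho]
    rw [this]
    exact funext h.one
  · rw [← hp.parseval (P0 π e P G) H, ← hp.parseval G (P0 π e P H), syn_P0 he, syn_P0 he]
    exact h.symm _ _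
  · have h1 := hp.parseval (G - P0 π e P G) (G - P0 π e P G)
    have h2 := hp.parseval G (G - P0 π e P G)
    rw [map_sub, syn_P0 he] at h1 h2
    have h3 := h.lazy (syn (E2 e) G)
    simp only [Pi.sub_apply, W2, ← sq] at h1 h2
    rw [← h1, ← h2]
    exact h3
  · have hoo : G (o, o) = 0 := hG _ Iff.rfl
    have hdec : ∀ (φ : ℝ → ℝ), φ 0 = 0 → ∀ a b, φ (G (a, b)) =
        (if b = o then φ (G (a, o)) else 0) + if a = o then φ (G (o, b)) else 0 := by
      intro φ hφ a b
      by_cases ha : a = o <;> by_cases hb : b = o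
      · simp [ha, hb, hoo, hφ]
      · simp [ha, hb]
      · simp [ha, hb]
      · simp [ha, hb, hG (a, b) (by simp [ha, hb]), hφ]
    let f : T → ℝ := syn e (fun a => G (a, o))
    let g : T → ℝ := syn e (fun b => G (o, b))
    have hsyn : syn (E2 e) G = fun z => f z.1 + g z.2 := by
      funext z
      rw [syn_apply, Fintype.sum_prod_type]
      have : ∀ a b, G (a, b) * E2 e (a, b) z =
          (if b = o then G (a, o) * e a z.1 else 0) + if a = o then G (o, b) * e b z.2 else 0 := by
        intro a b
        have := hdec id rfl a b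
        simp only [id] at this
        rw [this]
        by_cases ha : a = o <;> by_cases hb : b = o <;> simp [ha, hb, E2, ho, hoo]
      simp only [this, sum_add_distrib]
      rw [sum_comm (s := univ) (t := univ)
        (f := fun a b => if a = o then G (o, b) * e b z.2 else 0)]
      simp [f, g, syn_apply]
    have hm : ∀ c : T → ℝ, c o = 0 → ∑ x, π x * syn e c x = 0 := by
      intro c hc
      have := sum_syn_mul (W := π) (E := e) c (fun _ => 1)
      simp only [mul_one, coef_apply, one_mul, sum_pi_e he ho] at this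
      rw [this]
      simp [hc]
    have h1 := h.gap f g (hm _ hoo) (hm _ hoo)
    have h2 := hp.parseval G (G - P0 π e P G)
    rw [map_sub, syn_P0 he, hsyn] at h2
    simp only [Pi.sub_apply, W2] at h2
    rw [h2] at h1
    refine le_trans (le_of_eq ?_) h1
    congr 1
    have h3 := he.parseval (fun a => G (a, o)) (fun a => G (a, o))
    have h4 := he.parseval (fun b => G (o, b)) (fun b => G (o, b))
    simp only [← sq] at h3 h4
    rw [h3, h4, Fintype.sum_prod_type]
    rw [sum_congr rfl (fun a _ => sum_congr rfl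
      (fun b _ => hdec (fun t => t ^ 2) (by norm_num) a b))]
    simp only [sum_add_distrib]
    rw [sum_comm (s := univ) (t := univ) (f := fun a b => if a = o then G (o, b) ^ 2 else 0)]
    simp

variable {N : ℕ}

/-- changing two coordinates -/
def up2 (x : Fin N → T) (i j : Fin N) (z : T × T) : Fin N → T :=
  Function.update (Function.update x i z.1) j z.2

omit [Fintype T] [DecidableEq T] in
theorem up2_fst {i j : Fin N} (hij : j ≠ i) (x : Fin N → T) (z : T × T) : up2 x i j z i = z.1 := by
  simp [up2, Function.update_of_ne hij.symm]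

omit [Fintype T] [DecidableEq T] in
theorem up2_snd (i j : Fin N) (x : Fin N → T) (z : T × T) : up2 x i j z j = z.2 := by
  simp [up2]

omit [Fintype T] [DecidableEq T] in
theorem up2_other {i j k : Fin N} (h1 : k ≠ i) (h2 : k ≠ j) (x : Fin N → T) (z : T × T) :
    up2 x i j z k = x k := by
  simp [up2, Function.update_of_ne h1, Function.update_of_ne h2]

omit [Fintype T] [DecidableEq T] in
theorem up2_up2 {i j : Fin N} (hij : j ≠ i) (x : Fin N → T) (z : T × T) :
    up2 (up2 x i j z) i j (x i, x j) = x := by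
  funext k
  by_cases h2 : k = j
  · rw [h2, up2_snd]
  · by_cases h1 : k = i
    · rw [h1, up2_fst hij]
    · rw [up2_other h1 h2, up2_other h1 h2]

omit [DecidableEq T] in
theorem sum_up2 {i j : Fin N} (hij : j ≠ i) (Φ : (Fin N → T) → T × T → ℝ) :
    ∑ x, ∑ z, Φ (up2 x i j z) (x i, x j) = ∑ x, ∑ z, Φ x z := by
  let s : (Fin N → T) × (T × T) → (Fin N → T) × (T × T) :=
    fun p => (up2 p.1 i j p.2, (p.1 i, p.1 j))
  have hs : Function.Involutive s := by
    intro p
    simp only [s, up2_up2 hij, up2_fst hij, up2_snd]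
  rw [← Fintype.sum_prod_type', ← Fintype.sum_prod_type']
  exact hs.bijective.sum_comp (fun p => Φ p.1 p.2)

omit [Fintype T] [DecidableEq T] in
theorem EN_split {i j : Fin N} (hij : j ≠ i) (a x : Fin N → T) :
    EN e N a x = (∏ k ∈ (univ.erase i).erase j, e (a k) (x k)) * E2 e (a i, a j) (x i, x j) := by
  unfold EN E2
  rw [← mul_prod_erase univ _ (mem_univ i),
    ← mul_prod_erase (univ.erase i) _ (mem_erase.2 ⟨hij, mem_univ j⟩)]
  ring

theorem lin_expand (L : (T × T → ℝ) →ₗ[ℝ] (T × T → ℝ)) (G : T × T → ℝ) (a : T × T) :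
    L G a = ∑ b, L (Pi.single b 1) a * G b := by
  have : G = ∑ b, G b • (Pi.single b 1 : T × T → ℝ) := by
    funext z
    simp [Finset.sum_apply, Pi.single_apply]
  conv_lhs => rw [this]
  rw [map_sum, Finset.sum_apply]
  exact sum_congr rfl fun b _ => by rw [map_smul, Pi.smul_apply, smul_eq_mul, mul_comm]

theorem pair_syn (he : ONB π e) {i j : Fin N} (hij : j ≠ i) (w : (Fin N → T) → ℝ)
    (x : Fin N → T) :
    P (fun z => syn (EN e N) w (up2 x i j z)) (x i, x j) =
      syn (EN e N) (fun α => P0 π e P (fun z => w (up2 α i j z)) (α i, α j)) x := by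
  let R : (Fin N → T) → ℝ := fun α => ∏ k ∈ (univ.erase i).erase j, e (α k) (x k)
  have h1 : (fun z => syn (EN e N) w (up2 x i j z)) =
      ∑ α, (w α * R α) • E2 e (α i, α j) := by
    funext z
    rw [syn_apply, Finset.sum_apply]
    apply sum_congr rfl
    intro α _
    rw [EN_split hij, up2_fst hij, up2_snd, Pi.smul_apply, smul_eq_mul, mul_assoc]
    congr 2
    apply prod_congr rfl
    intro k hk
    rw [up2_other (mem_erase.1 (mem_erase.1 hk).2).1 (mem_erase.1 hk).1]
  have h2 : ∀ b, P (E2 e b) (x i, x j) =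
      ∑ a, P0 π e P (Pi.single b 1) a * E2 e a (x i, x j) := by
    intro b
    rw [← syn_apply, syn_P0 he, syn_single]
  rw [h1, map_sum, Finset.sum_apply, syn_apply]
  simp only [map_smul, Pi.smul_apply, smul_eq_mul, h2, mul_sum]
  rw [← sum_up2 hij (fun α a => w α * R α *
    (P0 π e P (Pi.single (α i, α j) 1) a * E2 e a (x i, x j)))]
  apply sum_congr rfl
  intro α _
  rw [lin_expand (P0 π e P) _ (α i, α j), sum_mul]
  apply sum_congr rfl
  intro z _
  have : R (up2 α i j z) = R α := by
    apply prod_congr rfl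
    intro k hk
    rw [up2_other (mem_erase.1 (mem_erase.1 hk).2).1 (mem_erase.1 hk).1]
  rw [this, up2_fst hij, up2_snd, EN_split hij]
  ring

theorem popOp_syn (he : ONB π e) (Q : ℕ) (w : (Fin N → T) → ℝ) :
    popOp P Q (syn (EN e N) w) = syn (EN e N) (popOp (P0 π e P) Q w) := by
  funext x
  have h : ∀ i, ∀ j ∈ univ.erase i,
      syn (EN e N) w x - P (fun z => syn (EN e N) w
        (Function.update (Function.update x i z.1) j z.2)) (x i, x j) =
      ∑ α, (w α - P0 π e P (fun z => w (Function.update (Function.update α i z.1) j z.2))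
        (α i, α j)) * EN e N α x := by
    intro i j hj
    have := pair_syn (P := P) he (mem_erase.1 hj).1 w x
    unfold up2 at this
    rw [this, syn_apply, syn_apply, ← sum_sub_distrib]
    exact sum_congr rfl fun α _ => by ring
  rw [popOp, sum_congr rfl (fun i _ => sum_congr rfl (h i)), syn_apply, syn_apply]
  simp only [popOp, sub_mul, sum_sub_distrib, div_mul_eq_mul_div, ← sum_div, sum_mul]
  congr 3
  · rw [sum_comm]
    exact sum_congr rfl fun i _ => sum_comm
  · rw [sum_comm]
    exact sum_congr rfl fun i _ => sum_comm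

theorem popOp_symm {L : (T × T → ℝ) →ₗ[ℝ] (T × T → ℝ)}
    (hL : ∀ G H : T × T → ℝ, ∑ z, L G z * H z = ∑ z, G z * L H z) (Q : ℕ)
    (u v : (Fin N → T) → ℝ) : ∑ α, popOp L Q u α * v α = ∑ α, u α * popOp L Q v α := by
  have hK : ∀ a b, L (Pi.single a 1) b = L (Pi.single b 1) a := by
    intro a b
    have := hL (Pi.single a 1) (Pi.single b 1)
    simpa [Pi.single_apply] using this
  have h : ∀ i, ∀ j ∈ univ.erase i,
      ∑ α, (u α - L (fun z => u (Function.update (Function.update α i z.1) j z.2))
        (α i, α j)) * v α =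
      ∑ α, u α * (v α - L (fun z => v (Function.update (Function.update α i z.1) j z.2))
        (α i, α j)) := by
    intro i j hj
    have hij := (mem_erase.1 hj).1
    simp only [sub_mul, mul_sub, sum_sub_distrib]
    congr 1
    have e1 : ∀ α : Fin N → T, u α * L (fun z => v (Function.update
        (Function.update α i z.1) j z.2)) (α i, α j) =
        ∑ z, u α * (L (Pi.single z 1) (α i, α j) * v (up2 α i j z)) := by
      intro α
      rw [lin_expand L, mul_sum]
      rfl
    simp only [e1]
    rw [← sum_up2 hij (fun α z => u α * (L (Pi.single z 1) (α i, α j) * v (up2 α i j z)))]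
    apply sum_congr rfl
    intro α _
    rw [lin_expand L, sum_mul]
    apply sum_congr rfl
    intro z _
    rw [up2_up2 hij, up2_fst hij, up2_snd, hK]
    change _ * u (up2 α i j z) * _ = _
    ring
  have a1 : ∀ α, popOp L Q u α * v α = u α * v α - (∑ i, ∑ j ∈ univ.erase i,
      (u α - L (fun z => u (Function.update (Function.update α i z.1) j z.2))
        (α i, α j)) * v α) / (Q : ℝ) ^ 2 := by
    intro α
    simp only [popOp, ← sum_mul]
    ring
  have a2 : ∀ α, u α * popOp L Q v α = u α * v α - (∑ i, ∑ j ∈ univ.erase i,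
      u α * (v α - L (fun z => v (Function.update (Function.update α i z.1) j z.2))
        (α i, α j))) / (Q : ℝ) ^ 2 := by
    intro α
    simp only [popOp, ← mul_sum]
    ring
  simp only [a1, a2, sum_sub_distrib, ← sum_div]
  congr 2
  rw [sum_comm, sum_comm (s := univ) (t := univ) (f := fun α i => ∑ j ∈ univ.erase i,
      u α * (v α - L (fun z => v (Function.update (Function.update α i z.1) j z.2))
        (α i, α j)))]
  apply sum_congr rfl
  intro i _
  rw [sum_comm, sum_comm (s := univ) (t := univ.erase i)]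
  exact sum_congr rfl (h i)

theorem iterate_symm {A : Type} [Fintype A] {K : (A → ℝ) → A → ℝ}
    (hK : ∀ u v, ∑ α, K u α * v α = ∑ α, u α * K v α) (J : ℕ) (u v : A → ℝ) :
    ∑ α, K^[J] u α * v α = ∑ α, u α * K^[J] v α := by
  induction J generalizing u with
  | zero => rfl
  | succ J ih => rw [Function.iterate_succ_apply, ih, hK, Function.iterate_succ_apply']

end Vale.Agent.P308.PopAux
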