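import Vale.Agent.P308.Pop0
import Vale.Agent.P308.PopAux2

namespace Vale.Agent.P308

open Finset

theorem PopAux.deg_prod {T : Type} [DecidableEq T] {N : ℕ} (o : T) (t : ℝ) (α : Fin N → T) :
    t ^ (2 * (univ.filter fun i => α i ≠ o).card) = ∏ i, if α i = o then 1 else t ^ 2 := by
  rw [prod_ite, prod_const_one, one_mul, prod_const, pow_mul]

open PopAux in
theorem pop_mix {Ω : Type} [Fintype Ω] {π : Ω → ℝ}
    {P : (Ω × Ω → ℝ) →ₗ[ℝ] (Ω × Ω → ℝ)} {γ : ℝ} (h : PairGap π P γ) (hγ0 : 0 < γ) (hγ : γ ≤ 1)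
    {N Q : ℕ} (J : ℕ) (h1 : Q ≤ 2 * N) (h2 : N ≤ Q) (hQ : 0 < Q) {a : ℝ} (ha0 : 0 ≤ a)
    (ha : a ≤ 1 / 16) {μ : Ω → ℝ} (hμ : ∑ x, μ x = 1)
    (hχ : (Q : ℝ) * ∑ x, (μ x - π x) ^ 2 / π x ≤ 1) {F : (Fin N → Ω) → ℝ} (F0 : ∀ x, 0 ≤ F x)
    (F1 : ∀ x, F x ≤ 1) :
    ∑ x, (∏ i, μ (x i)) * (popOp P Q)^[J] F x ≤ ∑ x, (∏ i, π (x i)) * F x +
      3 * √(Real.exp (-γ * J / (4 * Q)) + 8 * Q / γ * Real.exp (50 * a ^ 2 * J - a * γ * Q / 8)) := by
  classical
  obtain ⟨o, e, he, ho⟩ := exists_onb h.pos h.sum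
  have hN : ONB (fun x : Fin N → Ω => ∏ i, π (x i)) (EN e N) := he.pi N
  have h0 := pairGap0 h he ho
  have hsym := iterate_symm (popOp_symm (N := N) h0.symm Q) J
  have hiter : ∀ (k : ℕ) (w : (Fin N → Ω) → ℝ), (popOp P Q)^[k] (syn (EN e N) w) =
      syn (EN e N) ((popOp (P0 π e P) Q)^[k] w) := by
    intro k
    induction k with
    | zero => intro w; rfl
    | succ k ih => intro w; rw [Function.iterate_succ_apply, popOp_syn he, ih]; rfl
  let c : Ω → ℝ := coef π e (fun x => μ x / π x)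
  have hc : ∀ x, μ x = π x * ∑ b, c b * e b x := by
    intro x
    rw [← syn_apply, he.syn_coef, mul_div_cancel₀ _ (h.pos x).ne']
  have hco : c o = 1 := by
    simp only [c, coef_apply, ho, mul_one]
    rw [← hμ]
    exact sum_congr rfl fun x _ => mul_div_cancel₀ _ (h.pos x).ne'
  have hchi : ∑ x, (μ x - π x) ^ 2 / π x = ∑ b, (c b - (Pi.single o 1 : Ω → ℝ) b) ^ 2 := by
    have := he.parseval (c - Pi.single o 1) (c - Pi.single o 1)
    rw [map_sub, he.syn_coef, syn_single] at this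
    simp only [Pi.sub_apply, ← sq, ho] at this
    rw [← this]
    apply sum_congr rfl
    intro x _
    have := (h.pos x).ne'
    field_simp
  let H : (Fin N → Ω) → ℝ := fun α => ∏ i, c (α i)
  have hH : ∀ x : Fin N → Ω, ∏ i, μ (x i) = (∏ i, π (x i)) * syn (EN e N) H x := by
    intro x
    simp only [syn_apply, H, EN, ← prod_mul_distrib]
    rw [sum_prod_eq (fun i t => c t * e t (x i)), ← prod_mul_distrib]
    exact prod_congr rfl fun i _ => hc _
  let δ : (Fin N → Ω) → ℝ := Pi.single (fun _ => o) 1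
  have hδ : syn (EN e N) δ = fun _ => 1 := by
    rw [syn_single]; funext x; simp [EN, ho]
  have hfix : (popOp (P0 π e P) Q)^[J] δ = δ := by
    apply Function.iterate_fixed
    apply hN.syn_inj
    rw [← popOp_syn he, hδ]
    funext x
    simp [popOp, h.one]
  let w : (Fin N → Ω) → ℝ := H - δ
  have hw0 : w (fun _ => o) = 0 := by simp [w, H, δ, hco]
  set χ := ∑ x, (μ x - π x) ^ 2 / π x with hχdef
  have hχ0 : 0 ≤ χ := sum_nonneg fun x _ => div_nonneg (sq_nonneg _) (h.pos x).le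
  have hw : ∑ α, (1 + a) ^ (2 * (univ.filter fun i => α i ≠ o).card) * w α ^ 2 ≤ 9 := by
    have b1 : ∀ α : Fin N → Ω, (1 + a) ^ (2 * (univ.filter fun i => α i ≠ o).card) * w α ^ 2 ≤
        ∏ i, (if α i = o then 1 else (1 + a) ^ 2) * c (α i) ^ 2 := by
      intro α
      rw [prod_mul_distrib, ← deg_prod, prod_pow]
      apply mul_le_mul_of_nonneg_left _ (by positivity)
      by_cases hα : α = fun _ => o
      · rw [hα, hw0, zero_pow two_ne_zero]; exact sq_nonneg _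
      · simp [w, δ, H, Pi.single_eq_of_ne hα]
    refine le_trans (sum_le_sum fun α _ => b1 α) ?_
    rw [sum_prod_eq (fun _ t => (if t = o then 1 else (1 + a) ^ 2) * c t ^ 2), prod_const,
      card_univ, Fintype.card_fin]
    have b2 : ∑ t, (if t = o then 1 else (1 + a) ^ 2) * c t ^ 2 = (1 + a) ^ 2 * χ + 1 := by
      rw [hchi, mul_sum]
      have : ∀ t, (if t = o then 1 else (1 + a) ^ 2) * c t ^ 2 =
          (1 + a) ^ 2 * (c t - (Pi.single o 1 : Ω → ℝ) t) ^ 2 + if t = o then 1 else 0 := by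
        intro t
        by_cases ht : t = o
        · simp [ht, hco]
        · simp [ht]
      simp only [this, sum_add_distrib]
      simp
    rw [b2]
    refine le_trans (pow_le_pow_left₀ (by positivity) (Real.add_one_le_exp _) N) ?_
    rw [← Real.exp_nat_mul]
    have b3 : (N : ℝ) * χ ≤ 1 :=
      le_trans (mul_le_mul_of_nonneg_right (by exact_mod_cast h2) hχ0) hχ
    have b4 : (N : ℝ) * ((1 + a) ^ 2 * χ) ≤ 2 := by
      have : (1 + a) ^ 2 ≤ 2 := by nlinarith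
      have h3 : 0 ≤ (N : ℝ) * χ := by positivity
      nlinarith
    refine le_trans (Real.exp_le_exp.2 b4) ?_
    have b5 : Real.exp 2 = Real.exp 1 * Real.exp 1 := by rw [← Real.exp_add]; norm_num
    have b6 := Real.exp_one_lt_d9
    have b7 := Real.exp_pos 1
    nlinarith
  have hmix := pop0_mix h0 hγ0 hγ J h1 h2 hQ ha0 ha hw0 hw
  set B := Real.exp (-γ * J / (4 * Q)) + 8 * Q / γ * Real.exp (50 * a ^ 2 * J - a * γ * Q / 8)
  let G := coef (fun x : Fin N → Ω => ∏ i, π (x i)) (EN e N) F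
  have hG : syn (EN e N) G = F := hN.syn_coef F
  have hW : ∑ x : Fin N → Ω, ∏ i, π (x i) = 1 := by
    rw [sum_prod_eq (fun _ t => π t)]; simp [h.sum]
  have hG2 : ∑ α, G α ^ 2 ≤ 1 := by
    have := hN.parseval G G
    rw [hG] at this
    simp only [← sq] at this
    rw [← this, ← hW]
    apply sum_le_sum
    intro x _
    have b1 : 0 ≤ ∏ i, π (x i) := prod_nonneg fun i _ => (h.pos _).le
    have b2 : F x ^ 2 ≤ 1 := pow_le_one₀ (F0 x) (F1 x)
    nlinarith
  have e1 : ∑ x, (∏ i, μ (x i)) * (popOp P Q)^[J] F x =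
      ∑ α, H α * (popOp (P0 π e P) Q)^[J] G α := by
    rw [← hN.parseval H, ← hiter, hG]
    exact sum_congr rfl fun x _ => by rw [hH, mul_assoc]
  have e2 : ∑ x, (∏ i, π (x i)) * F x = ∑ α, δ α * G α := by
    rw [← hN.parseval δ G, hG, hδ]
    simp
  have e3 : ∑ α, H α * (popOp (P0 π e P) Q)^[J] G α =
      ∑ α, δ α * G α + ∑ α, (popOp (P0 π e P) Q)^[J] w α * G α := by
    have e4 := hsym δ G
    rw [hfix] at e4
    rw [hsym w G, e4, ← sum_add_distrib]
    exact sum_congr rfl fun α _ => by simp only [w, Pi.sub_apply]; ring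
  rw [e1, e2, e3]
  apply add_le_add le_rfl
  have b1 := sum_mul_sq_le_sq_mul_sq univ ((popOp (P0 π e P) Q)^[J] w) G
  have b2 : 0 ≤ ∑ α, ((popOp (P0 π e P) Q)^[J] w α) ^ 2 := sum_nonneg fun _ _ => sq_nonneg _
  have b3 : (∑ α, (popOp (P0 π e P) Q)^[J] w α * G α) ^ 2 ≤ 9 * B := by nlinarith
  refine le_trans (Real.le_sqrt_of_sq_le b3) (le_of_eq ?_)
  rw [Real.sqrt_mul (by norm_num)]
  congr 1
  rw [show (9 : ℝ) = 3 ^ 2 by norm_num, Real.sqrt_sq (by norm_num)]

end Vale.Agent.P308
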