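import Vale.Agent.P308.Model

/-! Pair estimates and slice averaging for the population chain. -/

namespace Vale.Agent.P308.Pop0

open Finset

variable {ι : Type} [Fintype ι] [DecidableEq ι] {o : ι}
  {P : (ι × ι → ℝ) →ₗ[ℝ] (ι × ι → ℝ)} {γ : ℝ}

/-- the Dirichlet form -/
def dir (P : (ι × ι → ℝ) →ₗ[ℝ] (ι × ι → ℝ)) (G : ι × ι → ℝ) : ℝ := ∑ z, G z * (G z - P G z)

theorem dir_nonneg (h : PairGap0 o P γ) (G : ι × ι → ℝ) : 0 ≤ dir P G :=
  (sum_nonneg fun _ _ => sq_nonneg _).trans (h.lazy G)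

theorem dir_le (h : PairGap0 o P γ) (G : ι × ι → ℝ) : dir P G ≤ ∑ z, G z ^ 2 := by
  have h1 := h.lazy G
  have h2 : 2 * dir P G ≤ ∑ z, G z ^ 2 + ∑ z, (G z - P G z) ^ 2 := by
    rw [dir, mul_sum, ← sum_add_distrib]
    exact sum_le_sum fun z _ => by nlinarith [sq_nonneg (G z - (G z - P G z))]
  unfold dir at h2 ⊢
  linarith

omit [DecidableEq ι] in
theorem dir_par (X Y : ι × ι → ℝ) :
    dir P (X - Y) + dir P (X + Y) = 2 * dir P X + 2 * dir P Y := by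
  simp only [dir, map_sub, map_add, Pi.sub_apply, Pi.add_apply, mul_sum, ← sum_add_distrib]
  exact sum_congr rfl fun z _ => by ring

theorem apply_oo (h : PairGap0 o P γ) (G : ι × ι → ℝ) : P G (o, o) = G (o, o) := by
  have := h.symm G (Pi.single (o, o) 1)
  rw [h.one] at this
  simpa [Pi.single_apply] using this

theorem dir_add_single (h : PairGap0 o P γ) (X : ι × ι → ℝ) (c : ℝ) :
    dir P (X + c • Pi.single (o, o) 1) = dir P X := by
  simp only [dir, map_add, map_smul, h.one, Pi.add_apply, add_sub_add_right_eq_sub, add_mul,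
    sum_add_distrib]
  simp [Pi.single_apply, apply_oo h]

/-- indicator of a letter different from `o` -/
def ind (o x : ι) : ℝ := if x = o then 0 else 1

/-- the gain of a pair of letters -/
noncomputable def gain (o : ι) (γ : ℝ) (z : ι × ι) : ℝ :=
  γ / 2 * ((1 - ind o z.1) * ind o z.2 + ind o z.1 * (1 - ind o z.2)) - ind o z.1 * ind o z.2

theorem pair_gain (h : PairGap0 o P γ) (G : ι × ι → ℝ) :
    0 ≤ ∑ z, (G z ^ 2 - P G z ^ 2 - gain o γ z * G z ^ 2) := by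
  let G₁ : ι × ι → ℝ := fun z => ((1 - ind o z.1) * ind o z.2 + ind o z.1 * (1 - ind o z.2)) * G z
  let G₂ : ι × ι → ℝ := fun z => ind o z.1 * ind o z.2 * G z
  have e1 : G = (G₁ + G₂) + G (o, o) • Pi.single (o, o) 1 := by
    funext ⟨x, y⟩
    by_cases hx : x = o <;> by_cases hy : y = o <;> simp [G₁, G₂, ind, hx, hy]
  have e2 : dir P G = dir P (G₁ + G₂) := by
    rw [← dir_add_single h (G₁ + G₂) (G (o, o)), ← e1]
  have e3 := dir_par (P := P) (G₁ + G₂) G₂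
  rw [add_sub_cancel_right] at e3
  have e4 := dir_nonneg h (G₁ + G₂ + G₂)
  have e5 := dir_le h G₂
  have e6 : γ * ∑ z, G₁ z ^ 2 ≤ dir P G₁ := by
    refine h.gap G₁ fun z hz => ?_
    by_cases hx : z.1 = o
    · simp [G₁, ind, hx, hz.1 hx]
    · have hy : ¬ z.2 = o := fun hy => hx (hz.2 hy)
      simp [G₁, ind, hx, hy]
  have e7 : ∑ z, gain o γ z * G z ^ 2 = γ / 2 * ∑ z, G₁ z ^ 2 - ∑ z, G₂ z ^ 2 := by
    rw [mul_sum, ← sum_sub_distrib]
    refine sum_congr rfl fun z _ => ?_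
    by_cases hx : z.1 = o <;> by_cases hy : z.2 = o <;> simp [G₁, G₂, gain, ind, hx, hy]
  have e8 : ∑ z, (G z ^ 2 - P G z ^ 2) = 2 * dir P G - ∑ z, (G z - P G z) ^ 2 := by
    rw [dir, mul_sum, ← sum_sub_distrib]
    exact sum_congr rfl fun z _ => by ring
  have e9 : ∑ z, (G z - P G z) ^ 2 ≤ dir P G := h.lazy G
  rw [sum_sub_distrib, e7, e8]
  linarith

theorem pair_weight (h : PairGap0 o P γ) (G ψ : ι × ι → ℝ) {μ : ℝ} (hμ : μ ≤ 1 / 2)
    (h1 : ∀ z, 1 ≤ ψ z) (h2 : ∀ z, ψ z ≤ 1 + μ) :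
    0 ≤ ∑ z, ψ z * (G z ^ 2 - P G z ^ 2 + 2 * μ ^ 2 * G z ^ 2) := by
  have e1 : 0 ≤ ∑ z, 2 * (G z * (G z - P G z) - (G z - P G z) ^ 2) := by
    rw [← mul_sum, sum_sub_distrib]
    have := h.lazy G
    linarith
  refine e1.trans (sum_le_sum fun z _ => ?_)
  obtain ⟨e, he⟩ : ∃ e, ψ z = 1 + e := ⟨ψ z - 1, by ring⟩
  obtain ⟨u, hu⟩ : ∃ u, P G z = G z - u := ⟨G z - P G z, by ring⟩
  have a1 : 0 ≤ e := by linarith [h1 z]
  have a2 : e ≤ μ := by linarith [h2 z]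
  have a3 : e ^ 2 ≤ μ ^ 2 := pow_le_pow_left₀ a1 a2 2
  have a4 := mul_le_mul_of_nonneg_right a3 (sq_nonneg (G z))
  have a5 : 0 ≤ e * (μ ^ 2 * G z ^ 2) := by positivity
  have a6 : 0 ≤ (1 / 2 - e) * u ^ 2 := mul_nonneg (by linarith) (sq_nonneg u)
  rw [he, hu]
  nlinarith [sq_nonneg (u + 2 * e * G z)]

variable {N : ℕ}

/-- replace the letters `i` and `j` -/
def upd (i j : Fin N) (α : Fin N → ι) (z : ι × ι) : Fin N → ι :=
  Function.update (Function.update α i z.1) j z.2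

omit [Fintype ι] [DecidableEq ι] in
theorem upd_fst {i j : Fin N} (hij : i ≠ j) (α : Fin N → ι) (z : ι × ι) : upd i j α z i = z.1 := by
  simp [upd, hij]

omit [Fintype ι] [DecidableEq ι] in
theorem upd_snd (i j : Fin N) (α : Fin N → ι) (z : ι × ι) : upd i j α z j = z.2 := by
  simp [upd]

omit [Fintype ι] [DecidableEq ι] in
theorem upd_ne {i j l : Fin N} (hi : l ≠ i) (hj : l ≠ j) (α : Fin N → ι) (z : ι × ι) :
    upd i j α z l = α l := by
  simp [upd, hi, hj]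

omit [Fintype ι] [DecidableEq ι] in
theorem upd_upd (i j : Fin N) (α : Fin N → ι) (z z' : ι × ι) :
    upd i j (upd i j α z) z' = upd i j α z' := by
  funext l
  by_cases hj : l = j
  · simp [upd, hj]
  · by_cases hi : l = i
    · subst hi
      simp [upd, hj]
    · simp [upd, hi, hj]

omit [Fintype ι] [DecidableEq ι] in
theorem upd_self (i j : Fin N) (α : Fin N → ι) : upd i j α (α i, α j) = α := by
  simp [upd]

omit [DecidableEq ι] in
theorem avg (o : ι) {i j : Fin N} (hij : i ≠ j) (Φ : (Fin N → ι) → ι × ι → ℝ)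
    (h1 : ∀ α z, Φ (upd i j α z) = Φ α) (h2 : ∀ α, 0 ≤ ∑ z, Φ α z) :
    0 ≤ ∑ α, Φ α (α i, α j) := by
  let s : (Fin N → ι) × (ι × ι) → (Fin N → ι) × (ι × ι) :=
    fun p => (upd i j p.1 p.2, (p.1 i, p.1 j))
  have hs : Function.Involutive s := fun p => by
    simp only [s, upd_upd, upd_self, upd_fst hij, upd_snd]
  have e1 : ∑ p : (Fin N → ι) × (ι × ι), Φ (s p).1 (s p).2 =
      ∑ p : (Fin N → ι) × (ι × ι), Φ p.1 p.2 :=
    Equiv.sum_comp hs.toPerm fun p => Φ p.1 p.2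
  simp only [s, h1] at e1
  rw [Fintype.sum_prod_type, Fintype.sum_prod_type] at e1
  simp only [sum_const, card_univ, nsmul_eq_mul, ← mul_sum] at e1
  have e2 : 0 ≤ (Fintype.card (ι × ι) : ℝ) * ∑ α, Φ α (α i, α j) := by
    rw [e1]
    exact sum_nonneg fun α _ => h2 α
  have : Nonempty ι := ⟨o⟩
  exact nonneg_of_mul_nonneg_right e2 (Nat.cast_pos.2 Fintype.card_pos)

/-- the pair move on the letters `p.1` and `p.2` -/
def mv (P : (ι × ι → ℝ) →ₗ[ℝ] (ι × ι → ℝ)) (w : (Fin N → ι) → ℝ) (p : Fin N × Fin N)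
    (α : Fin N → ι) : ℝ := P (fun z => w (upd p.1 p.2 α z)) (α p.1, α p.2)

omit [Fintype ι] [DecidableEq ι] in
theorem popOp_eq (Q : ℕ) (w : (Fin N → ι) → ℝ) (α : Fin N → ι) :
    popOp P Q w α = w α - (∑ p ∈ univ.offDiag, (w α - mv P w p α)) / (Q : ℝ) ^ 2 := by
  unfold popOp
  congr 2
  rw [sum_sigma']
  refine sum_bij' (fun p _ => (p.1, p.2)) (fun p _ => ⟨p.1, p.2⟩) ?_ ?_ ?_ ?_ ?_
  · intro p hp
    simpa [eq_comm] using hp
  · intro p hp
    simpa [eq_comm] using hp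
  · intro p _
    rfl
  · intro p _
    rfl
  · intro p _
    rfl

theorem card_offDiag_le {Q : ℕ} (h2 : N ≤ Q) :
    ((univ : Finset (Fin N)).offDiag.card : ℝ) ≤ (Q : ℝ) ^ 2 := by
  have h1 : (univ : Finset (Fin N)).offDiag.card ≤ N * N := by simp
  have h3 : N * N ≤ Q ^ 2 := by rw [sq]; exact Nat.mul_le_mul h2 h2
  exact_mod_cast h1.trans h3

omit [Fintype ι] [DecidableEq ι] in
theorem popOp_sq {Q : ℕ} (h2 : N ≤ Q) (hQ : 0 < Q) (w : (Fin N → ι) → ℝ) (α : Fin N → ι) :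
    popOp P Q w α ^ 2 ≤
      w α ^ 2 - (∑ p ∈ univ.offDiag, (w α ^ 2 - mv P w p α ^ 2)) / (Q : ℝ) ^ 2 := by
  have hQ2 : (0 : ℝ) < (Q : ℝ) ^ 2 := by positivity
  have e1 := sq_sum_le_card_mul_sum_sq (s := (univ : Finset (Fin N)).offDiag)
    (f := fun p => w α - mv P w p α)
  have e2 : ∑ p ∈ univ.offDiag, (w α ^ 2 - mv P w p α ^ 2) =
      2 * w α * ∑ p ∈ univ.offDiag, (w α - mv P w p α) -
        ∑ p ∈ univ.offDiag, (w α - mv P w p α) ^ 2 := by
    rw [mul_sum, ← sum_sub_distrib]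
    exact sum_congr rfl fun p _ => by ring
  have e3 := mul_le_mul_of_nonneg_right (card_offDiag_le h2)
    (sum_nonneg fun p (_ : p ∈ univ.offDiag) => sq_nonneg (w α - mv P w p α))
  rw [popOp_eq, e2]
  generalize ∑ p ∈ univ.offDiag, (w α - mv P w p α) ^ 2 = S₂ at *
  generalize ∑ p ∈ univ.offDiag, (w α - mv P w p α) = S₁ at *
  have e4 : S₁ ^ 2 / ((Q : ℝ) ^ 2) ^ 2 ≤ S₂ / (Q : ℝ) ^ 2 := by
    rw [div_le_div_iff₀ (by positivity) hQ2]
    nlinarith
  have e5 : (w α - S₁ / (Q : ℝ) ^ 2) ^ 2 =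
      w α ^ 2 - 2 * w α * S₁ / (Q : ℝ) ^ 2 + S₁ ^ 2 / ((Q : ℝ) ^ 2) ^ 2 := by ring
  rw [e5, sub_div]
  linarith

theorem popOp_const (h : PairGap0 o P γ) (Q : ℕ) (w : (Fin N → ι) → ℝ) :
    popOp P Q w (fun _ => o) = w fun _ => o := by
  rw [popOp_eq, sum_eq_zero, zero_div, sub_zero]
  intro p _
  rw [mv, apply_oo h, upd_self p.1 p.2 (fun _ => o), sub_self]

theorem slice_gain (h : PairGap0 o P γ) (w : (Fin N → ι) → ℝ) {p : Fin N × Fin N}
    (hp : p.1 ≠ p.2) :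
    ∑ α, gain o γ (α p.1, α p.2) * w α ^ 2 ≤ ∑ α, (w α ^ 2 - mv P w p α ^ 2) := by
  have := avg o hp (fun α z => w (upd p.1 p.2 α z) ^ 2 -
      P (fun z => w (upd p.1 p.2 α z)) z ^ 2 - gain o γ z * w (upd p.1 p.2 α z) ^ 2)
    (fun α z => by simp only [upd_upd]) fun α => pair_gain h _
  simp only [upd_self] at this
  rw [sum_sub_distrib] at this
  exact sub_nonneg.1 this

/-- the weight of a letter -/
noncomputable def lw (o : ι) (a : ℝ) (x : ι) : ℝ := if x = o then 1 else (1 + a) ^ 2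

omit [Fintype ι] in
theorem prod_lw (a : ℝ) (α : Fin N → ι) :
    ∏ l, lw o a (α l) = (1 + a) ^ (2 * (univ.filter fun i => α i ≠ o).card) := by
  simp only [lw]
  rw [prod_ite, prod_const_one, one_mul, prod_const, pow_mul]

omit [Fintype ι] in
theorem one_le_lw {a : ℝ} (ha0 : 0 ≤ a) (x : ι) : 1 ≤ lw o a x := by
  unfold lw
  split_ifs
  · exact le_rfl
  · nlinarith

omit [Fintype ι] in
theorem lw_le {a : ℝ} (ha0 : 0 ≤ a) (x : ι) : lw o a x ≤ (1 + a) ^ 2 := by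
  unfold lw
  split_ifs
  · nlinarith
  · exact le_rfl

theorem slice_weight (h : PairGap0 o P γ) {a : ℝ} (ha0 : 0 ≤ a) (ha : a ≤ 1 / 16)
    (w : (Fin N → ι) → ℝ) {p : Fin N × Fin N} (hp : p.1 ≠ p.2) :
    0 ≤ ∑ α, (∏ l, lw o a (α l)) * (w α ^ 2 - mv P w p α ^ 2 + 50 * a ^ 2 * w α ^ 2) := by
  have hψ1 : ∀ z : ι × ι, 1 ≤ lw o a z.1 * lw o a z.2 := fun z =>
    one_le_mul_of_one_le_of_one_le (one_le_lw ha0 _) (one_le_lw ha0 _)
  have hψ2 : ∀ z : ι × ι, lw o a z.1 * lw o a z.2 ≤ 1 + 5 * a := fun z => by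
    refine (mul_le_mul (lw_le ha0 _) (lw_le ha0 _) (zero_le_one.trans (one_le_lw ha0 _))
      (by positivity)).trans ?_
    have h1 : a ^ 2 ≤ a / 16 := by nlinarith
    have h2 : (1 + a) ^ 2 ≤ 1 + 33 / 16 * a := by nlinarith
    nlinarith
  have := avg o hp (fun α z => (∏ l ∈ (univ.erase p.1).erase p.2, lw o a (α l)) *
      (lw o a z.1 * lw o a z.2 * (w (upd p.1 p.2 α z) ^ 2 -
        P (fun z => w (upd p.1 p.2 α z)) z ^ 2 + 2 * (5 * a) ^ 2 * w (upd p.1 p.2 α z) ^ 2)))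
    (fun α z => by
      have e : ∏ l ∈ (univ.erase p.1).erase p.2, lw o a (upd p.1 p.2 α z l) =
          ∏ l ∈ (univ.erase p.1).erase p.2, lw o a (α l) :=
        prod_congr rfl fun l hl => by
          rw [upd_ne (ne_of_mem_erase (mem_of_mem_erase hl)) (ne_of_mem_erase hl)]
      simp only [upd_upd, e])
    fun α => by
      rw [← mul_sum]
      exact mul_nonneg (prod_nonneg fun l _ => zero_le_one.trans (one_le_lw ha0 _))
        (pair_weight h _ (fun z => lw o a z.1 * lw o a z.2) (by linarith) hψ1 hψ2)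
  refine this.trans (le_of_eq (sum_congr rfl fun α _ => ?_))
  rw [← mul_prod_erase univ _ (mem_univ p.1),
    ← mul_prod_erase (univ.erase p.1) _ (mem_erase.2 ⟨hp.symm, mem_univ p.2⟩)]
  simp only [upd_self, mv]
  ring

end Vale.Agent.P308.Pop0
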