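import Vale.Agent.P308.Model
import Vale.Agent.P308.Pop0A

namespace Vale.Agent.P308

open Finset

namespace Pop0

variable {ι : Type} [Fintype ι] [DecidableEq ι] {o : ι}
  {P : (ι × ι → ℝ) →ₗ[ℝ] (ι × ι → ℝ)} {γ : ℝ} {N Q : ℕ}

theorem step_weight (h : PairGap0 o P γ) (h2 : N ≤ Q) (hQ : 0 < Q) {a : ℝ} (ha0 : 0 ≤ a)
    (ha : a ≤ 1 / 16) (w : (Fin N → ι) → ℝ) :
    ∑ α, (∏ l, lw o a (α l)) * popOp P Q w α ^ 2 ≤
      Real.exp (50 * a ^ 2) * ∑ α, (∏ l, lw o a (α l)) * w α ^ 2 := by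
  have hQ2 : (0 : ℝ) < (Q : ℝ) ^ 2 := by positivity
  have hψ : ∀ α : Fin N → ι, 0 ≤ ∏ l, lw o a (α l) := fun α =>
    prod_nonneg fun l _ => zero_le_one.trans (one_le_lw ha0 _)
  set y := ∑ α, (∏ l, lw o a (α l)) * w α ^ 2 with hy
  have hy0 : 0 ≤ y := sum_nonneg fun α _ => mul_nonneg (hψ α) (sq_nonneg _)
  have e1 : ∑ α, (∏ l, lw o a (α l)) * popOp P Q w α ^ 2 ≤ y -
      (∑ p ∈ univ.offDiag, ∑ α, (∏ l, lw o a (α l)) * (w α ^ 2 - mv P w p α ^ 2)) /
        (Q : ℝ) ^ 2 := by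
    rw [sum_comm, sum_div, hy, ← sum_sub_distrib]
    refine sum_le_sum fun α _ => ?_
    rw [← mul_sum, mul_div_assoc, ← mul_sub]
    exact mul_le_mul_of_nonneg_left (popOp_sq h2 hQ w α) (hψ α)
  have e2 : ∑ _p ∈ (univ : Finset (Fin N)).offDiag, -(50 * a ^ 2 * y) ≤
      ∑ p ∈ univ.offDiag, ∑ α, (∏ l, lw o a (α l)) * (w α ^ 2 - mv P w p α ^ 2) := by
    refine sum_le_sum fun p hp => ?_
    have e3 := slice_weight h ha0 ha w (mem_offDiag.1 hp).2.2
    have e4 : ∑ α, (∏ l, lw o a (α l)) * (w α ^ 2 - mv P w p α ^ 2 + 50 * a ^ 2 * w α ^ 2) =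
        ∑ α, (∏ l, lw o a (α l)) * (w α ^ 2 - mv P w p α ^ 2) + 50 * a ^ 2 * y := by
      rw [hy, mul_sum, ← sum_add_distrib]
      exact sum_congr rfl fun α _ => by ring
    linarith
  rw [sum_const, nsmul_eq_mul] at e2
  have e5 := mul_le_mul_of_nonneg_right (card_offDiag_le h2)
    (by positivity : 0 ≤ 50 * a ^ 2 * y)
  have e6 : -(50 * a ^ 2 * y) ≤
      (∑ p ∈ univ.offDiag, ∑ α, (∏ l, lw o a (α l)) * (w α ^ 2 - mv P w p α ^ 2)) /
        (Q : ℝ) ^ 2 := by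
    rw [le_div_iff₀ hQ2]
    linarith
  have e7 := mul_le_mul_of_nonneg_right (Real.add_one_le_exp (50 * a ^ 2)) hy0
  linarith

omit [Fintype ι] in
theorem sum_gain (α : Fin N → ι) :
    γ * (univ.filter fun i => α i ≠ o).card * (N - (univ.filter fun i => α i ≠ o).card) -
        ((univ.filter fun i => α i ≠ o).card : ℝ) ^ 2 ≤
      ∑ p ∈ univ.offDiag, gain o γ (α p.1, α p.2) := by
  have e1 : ∑ i, ind o (α i) = (univ.filter fun i => α i ≠ o).card := by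
    simp only [ind]
    rw [sum_ite, sum_const_zero, zero_add, sum_const, nsmul_eq_mul, mul_one]
  have e2 : ∑ i, (1 - ind o (α i)) = N - (univ.filter fun i => α i ≠ o).card := by
    rw [sum_sub_distrib, e1]
    simp
  have e3 : ∑ p : Fin N × Fin N, gain o γ (α p.1, α p.2) =
      γ * (univ.filter fun i => α i ≠ o).card * (N - (univ.filter fun i => α i ≠ o).card) -
        ((univ.filter fun i => α i ≠ o).card : ℝ) ^ 2 := by
    simp only [gain, sum_sub_distrib, ← mul_sum, sum_add_distrib]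
    simp only [Fintype.sum_prod_type, ← sum_mul_sum, e1, e2]
    ring
  rw [← e3, ← sub_nonneg, ← sum_sdiff (subset_univ (univ : Finset (Fin N)).offDiag)]
  have e4 : ∑ p ∈ univ \ (univ : Finset (Fin N)).offDiag, gain o γ (α p.1, α p.2) ≤ 0 := by
    refine sum_nonpos fun p hp => ?_
    have e5 : p.1 = p.2 := by simpa using hp
    rw [← e5]
    by_cases h : α p.1 = o <;> simp [gain, ind, h]
  linarith

theorem num_gain (hγ0 : 0 < γ) (hγ : γ ≤ 1) (h1 : Q ≤ 2 * N) (h2 : N ≤ Q) (hQ : 0 < Q) {a : ℝ}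
    (ha0 : 0 ≤ a) (ha : a ≤ 1 / 16) {k : ℕ} (hk : 0 < k) (hkN : k ≤ N) :
    1 - (γ * k * (N - k) - (k : ℝ) ^ 2) / (Q : ℝ) ^ 2 ≤
      1 - γ / (4 * Q) + 2 * Real.exp (-(a * γ * Q / 8)) * (1 + a) ^ (2 * k) := by
  have hQ0 : (0 : ℝ) < Q := by exact_mod_cast hQ
  have hQ1 : (1 : ℝ) ≤ Q := by exact_mod_cast hQ
  have hk1 : (1 : ℝ) ≤ k := by exact_mod_cast hk
  have hkN' : (k : ℝ) ≤ N := by exact_mod_cast hkN
  have h1' : (Q : ℝ) ≤ 2 * N := by exact_mod_cast h1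
  have h2' : (N : ℝ) ≤ Q := by exact_mod_cast h2
  rcases le_or_gt (4 * (k : ℝ)) (γ * N) with hc | hc
  · have e1 : γ / (4 * Q) ≤ (γ * k * (N - k) - (k : ℝ) ^ 2) / (Q : ℝ) ^ 2 := by
      have e2 : γ / (4 * Q) = γ * Q / 4 / (Q : ℝ) ^ 2 := by field_simp
      rw [e2]
      refine div_le_div_of_nonneg_right ?_ (by positivity)
      have e3 : γ * k ≤ k := by nlinarith
      have e4 : γ * Q ≤ γ * (2 * N) := mul_le_mul_of_nonneg_left h1' hγ0.le
      have e5 : γ * Q / 4 ≤ γ * (N - k) - k := by nlinarith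
      have e6 : 0 ≤ γ * Q / 4 := by positivity
      nlinarith
    have e7 : 0 ≤ 2 * Real.exp (-(a * γ * Q / 8)) * (1 + a) ^ (2 * k) := by positivity
    linarith
  · have e1 : -1 ≤ (γ * k * (N - k) - (k : ℝ) ^ 2) / (Q : ℝ) ^ 2 := by
      rw [le_div_iff₀ (by positivity)]
      have e2 : 0 ≤ γ * k * (N - k) := mul_nonneg (by positivity) (by linarith)
      have e3 : (k : ℝ) ^ 2 ≤ (Q : ℝ) ^ 2 := pow_le_pow_left₀ (by positivity) (by linarith) 2
      linarith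
    have e4 : γ / (4 * Q) ≤ 1 := by
      rw [div_le_one (by positivity)]
      linarith
    have e5 : Real.exp a ≤ (1 + a) ^ 2 := by
      have := (abs_le.1 (Real.abs_exp_sub_one_sub_id_le (x := a)
        (by rw [abs_of_nonneg ha0]; linarith))).2
      nlinarith
    have e6 : Real.exp (a * γ * Q / 8) ≤ (1 + a) ^ (2 * k) := by
      rw [pow_mul]
      refine le_trans ?_ (pow_le_pow_left₀ (Real.exp_pos a).le e5 k)
      rw [← Real.exp_nat_mul]
      refine Real.exp_le_exp.2 ?_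
      have e7 : γ * Q ≤ γ * (2 * N) := mul_le_mul_of_nonneg_left h1' hγ0.le
      have e8 : γ * Q / 8 ≤ k := by linarith
      nlinarith
    have e9 : 1 ≤ Real.exp (-(a * γ * Q / 8)) * (1 + a) ^ (2 * k) := by
      rw [Real.exp_neg, inv_mul_eq_div, le_div_iff₀ (Real.exp_pos _), one_mul]
      exact e6
    linarith

theorem step_plain (h : PairGap0 o P γ) (hγ0 : 0 < γ) (hγ : γ ≤ 1) (h1 : Q ≤ 2 * N) (h2 : N ≤ Q)
    (hQ : 0 < Q) {a : ℝ} (ha0 : 0 ≤ a) (ha : a ≤ 1 / 16) (w : (Fin N → ι) → ℝ)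
    (hw0 : w (fun _ => o) = 0) :
    ∑ α, popOp P Q w α ^ 2 ≤ (1 - γ / (4 * Q)) * ∑ α, w α ^ 2 +
      2 * Real.exp (-(a * γ * Q / 8)) * ∑ α, (∏ l, lw o a (α l)) * w α ^ 2 := by
  have hQ2 : (0 : ℝ) < (Q : ℝ) ^ 2 := by positivity
  have e1 : ∑ α, popOp P Q w α ^ 2 ≤ ∑ α, w α ^ 2 -
      (∑ p ∈ univ.offDiag, ∑ α, (w α ^ 2 - mv P w p α ^ 2)) / (Q : ℝ) ^ 2 := by
    rw [sum_comm, sum_div, ← sum_sub_distrib]
    exact sum_le_sum fun α _ => popOp_sq h2 hQ w α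
  have e2 : ∑ p ∈ (univ : Finset (Fin N)).offDiag, ∑ α, gain o γ (α p.1, α p.2) * w α ^ 2 ≤
      ∑ p ∈ univ.offDiag, ∑ α, (w α ^ 2 - mv P w p α ^ 2) :=
    sum_le_sum fun p hp => slice_gain h w (mem_offDiag.1 hp).2.2
  have e3 := div_le_div_of_nonneg_right e2 hQ2.le
  refine e1.trans ((sub_le_sub_left e3 _).trans ?_)
  rw [sum_comm, sum_div, ← sum_sub_distrib, mul_sum, mul_sum, ← sum_add_distrib]
  refine sum_le_sum fun α _ => ?_
  rw [← sum_mul, prod_lw]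
  rcases Nat.eq_zero_or_pos (univ.filter fun i => α i ≠ o).card with hk | hk
  · have e4 : α = fun _ => o := by
      funext i
      by_contra hi
      rw [card_eq_zero, filter_eq_empty_iff] at hk
      exact hk (mem_univ i) hi
    rw [e4, hw0]
    simp
  · have e4 := num_gain hγ0 hγ h1 h2 hQ ha0 ha hk ((card_le_univ _).trans (by simp))
    have e5 := div_le_div_of_nonneg_right (sum_gain (o := o) (γ := γ) α) hQ2.le
    have e6 := mul_le_mul_of_nonneg_right ((sub_le_sub_left e5 1).trans e4) (sq_nonneg (w α))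
    rw [mul_div_right_comm]
    linarith

end Pop0

open Pop0 in
theorem pop0_mix {ι : Type} [Fintype ι] [DecidableEq ι] {o : ι}
    {P : (ι × ι → ℝ) →ₗ[ℝ] (ι × ι → ℝ)} {γ : ℝ} (h : PairGap0 o P γ) (hγ0 : 0 < γ) (hγ : γ ≤ 1)
    {N Q : ℕ} (J : ℕ) (h1 : Q ≤ 2 * N) (h2 : N ≤ Q) (hQ : 0 < Q) {a : ℝ} (ha0 : 0 ≤ a)
    (ha : a ≤ 1 / 16) {w : (Fin N → ι) → ℝ} (hw0 : w (fun _ => o) = 0)
    (hw : ∑ α, (1 + a) ^ (2 * (univ.filter fun i => α i ≠ o).card) * w α ^ 2 ≤ 9) :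
    ∑ α, ((popOp P Q)^[J] w α) ^ 2 ≤
      9 * (Real.exp (-γ * J / (4 * Q)) + 8 * Q / γ * Real.exp (50 * a ^ 2 * J - a * γ * Q / 8)) := by
  have hQ0 : (0 : ℝ) < Q := by exact_mod_cast hQ
  have hQ1 : (1 : ℝ) ≤ Q := by exact_mod_cast hQ
  simp only [← prod_lw] at hw
  have z0 : ∀ t, (popOp P Q)^[t] w (fun _ => o) = 0 := by
    intro t
    induction t with
    | zero => exact hw0
    | succ t ih => rw [Function.iterate_succ_apply', popOp_const h, ih]
  have y0 : ∀ t : ℕ, ∑ α, (∏ l, lw o a (α l)) * (popOp P Q)^[t] w α ^ 2 ≤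
      9 * Real.exp (50 * a ^ 2 * t) := by
    intro t
    induction t with
    | zero => simpa using hw
    | succ t ih =>
      rw [Function.iterate_succ_apply']
      refine (step_weight h h2 hQ ha0 ha _).trans
        ((mul_le_mul_of_nonneg_left ih (Real.exp_pos _).le).trans (le_of_eq ?_))
      rw [mul_left_comm, ← Real.exp_add]
      congr 2
      push_cast
      ring
  have hr0 : 0 ≤ 1 - γ / (4 * Q) := by
    rw [sub_nonneg, div_le_one (by positivity)]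
    linarith
  have hr : 1 - γ / (4 * Q) ≤ Real.exp (-γ / (4 * Q)) := by
    have := Real.add_one_le_exp (-γ / (4 * Q))
    rw [neg_div] at this ⊢
    linarith
  have hA : 0 ≤ 8 * Q / γ * Real.exp (50 * a ^ 2 * J - a * γ * Q / 8) := by positivity
  have x0 : ∀ t : ℕ, t ≤ J → ∑ α, (popOp P Q)^[t] w α ^ 2 ≤
      9 * ((1 - γ / (4 * Q)) ^ t + 8 * Q / γ * Real.exp (50 * a ^ 2 * J - a * γ * Q / 8)) := by
    intro t
    induction t with
    | zero =>
      intro _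
      have e1 : ∑ α, w α ^ 2 ≤ ∑ α, (∏ l, lw o a (α l)) * w α ^ 2 :=
        sum_le_sum fun α _ => le_mul_of_one_le_left (sq_nonneg _)
          (by rw [prod_lw]; exact one_le_pow₀ (by linarith))
      simp only [Function.iterate_zero_apply, pow_zero]
      linarith
    | succ t ih =>
      intro ht
      rw [Function.iterate_succ_apply']
      refine (step_plain h hγ0 hγ h1 h2 hQ ha0 ha _ (z0 t)).trans ?_
      have e1 := mul_le_mul_of_nonneg_left (ih (by omega)) hr0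
      have e2 : Real.exp (50 * a ^ 2 * t) ≤ Real.exp (50 * a ^ 2 * J) := by
        refine Real.exp_le_exp.2 (mul_le_mul_of_nonneg_left ?_ (by positivity))
        exact_mod_cast (by omega : t ≤ J)
      have e3 := mul_le_mul_of_nonneg_left ((y0 t).trans
        (mul_le_mul_of_nonneg_left e2 (by norm_num)))
        (by positivity : 0 ≤ 2 * Real.exp (-(a * γ * Q / 8)))
      have e4 : 2 * Real.exp (-(a * γ * Q / 8)) * (9 * Real.exp (50 * a ^ 2 * J)) =
          γ / (4 * Q) * (9 * (8 * Q / γ * Real.exp (50 * a ^ 2 * J - a * γ * Q / 8))) := by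
        rw [sub_eq_add_neg, Real.exp_add]
        field_simp
        ring
      rw [pow_succ]
      linarith
  refine (x0 J le_rfl).trans ?_
  have e1 : (1 - γ / (4 * Q)) ^ J ≤ Real.exp (-γ * J / (4 * Q)) := by
    refine (pow_le_pow_left₀ hr0 hr J).trans (le_of_eq ?_)
    rw [← Real.exp_nat_mul]
    congr 1
    ring
  linarith

end Vale.Agent.P308
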