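import Vale.Agent.P308.Pop
import Vale.Agent.P308.Init
import Vale.Agent.P308.DriftY
import Vale.Agent.P308.DriftE
import Vale.Agent.P308.Final

namespace Vale.Agent.P308

open Finset

/-- the value function with `r` stages to go -/
noncomputable def procU (a : Par) (d : PM (Fin a.m)) (r : ℕ) : a.St → ℝ :=
  (fun (φ : a.St → ℝ) s => Ex (JJ a.q * Bs a.q) fun b => φ (a.stage d s b))^[r]
    fun s => a.bad s.2.1 s.2.2.1

theorem procU_succ (a : Par) (d : PM (Fin a.m)) (r : ℕ) (s : a.St) :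
    procU a d (r + 1) s = Ex (JJ a.q * Bs a.q) fun b => procU a d r (a.stage d s b) := by
  unfold procU
  rw [Function.iterate_succ_apply']

theorem procU_mem (a : Par) (d : PM (Fin a.m)) : ∀ (r : ℕ) (s : a.St),
    0 ≤ procU a d r s ∧ procU a d r s ≤ 1
  | 0, s => by
    change 0 ≤ a.bad s.2.1 s.2.2.1 ∧ a.bad s.2.1 s.2.2.1 ≤ 1
    unfold Par.bad
    split_ifs <;> norm_num
  | r + 1, s => by
    rw [procU_succ]
    exact ⟨(Ex_const _ 0).ge.trans (Ex_mono fun w _ => (procU_mem a d r _).1),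
      (Ex_mono fun w _ => (procU_mem a d r _).2).trans (Ex_const _ 1).le⟩

theorem proc_two_pow (q : ℕ) : 2 ^ (1000 * q) = QQ q ^ 1000 := by
  rw [QQ, ← pow_mul, mul_comm]

theorem proc_pow_exp {Q c x y : ℝ} (k : ℕ) (hQ : 0 ≤ Q) (hc : c ≤ Q) (h : (k + 1) * Q + x ≤ y) :
    c * Q ^ k * Real.exp x ≤ Real.exp y := by
  have h1 : Q ≤ Real.exp Q := by linarith [Real.add_one_le_exp Q]
  have h2 : Q ^ (k + 1) ≤ Real.exp Q ^ (k + 1) := pow_le_pow_left₀ hQ h1 _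
  rw [← Real.exp_nat_mul] at h2
  calc c * Q ^ k * Real.exp x ≤ Q ^ (k + 1) * Real.exp x := by
        refine mul_le_mul_of_nonneg_right ?_ (Real.exp_pos x).le
        rw [pow_succ']
        exact mul_le_mul_of_nonneg_right hc (pow_nonneg hQ k)
    _ ≤ Real.exp (((k + 1 : ℕ) : ℝ) * Q) * Real.exp x :=
        mul_le_mul_of_nonneg_right h2 (Real.exp_pos x).le
    _ ≤ Real.exp y := by
        rw [← Real.exp_add]
        exact Real.exp_le_exp.2 (by push_cast; exact h)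

theorem proc_mix_le {Q : ℝ} (hQ : 65536 ≤ Q) :
    3 * √(Real.exp (-(1 / Q ^ 300) * Q ^ 1303 / (4 * Q ^ 1000)) + 8 * Q ^ 1000 / (1 / Q ^ 300) *
      Real.exp (50 * (1 / Q ^ 605) ^ 2 * Q ^ 1303 - 1 / Q ^ 605 * (1 / Q ^ 300) * Q ^ 1000 / 8)) ≤
      6 * Real.exp (-Q ^ 3 / 8) := by
  have h0 : 0 < Q := by linarith
  have e1 : -(1 / Q ^ 300) * Q ^ 1303 / (4 * Q ^ 1000) = -Q ^ 3 / 4 := by field_simp
  have e2 : 8 * Q ^ 1000 / (1 / Q ^ 300) = 8 * Q ^ 1300 := by field_simp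
  have e3 : 50 * (1 / Q ^ 605) ^ 2 * Q ^ 1303 - 1 / Q ^ 605 * (1 / Q ^ 300) * Q ^ 1000 / 8 =
      Q ^ 93 * (50 - Q ^ 2 / 8) := by field_simp
  have h1 : Q ^ 3 ≤ Q ^ 93 := pow_le_pow_right₀ (by linarith) (by norm_num)
  have h2 : 65536 * Q ≤ Q ^ 2 := by nlinarith
  have h3 : 65536 * Q ≤ Q ^ 3 := h2.trans (pow_le_pow_right₀ (by linarith) (by norm_num))
  have h4 : Q ^ 93 * (50 - Q ^ 2 / 8) ≤ Q ^ 93 * (-1) :=
    mul_le_mul_of_nonneg_left (by linarith) (by positivity)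
  have h5 : 8 * Q ^ 1300 * Real.exp (Q ^ 93 * (50 - Q ^ 2 / 8)) ≤ Real.exp (-Q ^ 3 / 4) :=
    proc_pow_exp 1300 h0.le (by linarith) (by push_cast; linarith)
  rw [e1, e2, e3]
  have e4 : Real.exp (-Q ^ 3 / 4) = Real.exp (-Q ^ 3 / 8) ^ 2 := by
    rw [← Real.exp_nat_mul]; congr 1; push_cast; ring
  have h6 : √(Real.exp (-Q ^ 3 / 4) + 8 * Q ^ 1300 * Real.exp (Q ^ 93 * (50 - Q ^ 2 / 8))) ≤
      2 * Real.exp (-Q ^ 3 / 8) := by
    refine Real.sqrt_le_iff.2 ⟨by positivity, ?_⟩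
    rw [mul_pow, ← e4]
    linarith [Real.exp_pos (-Q ^ 3 / 4)]
  linarith

theorem proc_end {Q T : ℝ} {n : ℕ} (hQ : 65536 ≤ Q) (hn : Q = n) (hT : T ≤ 2 * Q ^ 512) :
    2 * Q * Real.exp (-Q ^ 3) + 2 * Real.exp (1 - Q ^ 2 / 16) +
      T * (6 * Q * Real.exp (-Q ^ 3) + 6 * Real.exp (-Q ^ 3 / 8)) ≤ (1 / 2) ^ n := by
  have h0 : 0 < Q := by linarith
  have h2 : 65536 * Q ≤ Q ^ 2 := by nlinarith
  have h3 : 65536 * Q ≤ Q ^ 3 := h2.trans (pow_le_pow_right₀ (by linarith) (by norm_num))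
  have a1 : 2 * Q ^ 1 * Real.exp (-Q ^ 3) ≤ Real.exp (-2 * Q) :=
    proc_pow_exp 1 h0.le (by linarith) (by push_cast; linarith)
  have a2 : 2 * Q ^ 0 * Real.exp (1 - Q ^ 2 / 16) ≤ Real.exp (-2 * Q) :=
    proc_pow_exp 0 h0.le (by linarith) (by push_cast; linarith)
  have a3 : 12 * Q ^ 513 * Real.exp (-Q ^ 3) ≤ Real.exp (-2 * Q) :=
    proc_pow_exp 513 h0.le (by linarith) (by push_cast; linarith)
  have a4 : 12 * Q ^ 512 * Real.exp (-Q ^ 3 / 8) ≤ Real.exp (-2 * Q) :=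
    proc_pow_exp 512 h0.le (by linarith) (by push_cast; linarith)
  have a5 : 4 * Q ^ 0 * Real.exp (-2 * Q) ≤ Real.exp (-Q) :=
    proc_pow_exp 0 h0.le (by linarith) (by push_cast; linarith)
  have a6 : T * (6 * Q * Real.exp (-Q ^ 3) + 6 * Real.exp (-Q ^ 3 / 8)) ≤
      2 * Q ^ 512 * (6 * Q * Real.exp (-Q ^ 3) + 6 * Real.exp (-Q ^ 3 / 8)) :=
    mul_le_mul_of_nonneg_right hT (by positivity)
  have a7 : Real.exp (-Q) ≤ (1 / 2) ^ n := by
    have : Real.exp (-Q) = Real.exp (-1) ^ n := by rw [← Real.exp_nat_mul, hn]; congr 1; ring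
    rw [this]
    refine pow_le_pow_left₀ (Real.exp_pos _).le ?_ n
    rw [Real.exp_neg, one_div]
    exact inv_anti₀ (by norm_num) (by linarith [Real.add_one_le_exp (1 : ℝ)])
  have e : 2 * Q ^ 512 * (6 * Q * Real.exp (-Q ^ 3) + 6 * Real.exp (-Q ^ 3 / 8)) =
      12 * Q ^ 513 * Real.exp (-Q ^ 3) + 12 * Q ^ 512 * Real.exp (-Q ^ 3 / 8) := by ring
  rw [pow_one] at a1
  rw [pow_zero, mul_one] at a2 a5
  linarith

theorem proc_sum_prod {Ω : Type} [Fintype Ω] {μ : Ω → ℝ} (h : ∑ x, μ x = 1) (N : ℕ) :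
    ∑ x : Fin N → Ω, ∏ i, μ (x i) = 1 := by
  classical
  have := Finset.prod_univ_sum (fun _ : Fin N => (univ : Finset Ω)) fun _ x => μ x
  rw [Fintype.piFinset_univ] at this
  rw [← this]
  simp [h]

theorem proc_stage {a : Par} (h : a.OK) (d : PM (Fin a.m)) (r : ℕ) {t : ℕ} {g : Fin a.m → ℕ}
    (S : ℕ) (ht : t ≤ TT a.q) (hg : ∀ x, g x ≤ cc a.q * t) {N : ℕ} (hN : N ≤ QQ a.q ^ 1000)
    (x : Fin N → PM (Fin a.m)) :
    procU a d (r + 1) (t, g, S, List.ofFn x) =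
      (popOp (pairL (a.wM t g) (be a.q) (QQ a.q)) (QQ a.q ^ 1000))^[JJ a.q]
        (fun y => procU a d r (a.probe d t g S (List.ofFn y))) x := by
  have hq := h.big
  have hP : ∀ G z, Ex (Bp a.q) (fun w => G (a.pairC (a.wM t g) z w)) =
      pairL (a.wM t g) (be a.q) (QQ a.q) G z := fun G z => by
    rw [be_eq]
    exact Ex_metG (a.wM t g) (by omega) (Par.cost2_le h ht hg) G z
  rw [procU_succ, ← proc_two_pow]
  exact Ex_popFold d hP (by rw [proc_two_pow]; exact hN) (JJ a.q)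
    (fun P => procU a d r (a.probe d t g S P)) x

theorem proc_claim {a : Par} (h : a.OK) (d : PM (Fin a.m)) : ∀ (r t : ℕ) (g : Fin a.m → ℕ)
    (S N : ℕ) (μ : PM (Fin a.m) → ℝ), t + r = TT a.q → (∀ x, g x ≤ cc a.q * t) →
    QQ a.q ^ 1000 + 4 * r ≤ 2 * N → N ≤ QQ a.q ^ 1000 → (∀ x, 0 ≤ μ x) → ∑ x, μ x = 1 →
    (QQ a.q : ℝ) ^ 1000 * ∑ X, (μ X - a.pi t g X) ^ 2 / a.pi t g X ≤ 1 →
    ∑ x : Fin N → PM (Fin a.m), (∏ i, μ (x i)) * procU a d r (t, g, S, List.ofFn x) ≤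
      a.PhiY t g + a.PhiE t g S + r * (6 * QQ a.q * Real.exp (-(QQ a.q : ℝ) ^ 3) +
        6 * Real.exp (-(QQ a.q : ℝ) ^ 3 / 8)) := by
  have hQ : (65536 : ℝ) ≤ QQ a.q := by exact_mod_cast QQ_ge h.big
  have hκ : 0 ≤ 6 * QQ a.q * Real.exp (-(QQ a.q : ℝ) ^ 3) +
    6 * Real.exp (-(QQ a.q : ℝ) ^ 3 / 8) := by positivity
  have triv : ∀ (r t : ℕ) (g : Fin a.m → ℕ) (S N : ℕ) (μ : PM (Fin a.m) → ℝ), (∀ x, 0 ≤ μ x) →
      ∑ x, μ x = 1 →
      ∑ x : Fin N → PM (Fin a.m), (∏ i, μ (x i)) * procU a d r (t, g, S, List.ofFn x) ≤ 1 := by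
    intro r t g S N μ h0 h1
    rw [← proc_sum_prod h1 N]
    exact sum_le_sum fun x _ => mul_le_of_le_one_right (prod_nonneg fun i _ => h0 _)
      (procU_mem a d r _).2
  intro r
  induction r with
  | zero =>
    intro t g S N μ ht hg _ _ h0 h1 _
    have y0 := a.PhiY_nonneg t g
    have y1 := a.PhiE_nonneg t g S
    rw [Nat.cast_zero, zero_mul, add_zero]
    by_cases hb : 1 ≤ a.PhiY t g + a.PhiE t g S
    · exact (triv 0 t g S N μ h0 h1).trans hb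
    obtain rfl : t = TT a.q := ht
    have e : a.bad g S = 0 := Par.final h hg (by linarith) (by linarith)
    have e2 : ∀ x : Fin N → PM (Fin a.m), procU a d 0 (TT a.q, g, S, List.ofFn x) = 0 :=
      fun _ => e
    simp only [e2, mul_zero, sum_const_zero]
    linarith
  | succ r ih =>
    intro t g S N μ ht hg hN1 hN2 h0 h1 hχ
    have y0 := a.PhiY_nonneg t g
    have y1 := a.PhiE_nonneg t g S
    by_cases hb : 1 ≤ a.PhiY t g + a.PhiE t g S
    · exact (triv _ t g S N μ h0 h1).trans (hb.trans (le_add_of_nonneg_right (by positivity)))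
    have htT : t < TT a.q := by omega
    have hQ0 : (0 : ℝ) < QQ a.q := by linarith
    have hQ1 : (1 : ℝ) ≤ QQ a.q := by linarith
    have hQn : 0 < QQ a.q ^ 1000 := pow_pos (by exact_mod_cast hQ0) _
    simp only [proc_stage h d r S htT.le hg hN2]
    have hmix := pop_mix (Par.gap h htT.le g) (by positivity)
      (by rw [div_le_one (by positivity)]; exact one_le_pow₀ hQ1) (N := N) (Q := QQ a.q ^ 1000)
      (JJ a.q) (by omega) hN2 hQn (a := 1 / (QQ a.q : ℝ) ^ 605) (by positivity)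
      (one_div_le_one_div_of_le (by norm_num)
        ((by linarith : (16 : ℝ) ≤ QQ a.q).trans (le_self_pow₀ hQ1 (by norm_num))))
      h1 (by rw [Nat.cast_pow]; exact hχ)
      (F := fun y => procU a d r (a.probe d t g S (List.ofFn y)))
      (fun _ => (procU_mem a d r _).1) (fun _ => (procU_mem a d r _).2)
    have hm := proc_mix_le hQ
    rw [JJ, Nat.cast_pow, Nat.cast_pow] at hmix
    rw [JJ]
    refine hmix.trans ?_
    obtain ⟨N', rfl⟩ : ∃ N', N = N' + 1 + 1 := ⟨N - 2, by omega⟩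
    have hπ0 : ∀ X, 0 ≤ a.pi t g X := fun X => (Par.pi_pos h t g X).le
    have hπ1 := Par.pi_sum h t g
    rw [sum_ofFn_succ (a.pi t g) (N' + 1) fun P => procU a d r (a.probe d t g S P)]
    have step : ∀ X : PM (Fin a.m), ∑ x : Fin (N' + 1) → PM (Fin a.m),
        (∏ i, a.pi t g (x i)) * procU a d r (a.probe d t g S (X :: List.ofFn x)) ≤
        a.PhiY (t + 1) (a.upd t g (X.1 a.o)) + a.PhiE t g S +
          r * (6 * QQ a.q * Real.exp (-(QQ a.q : ℝ) ^ 3) +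
            6 * Real.exp (-(QQ a.q : ℝ) ^ 3 / 8)) := by
      intro X
      rw [sum_ofFn_succ (a.pi t g) N' fun P => procU a d r (a.probe d t g S (X :: P))]
      have hE := Par.driftE h t g S (X.1 a.o)
      calc _ ≤ ∑ Y, a.pi t g Y * (a.PhiY (t + 1) (a.upd t g (X.1 a.o)) +
            a.PhiE (t + 1) (a.upd t g (X.1 a.o)) (a.nextS t g S (X.1 a.o) Y) +
            r * (6 * QQ a.q * Real.exp (-(QQ a.q : ℝ) ^ 3) +
              6 * Real.exp (-(QQ a.q : ℝ) ^ 3 / 8))) :=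
            sum_le_sum fun Y _ => mul_le_mul_of_nonneg_left
              (ih (t + 1) (a.upd t g (X.1 a.o)) (a.nextS t g S (X.1 a.o) Y) N' (a.pi t g)
                (by omega) (Par.upd_le hg _) (by omega) (by omega) hπ0 hπ1
                (Par.chi_step h t g _)) (hπ0 Y)
        _ ≤ _ := by
            simp only [mul_add, sum_add_distrib, ← sum_mul, hπ1, one_mul]
            linarith
    have hY := Par.driftY h htT hg (Par.PhiY_lt (by linarith))
    have h2 := sum_le_sum fun X (_ : X ∈ univ) => mul_le_mul_of_nonneg_left (step X) (hπ0 X)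
    simp only [mul_add, sum_add_distrib, ← sum_mul, hπ1, one_mul] at h2
    push_cast
    linarith

theorem proc_chi {a : Par} (h : a.OK) (d : PM (Fin a.m)) :
    (QQ a.q : ℝ) ^ 1000 * ∑ X, (Ex (a.m * QQ a.q ^ 2)
      (fun w => if initC d (QQ a.q ^ 2) w = X then 1 else 0) - a.pi 0 (fun _ => 0) X) ^ 2 /
        a.pi 0 (fun _ => 0) X ≤ 1 := by
  have hQ := QQ_ge h.big
  have hm := h.lt
  have hq : 2 * a.q ≤ QQ a.q := by
    obtain ⟨k, hk⟩ : ∃ k, a.q = k + 1 := ⟨a.q - 1, by have := h.big; omega⟩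
    have := lt_QQ k
    rw [hk, QQ, pow_succ]
    rw [QQ] at this
    omega
  have hc := card_PM_le a.m
  set c := Fintype.card (PM (Fin a.m)) with hcdef
  have hc0 : 0 < c := Fintype.card_pos_iff.2 ⟨d⟩
  have hnat : QQ a.q ^ 1000 * (c * c * (a.m ^ 2) ^ 2) ≤ (2 ^ QQ a.q ^ 2) ^ 2 := by
    have b1 : c ≤ QQ a.q ^ QQ a.q :=
      hc.trans ((Nat.pow_le_pow_left hm.le _).trans (Nat.pow_le_pow_right (by omega) hm.le))
    have b2 : (a.m ^ 2) ^ 2 ≤ (QQ a.q ^ 2) ^ 2 :=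
      Nat.pow_le_pow_left (Nat.pow_le_pow_left hm.le _) _
    calc _ ≤ QQ a.q ^ 1000 * (QQ a.q ^ QQ a.q * QQ a.q ^ QQ a.q * (QQ a.q ^ 2) ^ 2) :=
          Nat.mul_le_mul_left _ (Nat.mul_le_mul (Nat.mul_le_mul b1 b1) b2)
      _ = QQ a.q ^ (1004 + 2 * QQ a.q) := by ring
      _ = 2 ^ (a.q * (1004 + 2 * QQ a.q)) := by rw [pow_mul]; rfl
      _ ≤ _ := by
          rw [← pow_mul]
          refine Nat.pow_le_pow_right (by norm_num) ?_
          nlinarith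
  have hreal : (QQ a.q : ℝ) ^ 1000 * (c * c * ((a.m : ℝ) ^ 2) ^ 2) ≤ (2 ^ QQ a.q ^ 2) ^ 2 := by
    exact_mod_cast hnat
  have hc0' : (0 : ℝ) < c := by exact_mod_cast hc0
  have hs : ∑ X, (Ex (a.m * QQ a.q ^ 2)
      (fun w => if initC d (QQ a.q ^ 2) w = X then 1 else 0) - a.pi 0 (fun _ => 0) X) ^ 2 /
        a.pi 0 (fun _ => 0) X ≤ ∑ _X : PM (Fin a.m), ((a.m : ℝ) ^ 2 / 2 ^ QQ a.q ^ 2) ^ 2 * c := by
    refine sum_le_sum fun X _ => ?_
    rw [Par.pi_zero h, div_div_eq_mul_div, div_one]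
    refine mul_le_mul_of_nonneg_right ?_ hc0'.le
    rw [← sq_abs]
    exact pow_le_pow_left₀ (abs_nonneg _) (init_law h.even d _ X) 2
  rw [sum_const, card_univ, nsmul_eq_mul, ← hcdef] at hs
  refine (mul_le_mul_of_nonneg_left hs (by positivity)).trans ?_
  rw [← div_le_one (by positivity)] at hreal
  refine le_trans (le_of_eq ?_) hreal
  rw [div_pow]
  ring

theorem Par.proc {a : Par} (h : a.OK) (d : PM (Fin a.m)) {T : ℕ} (hT : a.CC ≤ T) :
    Ex T (fun w => a.bad (a.run d w).2.1 (a.run d w).2.2.1) ≤ (1 / 2) ^ QQ a.q := by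
  obtain ⟨T', rfl⟩ : ∃ T', T = a.C0 + T' := ⟨T - a.C0, by unfold Par.CC at hT; omega⟩
  have hT' : TT a.q * (JJ a.q * Bs a.q) ≤ T' := by unfold Par.CC at hT; omega
  have e1 : Ex (a.C0 + T') (fun w => a.bad (a.run d w).2.1 (a.run d w).2.2.1) =
      Ex a.C0 fun u => procU a d (TT a.q) (0, fun _ => 0, 0, a.pop0 d u) := by
    let ψ : a.St → ℝ := fun s => a.bad s.2.1 s.2.2.1
    let f : List Bool → List Bool → ℝ := fun u v =>
      ψ ((chunks (JJ a.q * Bs a.q) (TT a.q) v).foldl (a.stage d) (0, fun _ => 0, 0, a.pop0 d u))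
    have b1 : ∀ w : List Bool, a.bad (a.run d w).2.1 (a.run d w).2.2.1 =
        f (w.take a.C0) (w.drop a.C0) := fun w => by
      simp only [f, ψ, Par.run, Par.pop0, Par.C0, chunks_take]
    simp only [b1]
    rw [Ex_split]
    refine Ex_congr fun u _ => ?_
    have b2 : f u = fun v => f u (v.take (TT a.q * (JJ a.q * Bs a.q))) := funext fun v => by
      simp only [f, chunks_take]
    rw [b2, Ex_take hT']
    exact Ex_fold (a.stage d) _ ψ _ _
  have e2 := Ex_prod (initC d (QQ a.q ^ 2)) (a.m * QQ a.q ^ 2) (QQ a.q ^ 1000)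
    fun P => procU a d (TT a.q) (0, fun _ => 0, 0, P)
  have hQ := QQ_ge h.big
  have hTT := TT_le h.big
  have hN : QQ a.q ^ 1000 + 4 * TT a.q ≤ 2 * QQ a.q ^ 1000 := by
    have b1 : QQ a.q ^ (512 + 1) ≤ QQ a.q ^ 1000 :=
      Nat.pow_le_pow_right (lt_of_lt_of_le (by norm_num) hQ) (by norm_num)
    have b2 : QQ a.q ^ 512 * 8 ≤ QQ a.q ^ 512 * QQ a.q :=
      Nat.mul_le_mul_left _ (le_trans (by norm_num) hQ)
    rw [pow_succ] at b1
    omega
  have h3 := proc_claim h d (TT a.q) 0 (fun _ => 0) 0 (QQ a.q ^ 1000)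
    (fun X => Ex (a.m * QQ a.q ^ 2) fun w => if initC d (QQ a.q ^ 2) w = X then 1 else 0)
    (zero_add _) (fun _ => Nat.zero_le _) hN le_rfl
    (fun X => (Ex_const _ 0).ge.trans (Ex_mono fun w _ => by split_ifs <;> norm_num))
    (init_sum d _) (proc_chi h d)
  have h4 := proc_end (Q := QQ a.q) (T := TT a.q) (n := QQ a.q) (by exact_mod_cast hQ) rfl
    (by exact_mod_cast hTT)
  have h5 := Par.PhiY_zero h
  have h6 := Par.PhiE_zero h
  rw [e1]
  refine (le_of_eq e2).trans (h3.trans ?_)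
  linarith

end Vale.Agent.P308
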