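import Vale.Agent.P308.Model

namespace Vale.Agent.P308

open Finset

section
variable {m : ℕ} {c c' : Fin m → Fin m → ℕ}

theorem Ultra_succ (c : Fin m → Fin m → ℕ) {j : ℕ} (h : j < m) (x y : Fin m) :
    FW c (j + 1) x y = min (FW c j x y) (max (FW c j x ⟨j, h⟩) (FW c j ⟨j, h⟩ y)) := by
  rw [FW]; exact dif_pos h

theorem Ultra_succ' (c : Fin m → Fin m → ℕ) {j : ℕ} (h : ¬ j < m) (x y : Fin m) :
    FW c (j + 1) x y = FW c j x y := by
  rw [FW]; exact dif_neg h

theorem FW_le (c : Fin m → Fin m → ℕ) (j : ℕ) (x y : Fin m) : FW c j x y ≤ c x y := by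
  induction j with
  | zero => exact le_rfl
  | succ j ih =>
    by_cases h : j < m
    · rw [Ultra_succ c h]; exact le_trans (min_le_left _ _) ih
    · rw [Ultra_succ' c h]; exact ih

theorem FW_symm (h : ∀ x y, c x y = c y x) (j : ℕ) (x y : Fin m) : FW c j x y = FW c j y x := by
  induction j generalizing x y with
  | zero => exact h x y
  | succ j ih =>
    by_cases hj : j < m
    · rw [Ultra_succ c hj, Ultra_succ c hj, ih x y, ih x, ih _ y, max_comm]
    · rw [Ultra_succ' c hj, Ultra_succ' c hj]; exact ih x y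

theorem FW_mono {e : ℕ} (h : ∀ x y, c x y ≤ c' x y + e) (j : ℕ) (x y : Fin m) :
    FW c j x y ≤ FW c' j x y + e := by
  induction j generalizing x y with
  | zero => exact h x y
  | succ j ih =>
    by_cases hj : j < m
    · rw [Ultra_succ c hj, Ultra_succ c' hj]
      have h1 := ih x y
      have h2 := ih x ⟨j, hj⟩
      have h3 := ih ⟨j, hj⟩ y
      omega
    · rw [Ultra_succ' c hj, Ultra_succ' c' hj]; exact ih x y

theorem Ultra_pivot (c : Fin m → Fin m → ℕ) (j : ℕ) (i : Fin m) (hi : i.val < j) (x y : Fin m) :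
    FW c j x y ≤ max (FW c j x i) (FW c j i y) := by
  induction j generalizing x y with
  | zero => omega
  | succ j ih =>
    by_cases hj : j < m
    · rw [Ultra_succ c hj, Ultra_succ c hj, Ultra_succ c hj]
      by_cases he : i.val = j
      · have : i = ⟨j, hj⟩ := Fin.ext he
        rw [← this]
        omega
      · have h1 := ih (by omega) x y
        have h2 := ih (by omega) x ⟨j, hj⟩
        have h3 := ih (by omega) ⟨j, hj⟩ y
        omega
    · rw [Ultra_succ' c hj, Ultra_succ' c hj, Ultra_succ' c hj]
      exact ih (by have := i.2; omega) x y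

theorem FW_ultra (c : Fin m → Fin m → ℕ) (x y z : Fin m) :
    FW c m x z ≤ max (FW c m x y) (FW c m y z) := Ultra_pivot c m y y.2 x z

theorem FW_path {k : ℕ} {j : ℕ} {x y : Fin m} (h : FW c j x y ≤ k) :
    Relation.ReflTransGen (fun u v => c u v ≤ k) x y := by
  induction j generalizing x y with
  | zero => exact Relation.ReflTransGen.single h
  | succ j ih =>
    by_cases hj : j < m
    · rw [Ultra_succ c hj] at h
      rcases min_le_iff.1 h with h1 | h1
      · exact ih h1
      · exact (ih (le_trans (le_max_left _ _) h1)).trans (ih (le_trans (le_max_right _ _) h1))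
    · rw [Ultra_succ' c hj] at h; exact ih h

theorem FW_root {B : ℕ} {o : Fin m} (h : ∀ x, x ≠ o → B ≤ c x o) (j : ℕ) {x : Fin m} (hx : x ≠ o) :
    B ≤ FW c j x o := by
  induction j generalizing x with
  | zero => exact h x hx
  | succ j ih =>
    by_cases hj : j < m
    · rw [Ultra_succ c hj]
      refine le_min (ih hx) ?_
      by_cases he : (⟨j, hj⟩ : Fin m) = o
      · rw [he]; exact le_trans (ih hx) (le_max_left _ _)
      · exact le_trans (ih he) (le_max_right _ _)
    · rw [Ultra_succ' c hj]; exact ih hx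

end

end Vale.Agent.P308
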