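import Vale.Agent.P308.Ultra
import Vale.Agent.P308.Gap

namespace Vale.Agent.P308

open Finset

section
variable {q : ℕ} {a : Par} {t : ℕ} {g : Fin a.m → ℕ}

theorem QQ_ge (hq : 16 ≤ q) : 65536 ≤ QQ q :=
  Nat.pow_le_pow_right (n := 2) (by norm_num) hq

theorem lt_QQ (q : ℕ) : q < QQ q := Nat.lt_two_pow_self

theorem wtsA_QQ_pos (q : ℕ) : 0 < QQ q := Nat.two_pow_pos q

theorem wtsA_pow_le (q : ℕ) {i j : ℕ} (h : i ≤ j) : QQ q ^ i ≤ QQ q ^ j :=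
  Nat.pow_le_pow_right (wtsA_QQ_pos q) h

theorem wtsA_mul_pow (hq : 16 ≤ q) {c : ℕ} (hc : c ≤ 65536) (i : ℕ) :
    c * QQ q ^ i ≤ QQ q ^ (i + 1) := by
  rw [pow_succ']
  exact Nat.mul_le_mul_right _ (hc.trans (QQ_ge hq))

theorem wtsA_DD_le (hq : 16 ≤ q) : DD q ≤ QQ q ^ 512 := by
  have h1 : 3 * q ≤ QQ q ^ 2 := by
    rw [sq]
    exact Nat.mul_le_mul (le_trans (by norm_num) (QQ_ge hq)) (lt_QQ q).le
  calc DD q ≤ QQ q ^ 2 * QQ q ^ 510 := Nat.mul_le_mul_right _ h1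
    _ = QQ q ^ 512 := by rw [← pow_add]

theorem TT_le (hq : 16 ≤ q) : TT q ≤ 2 * QQ q ^ 512 := by
  have := wtsA_DD_le hq
  unfold TT T1
  omega

theorem be_eq (q : ℕ) : be q = 1 - 1 / 2 ^ (510 * q) := by
  rw [be, QQ, Nat.cast_pow, ← pow_mul, mul_comm, Nat.cast_ofNat]

theorem wtsA_QQ_real (hq : 16 ≤ q) : (65536 : ℝ) ≤ QQ q := by exact_mod_cast QQ_ge hq

theorem wtsA_pow_real (hq : 16 ≤ q) {i : ℕ} (hi : i ≠ 0) : (65536 : ℝ) ≤ (QQ q : ℝ) ^ i :=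
  (wtsA_QQ_real hq).trans (le_self_pow₀ (le_trans (by norm_num) (wtsA_QQ_real hq)) hi)

theorem wtsA_inv_le (hq : 16 ≤ q) : 1 / (QQ q : ℝ) ^ 510 ≤ 1 / 4 :=
  one_div_le_one_div_of_le (by norm_num)
    (le_trans (by norm_num) (wtsA_pow_real hq (by norm_num)))

theorem wtsA_R_pos (q : ℕ) (i : ℕ) : (0 : ℝ) < (QQ q : ℝ) ^ i :=
  pow_pos (Nat.cast_pos.2 (wtsA_QQ_pos q)) i

theorem be_pos (hq : 16 ≤ q) : 0 < be q := by
  have := wtsA_inv_le hq
  unfold be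
  linarith

theorem be_lt (q : ℕ) : be q < 1 := by
  have := one_div_pos.2 (wtsA_R_pos q 510)
  unfold be
  linarith

theorem log_be_le (hq : 16 ≤ q) : Real.log (be q) ≤ -1 / (QQ q : ℝ) ^ 510 := by
  have := Real.log_le_sub_one_of_pos (be_pos hq)
  rw [neg_div]
  unfold be at this ⊢
  linarith

theorem wtsA_log_ge {x : ℝ} (h0 : 0 ≤ x) (h1 : x ≤ 1 / 4) : -(4 / 3 * x) ≤ Real.log (1 - x) := by
  have h2 : 0 < 1 - x := by linarith
  refine le_trans ?_ (Real.one_sub_inv_le_log_of_pos h2)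
  have h3 : (1 - x)⁻¹ ≤ 1 + 4 / 3 * x := by
    rw [inv_le_iff_one_le_mul₀ h2]
    nlinarith
  linarith

theorem log_be_ge (hq : 16 ≤ q) : -2 / (QQ q : ℝ) ^ 510 ≤ Real.log (be q) := by
  have h0 := one_div_pos.2 (wtsA_R_pos q 510)
  have h1 := wtsA_log_ge h0.le (wtsA_inv_le hq)
  have h2 : -2 / (QQ q : ℝ) ^ 510 = -2 * (1 / (QQ q : ℝ) ^ 510) := (mul_one_div _ _).symm
  rw [h2, be]
  linarith

theorem wtsA_be_pow (hq : 16 ≤ q) (n : ℕ) : be q ^ n = Real.exp (n * Real.log (be q)) := by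
  rw [Real.exp_nat_mul, Real.exp_log (be_pos hq)]

theorem wtsA_be_R_le (hq : 16 ≤ q) : be q ^ (QQ q ^ 510) ≤ 1 / 2 := by
  have h0 := wtsA_R_pos q 510
  have h1 := mul_le_mul_of_nonneg_left (log_be_le hq) h0.le
  rw [mul_div_cancel₀ _ h0.ne'] at h1
  rw [wtsA_be_pow hq, Nat.cast_pow]
  refine (Real.exp_le_exp.2 h1).trans ?_
  rw [Real.exp_neg, inv_eq_one_div]
  refine one_div_le_one_div_of_le (by norm_num) ?_
  have := Real.add_one_le_exp 1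
  linarith

theorem wtsA_be_R_ge (hq : 16 ≤ q) : 1 / 4 ≤ be q ^ (QQ q ^ 510) := by
  have h0 := wtsA_R_pos q 510
  have h1 := mul_le_mul_of_nonneg_left
    (wtsA_log_ge (one_div_pos.2 h0).le (wtsA_inv_le hq)) h0.le
  have h2 : (QQ q : ℝ) ^ 510 * -(4 / 3 * (1 / (QQ q : ℝ) ^ 510)) = -(4 / 3) := by
    generalize (QQ q : ℝ) ^ 510 = R at h0 ⊢
    field_simp
  rw [h2] at h1
  rw [wtsA_be_pow hq, Nat.cast_pow]
  refine le_trans ?_ (Real.exp_le_exp.2 h1)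
  have h3 : (1 / 4 : ℝ) = Real.exp (-(2 * Real.log 2)) := by
    rw [Real.exp_neg, two_mul, Real.exp_add, Real.exp_log (by norm_num)]
    norm_num
  rw [h3]
  refine Real.exp_le_exp.2 ?_
  have := Real.log_two_gt_d9
  linarith

theorem be_DD_le (hq : 16 ≤ q) : be q ^ DD q ≤ 1 / (QQ q : ℝ) ^ 3 := by
  rw [DD, mul_comm, pow_mul]
  refine (pow_le_pow_left₀ (pow_pos (be_pos hq) _).le (wtsA_be_R_le hq) _).trans (le_of_eq ?_)
  rw [QQ, Nat.cast_pow, ← pow_mul, one_div_pow, mul_comm, Nat.cast_ofNat]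

theorem be_DD_ge (hq : 16 ≤ q) : 1 / (QQ q : ℝ) ^ 6 ≤ be q ^ DD q := by
  rw [DD, mul_comm, pow_mul]
  refine le_trans (le_of_eq ?_) (pow_le_pow_left₀ (by norm_num) (wtsA_be_R_ge hq) _)
  have h1 : (4 : ℝ) = 2 ^ 2 := by norm_num
  rw [QQ, Nat.cast_pow, ← pow_mul, one_div_pow, h1, ← pow_mul, Nat.cast_ofNat]
  congr 2
  ring

theorem be_T1_le (hq : 16 ≤ q) : be q ^ T1 q ≤ Real.exp (-(QQ q : ℝ) ^ 2) := by
  have h0 := wtsA_R_pos q 510
  have h1 := mul_le_mul_of_nonneg_left (log_be_le hq) (wtsA_R_pos q 512).le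
  have h2 : (QQ q : ℝ) ^ 512 = (QQ q : ℝ) ^ 2 * (QQ q : ℝ) ^ 510 := by rw [← pow_add]
  rw [wtsA_be_pow hq, T1, Nat.cast_pow]
  refine Real.exp_le_exp.2 (h1.trans (le_of_eq ?_))
  rw [h2, mul_assoc, mul_div_cancel₀ _ h0.ne', mul_neg_one]

theorem Par.OK.nonempty (h : a.OK) : Nonempty (PM (Fin a.m)) := ⟨pm0 h.even⟩

theorem Par.cM_symm (h : a.OK) (t : ℕ) (g : Fin a.m → ℕ) (x y : Fin a.m) :
    a.cM t g x y = a.cM t g y x := by
  simp only [Par.cM, h.symm x y, eq_comm (a := x) (b := y), or_comm (a := x = a.o),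
    add_right_comm _ (g x) (g y)]

theorem Par.cM_lt (h : a.OK) (ht : t ≤ TT a.q) (hg : ∀ x, g x ≤ cc a.q * t) {x y : Fin a.m}
    (hx : x ≠ a.o) (hy : y ≠ a.o) : a.cM t g x y < BB a.q := by
  have h1 : cc a.q * t ≤ 2 * QQ a.q ^ 515 := by
    calc cc a.q * t ≤ QQ a.q ^ 3 * (2 * QQ a.q ^ 512) :=
          Nat.mul_le_mul_left _ (ht.trans (TT_le h.big))
      _ = 2 * QQ a.q ^ 515 := by rw [mul_left_comm, ← pow_add]
  have h2 : T1 a.q ≤ QQ a.q ^ 515 := wtsA_pow_le _ (by norm_num)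
  have h3 : 6 * QQ a.q ^ 515 ≤ QQ a.q ^ 516 := wtsA_mul_pow h.big (by norm_num) 515
  have h4 : QQ a.q ^ 516 ≤ BB a.q := wtsA_pow_le _ (by norm_num)
  have h5 : 0 < QQ a.q ^ 515 := pow_pos (wtsA_QQ_pos _) _
  have h6 := hg x
  have h7 := hg y
  simp only [Par.cM, hx, hy, or_self, if_false]
  split_ifs <;> omega

theorem wtsA_root (a : Par) (t : ℕ) (g : Fin a.m → ℕ) {x : Fin a.m} (hx : x ≠ a.o) :
    a.cM t g x a.o = BB a.q := by
  simp [Par.cM, hx]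

theorem wtsA_ex_le (ht : t ≤ TT a.q) (x : Fin a.m) : a.ex t x ≤ DD a.q := by
  unfold Par.ex
  unfold TT at ht
  split_ifs <;> omega

theorem Par.wM_ultra (h : a.OK) (ht : t ≤ TT a.q) (g : Fin a.m → ℕ) :
    Ultra (a.wM t g) (a.uM t g) (DD a.q) := by
  have hs : ∀ x y, a.uM t g x y = a.uM t g y x := FW_symm (Par.cM_symm h t g) _
  have hle : ∀ x y, a.uM t g x y ≤ a.cM t g x y := FW_le _ _
  have hself : ∀ x, a.uM t g x x = 0 := fun x =>
    Nat.le_zero.1 ((hle x x).trans (by simp [Par.cM]))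
  have hroot : ∀ x, x ≠ a.o → a.uM t g x a.o = BB a.q := fun x hx =>
    le_antisymm ((hle _ _).trans (wtsA_root a t g hx).le)
      (FW_root (fun y hy => (wtsA_root a t g hy).ge) _ hx)
  refine ⟨fun x y => ?_, fun x => by simp [Par.wM], hs, hself, FW_ultra _, fun x y => ?_,
    fun x y => ?_⟩
  · unfold Par.wM
    rw [hs x y, Par.cM_symm h t g x y]
    by_cases hxy : x = y
    · simp [hxy]
    · by_cases hx : x = a.o
      · subst hx
        simp [hxy, Ne.symm hxy]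
      · by_cases hy : y = a.o
        · subst hy
          simp [hxy, Ne.symm hxy]
        · simp [hxy, Ne.symm hxy, hx, hy]
  · unfold Par.wM
    split_ifs with h1 h2 h3
    · rw [h1, hself]
    · subst h2
      rw [hroot x h1]
      omega
    · subst h3
      rw [hs, hroot y h2]
      omega
    · have := hle x y
      omega
  · unfold Par.wM
    split_ifs with h1 h2 h3
    · omega
    · subst h2
      have := wtsA_ex_le ht x
      rw [hroot x h1]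
      omega
    · subst h3
      have := wtsA_ex_le ht y
      rw [hs, hroot y h2]
      omega
    · omega

theorem Par.upd_le (hg : ∀ x, g x ≤ cc a.q * t) (x y : Fin a.m) :
    a.upd t g x y ≤ cc a.q * (t + 1) := by
  have := hg y
  rw [Nat.mul_succ]
  unfold Par.upd
  split_ifs <;> omega

theorem wtsA_cost_le {m : ℕ} {W W' : Fin m → Fin m → ℕ} {e : ℕ} (h : ∀ x y, W x y ≤ W' x y + e)
    (σ : Fin m → Fin m) : cost W σ ≤ cost W' σ + m * e := by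
  unfold cost
  refine (sum_le_sum fun v _ => h v (σ v)).trans (le_of_eq ?_)
  rw [sum_add_distrib]
  simp

theorem Par.cost2_le (h : a.OK) (ht : t ≤ TT a.q) (hg : ∀ x, g x ≤ cc a.q * t)
    (z : PM (Fin a.m) × PM (Fin a.m)) : cost2 (a.wM t g) z ≤ QQ a.q ^ 522 := by
  have h1 : DD a.q ≤ BB a.q := (wtsA_DD_le h.big).trans (wtsA_pow_le _ (by norm_num))
  have h2 : ∀ x y, a.wM t g x y ≤ (fun _ _ => 0) x y + 2 * BB a.q := by
    intro x y
    have h3 := wtsA_ex_le ht x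
    have h4 := wtsA_ex_le ht y
    unfold Par.wM
    split_ifs with h5 h6 h7
    · omega
    · omega
    · omega
    · have := Par.cM_lt h ht hg h7 h6
      omega
  have h3 : ∀ σ, cost (a.wM t g) σ ≤ 2 * QQ a.q ^ 521 := fun σ => by
    have h4 := wtsA_cost_le h2 σ
    have h5 : cost (fun _ _ : Fin a.m => 0) σ = 0 := by simp [cost]
    have h6 : a.m * (2 * BB a.q) ≤ QQ a.q * (2 * BB a.q) := Nat.mul_le_mul_right _ h.lt.le
    have h7 : QQ a.q * (2 * BB a.q) = 2 * QQ a.q ^ 521 := by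
      rw [mul_left_comm, BB, ← pow_succ']
    omega
  have h4 : 4 * QQ a.q ^ 521 ≤ QQ a.q ^ 522 := wtsA_mul_pow h.big (by norm_num) 521
  have h5 := h3 z.1.1
  have h6 := h3 z.2.1
  unfold cost2
  omega

theorem Par.cost_step (h : a.OK) (t : ℕ) (g : Fin a.m → ℕ) (x : Fin a.m) (σ : Fin a.m → Fin a.m) :
    cost (a.wM t g) σ ≤ cost (a.wM (t + 1) (a.upd t g x)) σ ∧
      cost (a.wM (t + 1) (a.upd t g x)) σ ≤ cost (a.wM t g) σ + 3 * QQ a.q ^ 4 := by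
  have hu : ∀ y, g y ≤ a.upd t g x y ∧ a.upd t g x y ≤ g y + cc a.q := fun y => by
    unfold Par.upd
    split_ifs <;> omega
  have hc : ∀ u v, a.cM t g u v ≤ a.cM (t + 1) (a.upd t g x) u v + 0 ∧
      a.cM (t + 1) (a.upd t g x) u v ≤ a.cM t g u v + (2 * cc a.q + 1) := fun u v => by
    have h1 := hu u
    have h2 := hu v
    unfold Par.cM
    split_ifs <;> omega
  have hw : ∀ u v, a.wM t g u v ≤ a.wM (t + 1) (a.upd t g x) u v + 0 ∧
      a.wM (t + 1) (a.upd t g x) u v ≤ a.wM t g u v + (2 * cc a.q + 1) := fun u v => by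
    have h1 : a.uM t g u v ≤ a.uM (t + 1) (a.upd t g x) u v + 0 :=
      FW_mono (fun u v => (hc u v).1) _ u v
    have h2 : a.uM (t + 1) (a.upd t g x) u v ≤ a.uM t g u v + (2 * cc a.q + 1) :=
      FW_mono (fun u v => (hc u v).2) _ u v
    have h3 := hc u v
    unfold Par.wM Par.ex
    split_ifs <;> omega
  refine ⟨by simpa using wtsA_cost_le (fun u v => (hw u v).1) σ,
    (wtsA_cost_le (fun u v => (hw u v).2) σ).trans (Nat.add_le_add_left ?_ _)⟩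
  have h1 : 0 < cc a.q := pow_pos (wtsA_QQ_pos _) _
  calc a.m * (2 * cc a.q + 1) ≤ QQ a.q * (3 * cc a.q) := Nat.mul_le_mul h.lt.le (by omega)
    _ = 3 * QQ a.q ^ 4 := by rw [mul_left_comm, cc, ← pow_succ']

theorem Par.ZZ_pos (h : a.OK) (t : ℕ) (g : Fin a.m → ℕ) : 0 < a.ZZ t g := by
  have := h.nonempty
  exact sum_pos (fun X _ => pow_pos (be_pos h.big) _) univ_nonempty

theorem Par.pi_pos (h : a.OK) (t : ℕ) (g : Fin a.m → ℕ) (X : PM (Fin a.m)) : 0 < a.pi t g X :=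
  div_pos (pow_pos (be_pos h.big) _) (Par.ZZ_pos h t g)

theorem Par.pi_sum (h : a.OK) (t : ℕ) (g : Fin a.m → ℕ) : ∑ X, a.pi t g X = 1 := by
  unfold Par.pi
  rw [← sum_div]
  exact div_self (Par.ZZ_pos h t g).ne'

theorem wtsA_chi {Ω : Type} [Fintype Ω] [Nonempty Ω] {f f' : Ω → ℝ} {ε : ℝ} (h0 : 0 ≤ ε)
    (h1 : ε ≤ 1 / 2) (hf : ∀ x, 0 < f' x) (h2 : ∀ x, f' x ≤ f x)
    (h3 : ∀ x, (1 - ε) * f x ≤ f' x) :
    ∑ x, (f x / ∑ y, f y - f' x / ∑ y, f' y) ^ 2 / (f' x / ∑ y, f' y) ≤ 4 * ε ^ 2 := by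
  have hZ' : 0 < ∑ y, f' y := sum_pos (fun x _ => hf x) univ_nonempty
  have hZ1 : ∑ y, f' y ≤ ∑ y, f y := sum_le_sum fun x _ => h2 x
  have hZ2 : (1 - ε) * ∑ y, f y ≤ ∑ y, f' y := by
    rw [mul_sum]
    exact sum_le_sum fun x _ => h3 x
  have hZ : 0 < ∑ y, f y := hZ'.trans_le hZ1
  have h4 : ∑ x, 4 * ε ^ 2 * (f' x / ∑ y, f' y) = 4 * ε ^ 2 := by
    rw [← mul_sum, ← sum_div, div_self hZ'.ne', mul_one]
  rw [← h4]
  refine sum_le_sum fun x _ => ?_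
  have hp : 0 < f' x / ∑ y, f' y := div_pos (hf x) hZ'
  have hx := hf x
  have hx' := h2 x
  have h5 : f x / ∑ y, f y ≤ (1 + 2 * ε) * (f' x / ∑ y, f' y) := by
    rw [← mul_div_assoc]
    refine div_le_div₀ (by positivity) ?_ hZ' hZ1
    have h6 := mul_le_mul_of_nonneg_left (h3 x) (by positivity : 0 ≤ 1 + 2 * ε)
    have h7 : 0 ≤ ε * (1 - 2 * ε) * f x := mul_nonneg (mul_nonneg h0 (by linarith)) (by linarith)
    linarith
  have h6 : (1 - ε) * (f' x / ∑ y, f' y) ≤ f x / ∑ y, f y := by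
    rw [← mul_div_assoc, div_le_div_iff₀ hZ' hZ]
    have h7 := mul_le_mul_of_nonneg_left hZ2 hx.le
    have h8 := mul_le_mul_of_nonneg_right hx' hZ'.le
    linarith
  rw [div_le_iff₀ hp]
  have h7 : 0 ≤ ε * (f' x / ∑ y, f' y) := by positivity
  have h8 : (f x / ∑ y, f y - f' x / ∑ y, f' y) ^ 2 ≤ (2 * ε * (f' x / ∑ y, f' y)) ^ 2 :=
    sq_le_sq' (by linarith) (by linarith)
  linarith

theorem Par.chi_step (h : a.OK) (t : ℕ) (g : Fin a.m → ℕ) (x : Fin a.m) :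
    (QQ a.q : ℝ) ^ 1000 * ∑ X, (a.pi t g X - a.pi (t + 1) (a.upd t g x) X) ^ 2 /
      a.pi (t + 1) (a.upd t g x) X ≤ 1 := by
  have := h.nonempty
  have hb := be_pos h.big
  have hb1 := (be_lt a.q).le
  have hR := wtsA_R_pos a.q 506
  have hR' := wtsA_pow_real h.big (i := 506) (by norm_num)
  have e1 : 1 - 3 / (QQ a.q : ℝ) ^ 506 ≤ be a.q ^ (3 * QQ a.q ^ 4) := by
    have h1 := one_add_mul_le_pow (a := -(1 / (QQ a.q : ℝ) ^ 510))
      (by linarith [wtsA_inv_le h.big]) (3 * QQ a.q ^ 4)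
    rw [← sub_eq_add_neg] at h1
    refine le_trans (le_of_eq ?_) h1
    have h2 : (QQ a.q : ℝ) ^ 510 = (QQ a.q : ℝ) ^ 4 * (QQ a.q : ℝ) ^ 506 := by rw [← pow_add]
    have h3 := wtsA_R_pos a.q 4
    rw [h2, Nat.cast_mul, Nat.cast_pow, Nat.cast_ofNat]
    generalize (QQ a.q : ℝ) ^ 506 = R at hR ⊢
    generalize (QQ a.q : ℝ) ^ 4 = S at h3 ⊢
    field_simp
    ring
  have e2 := wtsA_chi (f := fun X : PM (Fin a.m) => be a.q ^ cost (a.wM t g) X.1)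
    (f' := fun X => be a.q ^ cost (a.wM (t + 1) (a.upd t g x)) X.1)
    (ε := 3 / (QQ a.q : ℝ) ^ 506) (by positivity)
    (by rw [div_le_iff₀ hR]; linarith) (fun X => pow_pos hb _)
    (fun X => pow_le_pow_of_le_one hb.le hb1 (Par.cost_step h t g x X.1).1)
    (fun X => by
      refine le_trans ?_ (pow_le_pow_of_le_one hb.le hb1 (Par.cost_step h t g x X.1).2)
      rw [pow_add, mul_comm]
      exact mul_le_mul_of_nonneg_left e1 (pow_pos hb _).le)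
  refine (mul_le_mul_of_nonneg_left e2 (wtsA_R_pos a.q 1000).le).trans ?_
  have h4 : ((QQ a.q : ℝ) ^ 506) ^ 2 = (QQ a.q : ℝ) ^ 1000 * (QQ a.q : ℝ) ^ 12 := by
    rw [← pow_mul, ← pow_add]
  have h5 := wtsA_pow_real h.big (i := 12) (by norm_num)
  have h6 := wtsA_R_pos a.q 1000
  rw [div_pow, h4]
  generalize (QQ a.q : ℝ) ^ 1000 = R at h6 ⊢
  generalize (QQ a.q : ℝ) ^ 12 = S at h5 ⊢
  have h7 : R * (4 * (3 ^ 2 / (R * S))) = 36 / S := by
    field_simp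
    norm_num
  rw [h7, div_le_one (by linarith)]
  linarith

theorem Par.gap (h : a.OK) (ht : t ≤ TT a.q) (g : Fin a.m → ℕ) :
    PairGap (a.pi t g) (pairL (a.wM t g) (be a.q) (QQ a.q)) (1 / (QQ a.q : ℝ) ^ 300) := by
  have := h.nonempty
  refine (pair_gap (Par.wM_ultra h ht g) a.z.pos h.lt (be_pos h.big) (be_lt a.q).le).mono ?_
  have hQ := wtsA_QQ_real h.big
  have h1 : (1 / (QQ a.q : ℝ) ^ 6) ^ 30 ≤ be a.q ^ (30 * DD a.q) := by
    rw [mul_comm, pow_mul]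
    exact pow_le_pow_left₀ (by positivity) (be_DD_ge h.big) 30
  have h2 : (2 : ℝ) ^ 28 ≤ (QQ a.q : ℝ) ^ 2 := by nlinarith
  have h3 : ((a.m : ℝ) + 1) ^ 30 ≤ (QQ a.q : ℝ) ^ 30 :=
    pow_le_pow_left₀ (by positivity) (by exact_mod_cast h.lt) 30
  have h4 : 2 ^ 28 * ((a.m : ℝ) + 1) ^ 30 * (QQ a.q : ℝ) ^ 4 ≤ (QQ a.q : ℝ) ^ 36 := by
    calc 2 ^ 28 * ((a.m : ℝ) + 1) ^ 30 * (QQ a.q : ℝ) ^ 4
        ≤ (QQ a.q : ℝ) ^ 2 * (QQ a.q : ℝ) ^ 30 * (QQ a.q : ℝ) ^ 4 := by gcongr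
      _ = _ := by rw [← pow_add, ← pow_add]
  refine le_trans ?_ (div_le_div₀ (pow_pos (be_pos h.big) _).le h1 (by positivity) h4)
  rw [one_div_pow, ← pow_mul, div_div, ← pow_add]
  exact one_div_le_one_div_of_le (wtsA_R_pos _ _)
    (pow_le_pow_right₀ (by linarith) (by norm_num))

end

end Vale.Agent.P308
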