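import Vale.Agent.P308.WtsA
import Vale.Agent.P308.Compl

namespace Vale.Agent.P308

open Finset

section
variable {a : Par} {t : ℕ} {g : Fin a.m → ℕ}

theorem WtsB_cost_zero (X : PM (Fin a.m)) : cost (a.wM 0 fun _ => 0) X.1 = 2 * BB a.q := by
  have : ∀ v, a.wM 0 (fun _ => 0) v (X.1 v) =
      (if v = a.o then BB a.q else 0) + if v = X.1 a.o then BB a.q else 0 := by
    intro v
    have h1 := X.ne v
    have h2 : v = X.1 a.o ↔ X.1 v = a.o := by rw [eq_comm, X.eq_iff]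
    simp only [Par.wM, Par.ex, Par.cM, h2]
    by_cases h3 : X.1 v = a.o
    · have h4 : v ≠ a.o := fun h => h1 (h3.trans h.symm)
      simp [h3, h4]
    · by_cases h4 : v = a.o
      · subst h4; simp [h1.symm, h3]
      · simp [h1.symm, h3, h4]
  simp only [cost, this, sum_add_distrib, sum_ite_eq', mem_univ, if_true]
  ring

theorem WtsB_ZZ_zero :
    a.ZZ 0 (fun _ => 0) = Fintype.card (PM (Fin a.m)) * be a.q ^ (2 * BB a.q) := by
  simp [Par.ZZ, WtsB_cost_zero]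

theorem WtsB_z_mem (h : a.OK) : a.z ∈ a.S1 := by simp [Par.S1, h.ne]

theorem WtsB_card_S1 : a.S1.card = a.m - 1 := by simp [Par.S1]

theorem WtsB_two_le (h : a.OK) : 2 ≤ a.m := by
  have h1 := a.z.2
  obtain ⟨k, hk⟩ := h.even
  omega

theorem WtsB_card_le (h : a.OK) : (a.S1.card : ℝ) ≤ QQ a.q := by
  have := h.lt
  rw [WtsB_card_S1]
  exact_mod_cast (by omega : a.m - 1 ≤ QQ a.q)

theorem WtsB_exp_eight : Real.exp 8 ≤ 3000 := by
  have h := Real.exp_one_lt_d9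
  have : Real.exp 8 = Real.exp 1 ^ 8 := by rw [← Real.exp_nat_mul]; norm_num
  rw [this]
  calc Real.exp 1 ^ 8 ≤ (2.7182818286 : ℝ) ^ 8 := by gcongr
    _ ≤ 3000 := by norm_num

theorem Par.pi_zero (h : a.OK) (X : PM (Fin a.m)) :
    a.pi 0 (fun _ => 0) X = 1 / Fintype.card (PM (Fin a.m)) := by
  have := (pow_pos (be_pos h.big) (2 * BB a.q)).ne'
  rw [Par.pi, WtsB_ZZ_zero, WtsB_cost_zero, mul_comm (Fintype.card (PM (Fin a.m)) : ℝ),
    div_mul_eq_div_div, div_self this]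

theorem Par.ZZ_zero (h : a.OK) :
    a.ZZ 0 (fun _ => 0) = be a.q ^ (2 * BB a.q) * ((a.m - 1).doubleFactorial : ℝ) := by
  have h1 := sum_PM (V := Fin a.m) fun _ _ => 1
  rw [haf_one (by simpa using h.even)] at h1
  simp only [prod_const_one, sum_const, card_univ, nsmul_eq_mul, mul_one, Fintype.card_fin] at h1
  rw [WtsB_ZZ_zero, h1, mul_comm]

theorem Par.sum_root (h : a.OK) (t : ℕ) (g : Fin a.m → ℕ) (φ : Fin a.m → ℝ) :
    ∑ X : PM (Fin a.m), be a.q ^ cost (a.wM t g) X.1 * φ (X.1 a.o) =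
      ∑ x ∈ a.S1, be a.q ^ (2 * (BB a.q + a.ex t x)) * a.AW t g x * φ x := by
  have _h := h
  have h1 := sum_PM_root (fun u v => be a.q ^ a.wM t g u v) a.o φ
  simp only [prod_pow_eq_pow_sum] at h1
  refine h1.trans (sum_congr rfl fun x hx => ?_)
  have hx' : x ≠ a.o := (mem_erase.1 hx).1
  have e1 : a.wM t g a.o x = BB a.q + a.ex t x := by simp [Par.wM, hx', hx'.symm]
  have e2 : a.wM t g x a.o = BB a.q + a.ex t x := by simp [Par.wM, hx']
  rw [e1, e2, ← pow_add, ← two_mul]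
  rfl

theorem Par.AA_pos (h : a.OK) (t : ℕ) (g : Fin a.m → ℕ) {x : Fin a.m} (hx : x ∈ a.S1) :
    0 < a.AA t g x := by
  refine haf_pos (fun _ _ => pow_pos (be_pos h.big) _) ?_
  rw [card_erase_of_mem hx, WtsB_card_S1]
  have := WtsB_two_le h
  obtain ⟨k, hk⟩ := h.even
  exact ⟨k - 1, by omega⟩

theorem Par.AA_eq (h : a.OK) (t : ℕ) (g : Fin a.m → ℕ) {x : Fin a.m} (hx : x ∈ a.S1) :
    a.AA t g x = Real.exp (a.yy t g x) * a.AA t g a.z := by
  have h1 := Par.AA_pos h t g hx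
  have h2 := Par.AA_pos h t g (WtsB_z_mem h)
  rw [Par.yy, Real.exp_log (div_pos h1 h2), div_mul_cancel₀ _ h2.ne']

theorem WtsB_path (h : a.OK) (ht : t ≤ TT a.q) (hg : ∀ x, g x ≤ cc a.q * t) {x y : Fin a.m}
    (hx : x ∈ a.S1) (hy : y ∈ a.S1) :
    Relation.ReflTransGen (fun u v => u ∈ a.S1 ∧ v ∈ a.S1 ∧
      be a.q ^ (2 * a.uM t g x y) ≤ (be a.q ^ a.cM t g u v) ^ 2) x y := by
  have hk : a.uM t g x y < BB a.q :=
    (FW_le _ _ _ _).trans_lt (Par.cM_lt h ht hg (mem_erase.1 hx).1 (mem_erase.1 hy).1)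
  have key : ∀ w, Relation.ReflTransGen (fun u v => a.cM t g u v ≤ a.uM t g x y) x w →
      w ∈ a.S1 ∧ Relation.ReflTransGen (fun u v => u ∈ a.S1 ∧ v ∈ a.S1 ∧
        be a.q ^ (2 * a.uM t g x y) ≤ (be a.q ^ a.cM t g u v) ^ 2) x w := by
    intro w hw
    induction hw with
    | refl => exact ⟨hx, .refl⟩
    | @tail u v _ huv ih =>
      have hv : v ∈ a.S1 := by
        refine mem_erase.2 ⟨fun hv => ?_, mem_univ _⟩
        have hu := (mem_erase.1 ih.1).1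
        subst hv
        simp only [Par.cM, hu, if_false, or_true, if_true] at huv
        omega
      refine ⟨hv, ih.2.tail ⟨ih.1, hv, ?_⟩⟩
      rw [← pow_mul]
      exact pow_le_pow_of_le_one (be_pos h.big).le (be_lt _).le (by omega)
  exact (key y (FW_path le_rfl)).2

theorem Par.AW_bounds (h : a.OK) (ht : t ≤ TT a.q) (hg : ∀ x, g x ≤ cc a.q * t)
    (hy : ∀ x ∈ a.S1, |a.yy t g x| ≤ 2) {x : Fin a.m} (hx : x ∈ a.S1) :
    a.AA t g x ≤ a.AW t g x ∧ a.AW t g x ≤ (1 + 1 / (16 * QQ a.q)) * a.AA t g x := by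
  have hb := be_pos h.big
  have hb1 := (be_lt a.q).le
  have hw : ∀ u ∈ a.S1, ∀ v ∈ a.S1, u ≠ v →
      a.wM t g u v = min (a.cM t g u v) (DD a.q + a.uM t g u v) := fun u hu v hv huv => by
    simp [Par.wM, huv, (mem_erase.1 hu).1, (mem_erase.1 hv).1]
  have hle : ∀ u ∈ a.S1, ∀ v ∈ a.S1, u ≠ v → be a.q ^ a.cM t g u v ≤ be a.q ^ a.wM t g u v :=
    fun u hu v hv huv => pow_le_pow_of_le_one hb.le hb1 (by rw [hw u hu v hv huv]; omega)
  refine ⟨haf_mono (fun _ _ => (pow_pos hb _).le) fun u hu v hv huv =>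
    hle u (mem_of_mem_erase hu) v (mem_of_mem_erase hv) huv, ?_⟩
  have hQ : (65536 : ℝ) ≤ QQ a.q := by exact_mod_cast QQ_ge h.big
  have hθ : 16 * be a.q ^ (2 * DD a.q) * Real.exp 4 ^ 2 * (a.S1.card : ℝ) ^ 3 ≤
      1 / (16 * QQ a.q) := by
    have h1 : be a.q ^ (2 * DD a.q) ≤ (1 / (QQ a.q : ℝ) ^ 3) ^ 2 := by
      rw [mul_comm, pow_mul]
      gcongr
      exact be_DD_le h.big
    have h2 : Real.exp 4 ^ 2 ≤ 3000 := by
      rw [← Real.exp_nat_mul]; norm_num; exact WtsB_exp_eight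
    have h3 := WtsB_card_le h
    calc _ ≤ 16 * (1 / (QQ a.q : ℝ) ^ 3) ^ 2 * 3000 * (QQ a.q : ℝ) ^ 3 := by gcongr
      _ = 48000 / (QQ a.q : ℝ) ^ 3 := by field_simp; norm_num
      _ ≤ 1 / (16 * QQ a.q) := by
        rw [div_le_div_iff₀ (by positivity) (by positivity)]
        nlinarith [mul_le_mul hQ hQ (by norm_num) (by positivity)]
  have hθ1 : 1 / (16 * (QQ a.q : ℝ)) ≤ 1 := by
    rw [div_le_one (by positivity)]; linarith
  have hodd : Odd a.S1.card := by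
    rw [WtsB_card_S1]
    have := WtsB_two_le h
    obtain ⟨k, hk⟩ := h.even
    exact ⟨k - 1, by omega⟩
  have := completion (S := a.S1) hodd (b := fun u v => be a.q ^ a.cM t g u v)
    (b' := fun u v => be a.q ^ a.wM t g u v) (h := fun u v => be a.q ^ (2 * a.uM t g u v))
    (C := Real.exp 4) (δ := be a.q ^ (2 * DD a.q)) (fun _ _ => pow_pos hb _)
    (fun _ _ => pow_pos hb _) (fun u v => by rw [Par.cM_symm h])
    (fun u v => by rw [(Par.wM_ultra h ht g).W_symm]) hle (fun u hu v hv huv => by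
      rw [hw u hu v hv huv]
      rcases le_total (a.cM t g u v) (DD a.q + a.uM t g u v) with h' | h'
      · rw [min_eq_left h']
        exact le_add_of_nonneg_right (by positivity)
      · rw [min_eq_right h', ← pow_add, ← mul_add, ← pow_mul, mul_comm]
        exact le_add_of_nonneg_left (by positivity))
    (fun _ _ => pow_pos hb _) (fun u hu v hv _ => WtsB_path h ht hg hu hv)
    (fun u hu v hv => by
      change a.AA t g u ≤ Real.exp 4 * a.AA t g v
      rw [Par.AA_eq h t g hu, Par.AA_eq h t g hv, ← mul_assoc, ← Real.exp_add]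
      have h1 := abs_le.1 (hy u hu)
      have h2 := abs_le.1 (hy v hv)
      have h3 := Par.AA_pos h t g (WtsB_z_mem h)
      gcongr
      linarith)
    (by positivity) (hθ.trans hθ1) x hx
  refine this.trans ?_
  change _ * a.AA t g x ≤ _
  have := Par.AA_pos h t g hx
  gcongr

theorem Par.PhiY_nonneg (a : Par) (t : ℕ) (g : Fin a.m → ℕ) : 0 ≤ a.PhiY t g :=
  sum_nonneg fun _ _ => by positivity

theorem Par.PhiE_nonneg (a : Par) (t : ℕ) (g : Fin a.m → ℕ) (S : ℕ) : 0 ≤ a.PhiE t g S := by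
  unfold Par.PhiE; positivity

theorem Par.PhiY_lt (h1 : a.PhiY t g < 1) : ∀ x ∈ a.S1, |a.yy t g x| ≤ 2 := by
  intro x hx
  have h2 := single_le_sum (f := fun x => Real.exp ((QQ a.q : ℝ) ^ 3 * (a.yy t g x - 2)) +
    Real.exp (-(QQ a.q : ℝ) ^ 3 * (a.yy t g x + 2))) (fun _ _ => by positivity) hx
  have h3 := h2.trans_lt h1
  have hQ : (0 : ℝ) < (QQ a.q : ℝ) ^ 3 := by unfold QQ; positivity
  have h4 := Real.exp_pos ((QQ a.q : ℝ) ^ 3 * (a.yy t g x - 2))
  have h5 := Real.exp_pos (-(QQ a.q : ℝ) ^ 3 * (a.yy t g x + 2))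
  have h6 : (QQ a.q : ℝ) ^ 3 * (a.yy t g x - 2) < 0 := Real.exp_lt_one_iff.1 (by linarith)
  have h7 : -(QQ a.q : ℝ) ^ 3 * (a.yy t g x + 2) < 0 := Real.exp_lt_one_iff.1 (by linarith)
  rw [abs_le]
  constructor <;> nlinarith

theorem Par.PhiY_zero (h : a.OK) :
    a.PhiY 0 (fun _ => 0) ≤ 2 * QQ a.q * Real.exp (-(QQ a.q : ℝ) ^ 3) := by
  have hA : ∀ x ∈ a.S1, a.AA 0 (fun _ => 0) x = ((a.m - 1 - 1 - 1).doubleFactorial : ℝ) := by
    intro x hx
    have he : Even (a.S1.erase x).card := by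
      rw [card_erase_of_mem hx, WtsB_card_S1]
      have := WtsB_two_le h
      obtain ⟨k, hk⟩ := h.even
      exact ⟨k - 1, by omega⟩
    have := haf_one he
    rw [card_erase_of_mem hx, WtsB_card_S1] at this
    rw [← this]
    refine haf_congr fun u hu v hv huv => ?_
    simp [Par.cM, huv, (mem_erase.1 (mem_of_mem_erase hu)).1, (mem_erase.1 (mem_of_mem_erase hv)).1]
  have hy : ∀ x ∈ a.S1, a.yy 0 (fun _ => 0) x = 0 := fun x hx => by
    rw [Par.yy, hA x hx, ← hA _ (WtsB_z_mem h), div_self (Par.AA_pos h _ _ (WtsB_z_mem h)).ne',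
      Real.log_one]
  have hQ : (0 : ℝ) < (QQ a.q : ℝ) ^ 3 := by unfold QQ; positivity
  calc a.PhiY 0 (fun _ => 0) ≤ ∑ _x ∈ a.S1, 2 * Real.exp (-(QQ a.q : ℝ) ^ 3) := by
        refine sum_le_sum fun x hx => ?_
        rw [hy x hx, two_mul]
        gcongr <;> linarith
    _ = a.S1.card * (2 * Real.exp (-(QQ a.q : ℝ) ^ 3)) := by simp
    _ ≤ QQ a.q * (2 * Real.exp (-(QQ a.q : ℝ) ^ 3)) :=
        mul_le_mul_of_nonneg_right (WtsB_card_le h) (by positivity)
    _ = _ := by ring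

theorem Par.PhiE_zero (h : a.OK) :
    a.PhiE 0 (fun _ => 0) 0 ≤ 2 * Real.exp (1 - (QQ a.q : ℝ) ^ 2 / 16) := by
  have he : a.err 0 (fun _ => 0) 0 = 0 := by
    rw [Par.err, div_self (Par.ZZ_pos h _ _).ne']; simp
  have hQ : (65536 : ℝ) ≤ QQ a.q := by exact_mod_cast QQ_ge h.big
  have hT : (TT a.q : ℝ) ≤ 2 * (QQ a.q : ℝ) ^ 512 := by exact_mod_cast TT_le h.big
  rw [Par.PhiE, he]
  simp only [mul_zero, Real.exp_zero, one_add_one_eq_two, Nat.cast_zero, sub_zero]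
  gcongr
  rw [div_le_one (by positivity)]
  refine hT.trans ?_
  have h1 : (QQ a.q : ℝ) ^ 513 ≤ (QQ a.q : ℝ) ^ 1000 :=
    pow_le_pow_right₀ (by linarith) (by norm_num)
  refine le_trans ?_ h1
  rw [pow_succ' _ 512]
  gcongr
  linarith

end

end Vale.Agent.P308
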